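import Vale.Agent.P155.F.DetR

/-!
# P155, block F: signs of L-shaped cuts

`sc f g u v` is `-1` if the edge `{u,v}` crosses the L-shaped path of faces from `f` to `g`
(first horizontally, then vertically), and `1` otherwise.
-/

namespace Vale.Agent.P155.F

open Finset

/-- sign of the vertical edge `{(j,y),(j,y+1)}` -/
noncomputable def sv (j y : ℤ) (u v : Pt) : ℝ :=
  if (u = (j, y) ∧ v = (j, y + 1)) ∨ (u = (j, y + 1) ∧ v = (j, y)) then -1 else 1

/-- sign of the horizontal edge `{(x,i),(x+1,i)}` -/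
noncomputable def sh (x i : ℤ) (u v : Pt) : ℝ :=
  if (u = (x, i) ∧ v = (x + 1, i)) ∨ (u = (x + 1, i) ∧ v = (x, i)) then -1 else 1

/-- sign of the L-shaped cut from the face `f` to the face `g` -/
noncomputable def sc (f g : Pt) (u v : Pt) : ℝ :=
  (∏ j ∈ Ioc (min f.1 g.1) (max f.1 g.1), sv j f.2 u v) *
    ∏ i ∈ Ioc (min f.2 g.2) (max f.2 g.2), sh g.1 i u v

theorem sv_cases (j y : ℤ) (u v : Pt) : sv j y u v = 1 ∨ sv j y u v = -1 := by
  unfold sv; split_ifs <;> simp

theorem sh_cases (j y : ℤ) (u v : Pt) : sh j y u v = 1 ∨ sh j y u v = -1 := by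
  unfold sh; split_ifs <;> simp

theorem prod_pm {ι : Type*} (s : Finset ι) (f : ι → ℝ) (hf : ∀ i ∈ s, f i = 1 ∨ f i = -1) :
    ∏ i ∈ s, f i = 1 ∨ ∏ i ∈ s, f i = -1 := by
  classical
  induction s using Finset.induction_on with
  | empty => simp
  | insert a s ha ih =>
    rw [prod_insert ha]
    have h1 := hf a (mem_insert_self _ _)
    have h2 := ih (fun i hi => hf i (mem_insert_of_mem hi))
    rcases h1 with h1 | h1 <;> rcases h2 with h2 | h2 <;> rw [h1, h2] <;> simp

theorem sc_cases (f g u v : Pt) : sc f g u v = 1 ∨ sc f g u v = -1 := by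
  unfold sc
  have h1 := prod_pm (Ioc (min f.1 g.1) (max f.1 g.1)) (fun j => sv j f.2 u v)
    (fun j _ => sv_cases j f.2 u v)
  have h2 := prod_pm (Ioc (min f.2 g.2) (max f.2 g.2)) (fun i => sh g.1 i u v)
    (fun i _ => sh_cases g.1 i u v)
  rcases h1 with h1 | h1 <;> rcases h2 with h2 | h2 <;> rw [h1, h2] <;> simp

theorem abs_sc (f g u v : Pt) : |sc f g u v| = 1 := by
  rcases sc_cases f g u v with h | h <;> rw [h] <;> simp

theorem sc_ne_zero (f g u v : Pt) : sc f g u v ≠ 0 := by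
  rcases sc_cases f g u v with h | h <;> rw [h] <;> norm_num

/-- The vertices incident to the cut, as a superset: two rows and two columns. -/
noncomputable def cutV (f g : Pt) : Finset Pt :=
  (Ioc (min f.1 g.1) (max f.1 g.1) ×ˢ {f.2, f.2 + 1}) ∪
    ({g.1, g.1 + 1} ×ˢ Ioc (min f.2 g.2) (max f.2 g.2))

theorem sc_eq_one {f g u : Pt} (v : Pt) (hu : u ∉ cutV f g) : sc f g u v = 1 := by
  unfold cutV at hu
  rw [mem_union, not_or] at hu
  obtain ⟨hu1, hu2⟩ := hu
  unfold sc
  rw [prod_eq_one, prod_eq_one, one_mul]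
  · intro i hi
    unfold sh
    rw [if_neg]
    rintro (⟨h1, _⟩ | ⟨h1, _⟩) <;>
    · apply hu2
      rw [h1, mem_product]
      simp only [mem_insert, mem_singleton]
      exact ⟨by simp, hi⟩
  · intro j hj
    unfold sv
    rw [if_neg]
    rintro (⟨h1, _⟩ | ⟨h1, _⟩) <;>
    · apply hu1
      rw [h1, mem_product]
      simp only [mem_insert, mem_singleton]
      exact ⟨hj, by simp⟩

/-- Number of vertices incident to the cut. -/
theorem card_cutV_le (f g : Pt) : ((cutV f g).card : ℤ) ≤ 2 * |f.1 - g.1| + 2 * |f.2 - g.2| := by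
  have h1 : (cutV f g).card ≤
      (Ioc (min f.1 g.1) (max f.1 g.1)).card * 2 + 2 * (Ioc (min f.2 g.2) (max f.2 g.2)).card := by
    unfold cutV
    refine (card_union_le _ _).trans (add_le_add ?_ ?_)
    · rw [card_product]
      exact Nat.mul_le_mul_left _ card_le_two
    · rw [card_product]
      exact Nat.mul_le_mul_right _ card_le_two
  have h2 : ((Ioc (min f.1 g.1) (max f.1 g.1)).card : ℤ) = |f.1 - g.1| := by
    rw [Int.card_Ioc, Int.toNat_of_nonneg (by simp)]
    rcases le_total f.1 g.1 with h | h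
    · rw [max_eq_right h, min_eq_left h, abs_of_nonpos (by omega)]; ring
    · rw [max_eq_left h, min_eq_right h, abs_of_nonneg (by omega)]
  have h3 : ((Ioc (min f.2 g.2) (max f.2 g.2)).card : ℤ) = |f.2 - g.2| := by
    rw [Int.card_Ioc, Int.toNat_of_nonneg (by simp)]
    rcases le_total f.2 g.2 with h | h
    · rw [max_eq_right h, min_eq_left h, abs_of_nonpos (by omega)]; ring
    · rw [max_eq_left h, min_eq_right h, abs_of_nonneg (by omega)]
  have h4 : ((cutV f g).card : ℤ) ≤
      ((Ioc (min f.1 g.1) (max f.1 g.1)).card : ℤ) * 2 +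
        2 * ((Ioc (min f.2 g.2) (max f.2 g.2)).card : ℤ) := by exact_mod_cast h1
  rw [h2, h3] at h4
  linarith

/-! ## Telescoping along the cut -/

theorem telescope (s e : ℤ → ℝ) (hs : ∀ x, s x = 1 ∨ s x = -1)
    (hstep : ∀ x, s x = s (x - 1) * e x) (a b : ℤ) (hab : a ≤ b) :
    ∏ j ∈ Ioc a b, e j = s a * s b := by
  have hsq : ∀ x, s x * s x = 1 := by
    intro x
    rcases hs x with h | h <;> rw [h] <;> norm_num
  have he : ∀ x, e x = s (x - 1) * s x := by
    intro x
    rw [hstep x, ← mul_assoc, hsq, one_mul]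
  obtain ⟨n, rfl⟩ : ∃ n : ℕ, b = a + n := ⟨(b - a).toNat, by omega⟩
  clear hab
  induction n with
  | zero => simp [hsq]
  | succ n ih =>
    have h1 : Ioc a (a + ((n + 1 : ℕ) : ℤ)) = insert (a + n + 1) (Ioc a (a + n)) := by
      ext x
      simp only [mem_insert, mem_Ioc]
      push_cast
      omega
    rw [h1, prod_insert (by simp), ih, he (a + n + 1)]
    have h2 : a + (n : ℤ) + 1 - 1 = a + n := by ring
    have h3 : a + ((n + 1 : ℕ) : ℤ) = a + n + 1 := by push_cast; ring
    rw [h2, h3]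
    calc s (a + n) * s (a + n + 1) * (s a * s (a + n))
        = (s (a + n) * s (a + n)) * (s a * s (a + n + 1)) := by ring
      _ = s a * s (a + n + 1) := by rw [hsq, one_mul]

theorem telescope' (s e : ℤ → ℝ) (hs : ∀ x, s x = 1 ∨ s x = -1)
    (hstep : ∀ x, s x = s (x - 1) * e x) (a b : ℤ) :
    ∏ j ∈ Ioc (min a b) (max a b), e j = s a * s b := by
  rw [telescope s e hs hstep _ _ (by simp)]
  rcases le_total a b with h | h
  · rw [min_eq_left h, max_eq_right h]
  · rw [min_eq_right h, max_eq_left h, mul_comm]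

/-- The product along the cut of edge indicators is the change of a face function. -/
theorem telescope_cut (s : Pt → ℝ) (ev eh : ℤ → ℤ → ℝ) (hs : ∀ x, s x = 1 ∨ s x = -1)
    (hv : ∀ x y, s (x, y) = s (x - 1, y) * ev x y) (hh : ∀ x y, s (x, y) = s (x, y - 1) * eh x y)
    (f g : Pt) :
    (∏ j ∈ Ioc (min f.1 g.1) (max f.1 g.1), ev j f.2) *
      ∏ i ∈ Ioc (min f.2 g.2) (max f.2 g.2), eh g.1 i = s f * s g := by
  rw [telescope' (fun x => s (x, f.2)) (fun x => ev x f.2) (fun x => hs _) (fun x => hv x f.2),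
    telescope' (fun y => s (g.1, y)) (fun y => eh g.1 y) (fun y => hs _) (fun y => hh g.1 y)]
  have h1 : s (g.1, f.2) * s (g.1, f.2) = 1 := by
    rcases hs (g.1, f.2) with h | h <;> rw [h] <;> norm_num
  calc s (f.1, f.2) * s (g.1, f.2) * (s (g.1, f.2) * s (g.1, g.2))
      = (s (g.1, f.2) * s (g.1, f.2)) * (s (f.1, f.2) * s (g.1, g.2)) := by ring
    _ = s f * s g := by rw [h1, one_mul]

open Classical in
/-- `-1` if the loop `L` surrounds the face `f`, `1` otherwise. -/
noncomputable def ss (ω : Conf) (L : Set Pt) (f : Pt) : ℝ := if surr ω L f then -1 else 1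

theorem ss_cases (ω : Conf) (L : Set Pt) (f : Pt) : ss ω L f = 1 ∨ ss ω L f = -1 := by
  unfold ss; split_ifs <;> simp

open Classical in
/-- The statement of `F/CutLoop.lean` (helper905): the product over a loop of the cut signs. -/
def CutLoop : Prop := ∀ (V : Finset Pt) (m1 m2 : Pt → Pt), IsPM V m1 → IsPM V m2 →
  ∀ L ∈ Loops (m1, m2), ∀ f g : Pt,
    ∏ w ∈ V.filter (fun w => White w ∧ w ∈ L), (sc f g w (m1 w) * sc f g w (m2 w)) =
      ss (m1, m2) L f * ss (m1, m2) L g

open Classical in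
/-- The Kasteleyn sign of a loop (helper925 / block A2): all lattice points strictly inside the
loop are counted. -/
def SignLoop : Prop := ∀ (V : Finset Pt) (m1 m2 : Pt → Pt), IsPM V m1 → IsPM V m2 →
  ∀ L ∈ Loops (m1, m2),
    ∏ w ∈ V.filter (fun w => White w ∧ w ∈ L), (K w (m1 w) * K w (m2 w)) =
      (-1) ^ (Set.ncard {v | v ∉ L ∧ surr (m1, m2) L v} +
        (V.filter (fun w => White w ∧ w ∈ L)).card + 1)

/-- Points strictly inside a loop: finitely many, their neighbours are inside or on the loop, and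
inside a Temperleyan graph they are vertices (block A1 / L). -/
def InsideLoop : Prop := ∀ (V : Finset Pt) (m1 m2 : Pt → Pt), IsPM V m1 → IsPM V m2 →
  ∀ L ∈ Loops (m1, m2), {v | v ∉ L ∧ surr (m1, m2) L v}.Finite ∧
    (∀ u v, Adj u v → u ∉ L → v ∉ L → (surr (m1, m2) L u ↔ surr (m1, m2) L v)) ∧
    ∀ T : Temp, V ⊆ T.V → ∀ v, v ∉ L → surr (m1, m2) L v → v ∈ T.V

end Vale.Agent.P155.F
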