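import Vale.Agent.P155.F.Cut
import Vale.Agent.P155.A.InLoop

/-!
# P155, block F: the topological input `InsideLoop`
-/

namespace Vale.Agent.P155.F

theorem insideLoop : InsideLoop := by
  intro V m1 m2 h1 h2 L hL
  have hω : ((m1, m2) : Conf) ∈ DD V := Finset.mem_product.2 ⟨mem_PM.2 h1, mem_PM.2 h2⟩
  refine ⟨A1.strict_finite hω hL, ?_, ?_⟩
  · intro u v huv hu hv
    exact A1.surr_adj hω hL huv hu hv
  · intro T hT v hv h
    exact A1.strict_mem hT hω hL hv h

end Vale.Agent.P155.F
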