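import Vale.Agent.P155.F.Chain

/-!
# P155, TIGHT: directed arcs

`suc ω v` is the successor of `v` on its loop, directed so that edges of the first matching go
from white to black.
-/

namespace Vale.Agent.P155.SW

open Finset Vale.Agent.P155

/-- the successor on the directed loops -/
def suc (ω : Conf) (v : Pt) : Pt := if White v then ω.1 v else ω.2 v

/-- the predecessor on the directed loops -/
def pre (ω : Conf) (v : Pt) : Pt := if White v then ω.2 v else ω.1 v

theorem suc_white {ω : Conf} {v : Pt} (h : White v) : suc ω v = ω.1 v := by simp [suc, h]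

theorem suc_black {ω : Conf} {v : Pt} (h : Black v) : suc ω v = ω.2 v := by
  have : ¬ White v := black_iff_not_white.1 h
  simp [suc, this]

theorem pre_white {ω : Conf} {v : Pt} (h : White v) : pre ω v = ω.2 v := by simp [pre, h]

theorem pre_black {ω : Conf} {v : Pt} (h : Black v) : pre ω v = ω.1 v := by
  have : ¬ White v := black_iff_not_white.1 h
  simp [pre, this]

theorem same_suc (ω : Conf) (v : Pt) : Same ω v (suc ω v) := by
  unfold suc
  split_ifs
  exacts [same_fst ω v, same_snd ω v]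

theorem same_iter (ω : Conf) (v : Pt) (n : ℕ) : Same ω v ((suc ω)^[n] v) := by
  induction n with
  | zero => exact same_refl _ _
  | succ n ih =>
    rw [Function.iterate_succ_apply']
    exact same_trans ih (same_suc ω _)

/-- an arc avoiding the cut points (except possibly at its ends) stays connected after cutting -/
theorem same_cut_iter {P : Finset Pt} {ω : Conf} {w : Pt} {n : ℕ}
    (h : ∀ j < n, Black ((suc ω)^[j] w) → (suc ω)^[j] w ∉ P) :
    Same (cut2 P ω) w ((suc ω)^[n] w) := by
  induction n with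
  | zero => exact same_refl _ _
  | succ n ih =>
    rw [Function.iterate_succ_apply']
    refine same_trans (ih (fun j hj => h j (by omega))) ?_
    by_cases hw : White ((suc ω)^[n] w)
    · rw [suc_white hw]
      exact same_fst (cut2 P ω) _
    · have hb : Black ((suc ω)^[n] w) := black_iff_not_white.2 hw
      rw [suc_black hb]
      have : ω.2 ((suc ω)^[n] w) = (cut2 P ω).2 ((suc ω)^[n] w) := by
        show _ = cut P ω.2 _
        unfold cut
        rw [if_neg (h n (by omega) hb)]
      rw [this]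
      exact same_snd (cut2 P ω) _

section

variable {V₁ V₂ : Finset Pt} {ω : Conf}

theorem color_fst (h1 : IsPM V₁ ω.1) {v : Pt} (hv : v ∈ V₁) : White (ω.1 v) ↔ Black v := by
  rw [white_iff_of_adj (h1.adj v hv), black_iff_not_white]

theorem color_snd (h2 : IsPM V₂ ω.2) {v : Pt} (hv : v ∈ V₂) : White (ω.2 v) ↔ Black v := by
  rw [white_iff_of_adj (h2.adj v hv), black_iff_not_white]

/-- the successor is injective where it moves -/
theorem pre_suc (h1 : IsPM V₁ ω.1) (h2 : IsPM V₂ ω.2) {v : Pt} (hv : suc ω v ≠ v) :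
    pre ω (suc ω v) = v := by
  by_cases hw : White v
  · rw [suc_white hw] at hv ⊢
    have hvV : v ∈ V₁ := by
      by_contra hc
      exact hv (h1.off v hc)
    have hb : Black (ω.1 v) := by
      rw [black_iff_not_white, color_fst h1 hvV, black_iff_not_white]
      exact not_not.2 hw
    rw [pre_black hb, h1.invol]
  · have hb : Black v := black_iff_not_white.2 hw
    rw [suc_black hb] at hv ⊢
    have hvV : v ∈ V₂ := by
      by_contra hc
      exact hv (h2.off v hc)
    have hw' : White (ω.2 v) := (color_snd h2 hvV).2 hb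
    rw [pre_white hw', h2.invol]

/-- A system of disjoint directed arcs: arc `i` starts at the white point `w i` and has
`2 k i + 1` steps, all of which move. -/
structure ArcSys {ι : Type*} (V₁ : Finset Pt) (ω : Conf) (w : ι → Pt) (k : ι → ℕ) : Prop where
  white : ∀ i, White (w i)
  mem : ∀ i, w i ∈ V₁
  move : ∀ i, ∀ j ≤ 2 * k i, suc ω ((suc ω)^[j] (w i)) ≠ (suc ω)^[j] (w i)
  noret : ∀ i, ∀ j, 0 < j → j ≤ 2 * k i + 1 → (suc ω)^[j] (w i) ≠ w i
  disj : ∀ i i', i ≠ i' → ∀ j ≤ 2 * k i + 1, ∀ j' ≤ 2 * k i' + 1,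
    (suc ω)^[j] (w i) ≠ (suc ω)^[j'] (w i')

/-- the end of an arc -/
def aend {ι : Type*} (ω : Conf) (w : ι → Pt) (k : ι → ℕ) (i : ι) : Pt := (suc ω)^[2 * k i + 1] (w i)

variable {ι : Type*} {w : ι → Pt} {k : ι → ℕ}

/-- colours alternate along an arc -/
theorem ArcSys.colour (h1 : IsPM V₁ ω.1) (h2 : IsPM V₂ ω.2) (hA : ArcSys V₁ ω w k) (i : ι) :
    ∀ j ≤ 2 * k i + 1, (White ((suc ω)^[j] (w i)) ↔ Even j) := by
  intro j
  induction j with
  | zero => intro _; simpa using hA.white i
  | succ j ih =>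
    intro hj
    have ih' := ih (by omega)
    have hmove := hA.move i j (by omega)
    rw [Function.iterate_succ_apply']
    by_cases hw : White ((suc ω)^[j] (w i))
    · rw [suc_white hw] at hmove ⊢
      have hvV : (suc ω)^[j] (w i) ∈ V₁ := by
        by_contra hc
        exact hmove (h1.off _ hc)
      rw [color_fst h1 hvV, black_iff_not_white, ih', Nat.even_add_one]
    · have hb : Black ((suc ω)^[j] (w i)) := black_iff_not_white.2 hw
      rw [suc_black hb] at hmove ⊢
      have hvV : (suc ω)^[j] (w i) ∈ V₂ := by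
        by_contra hc
        exact hmove (h2.off _ hc)
      rw [color_snd h2 hvV, black_iff_not_white, ih', Nat.even_add_one]

/-- points of the arc are in `V₁` -/
theorem ArcSys.mem_V₁ (h1 : IsPM V₁ ω.1) (h2 : IsPM V₂ ω.2) (hA : ArcSys V₁ ω w k) (i : ι) :
    ∀ j ≤ 2 * k i + 1, (suc ω)^[j] (w i) ∈ V₁ := by
  have hwhite : ∀ j ≤ 2 * k i, Even j → (suc ω)^[j] (w i) ∈ V₁ := by
    intro j hj hev
    have hw := (hA.colour h1 h2 i j (by omega)).2 hev
    have hmove := hA.move i j hj
    rw [suc_white hw] at hmove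
    by_contra hc
    exact hmove (h1.off _ hc)
  intro j hj
  rcases Nat.even_or_odd j with hev | hodd
  · have : j ≠ 2 * k i + 1 := by
      rintro rfl
      exact (Nat.not_even_iff_odd.2 (odd_two_mul_add_one (k i))) hev
    exact hwhite j (by omega) hev
  · obtain ⟨l, rfl⟩ := hodd
    have hev : Even (2 * l) := even_two_mul l
    have hw := (hA.colour h1 h2 i (2 * l) (by omega)).2 hev
    have e : (suc ω)^[2 * l + 1] (w i) = suc ω ((suc ω)^[2 * l] (w i)) :=
      Function.iterate_succ_apply' _ _ _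
    rw [e, suc_white hw]
    exact pm_mem h1 (hwhite (2 * l) (by omega) hev)

theorem ArcSys.black_end (h1 : IsPM V₁ ω.1) (h2 : IsPM V₂ ω.2) (hA : ArcSys V₁ ω w k) (i : ι) :
    Black (aend ω w k i) := by
  rw [black_iff_not_white]
  unfold aend
  rw [hA.colour h1 h2 i _ le_rfl, Nat.not_even_iff_odd]
  exact odd_two_mul_add_one (k i)

theorem ArcSys.inj_w (hA : ArcSys V₁ ω w k) : Function.Injective w := by
  intro i i' h
  by_contra hne
  exact hA.disj i i' hne 0 (by omega) 0 (by omega) h

theorem ArcSys.inj_end (hA : ArcSys V₁ ω w k) : Function.Injective (aend ω w k) := by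
  intro i i' h
  by_contra hne
  exact hA.disj i i' hne _ le_rfl _ le_rfl h

/-- an arc is a simple path -/
theorem ArcSys.simple (h1 : IsPM V₁ ω.1) (h2 : IsPM V₂ ω.2) (hA : ArcSys V₁ ω w k) (i : ι) :
    ∀ j j', j < j' → j' ≤ 2 * k i + 1 → (suc ω)^[j] (w i) ≠ (suc ω)^[j'] (w i) := by
  intro j
  induction j with
  | zero =>
    intro j' hj hj' h
    exact hA.noret i j' hj hj' h.symm
  | succ j ih =>
    intro j' hj hj' h
    obtain ⟨l, rfl⟩ : ∃ l, j' = l + 1 := ⟨j' - 1, by omega⟩
    rw [Function.iterate_succ_apply', Function.iterate_succ_apply'] at h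
    have h3 := pre_suc h1 h2 (hA.move i j (by omega))
    have h4 := pre_suc h1 h2 (hA.move i l (by omega))
    rw [h] at h3
    rw [h3] at h4
    exact ih l (by omega) (by omega) h4

/-- **Arc systems have the arcs needed for the swap.** `P` = starts, ends and their partners in the
second matching. -/
theorem ArcSys.hasArcs [Fintype ι] (h1 : IsPM V₁ ω.1) (h2 : IsPM V₂ ω.2)
    (hA : ArcSys V₁ ω w k) :
    let As := Finset.univ.image w
    let Bs := Finset.univ.image (aend ω w k)
    let P := (As ∪ Bs) ∪ (As ∪ Bs).image ω.2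
    Labels V₁ As Bs P ω.2 ∧ HasArcs As Bs P ω.2 ω := by
  classical
  intro As Bs P
  have hPmem : ∀ x, x ∈ P ↔ (x ∈ As ∪ Bs) ∨ ∃ y ∈ As ∪ Bs, ω.2 y = x := by
    intro x
    simp only [P, mem_union (s := As ∪ Bs), mem_image]
  have hAs : ∀ x, x ∈ As ↔ ∃ i, w i = x := by intro x; simp [As]
  have hBs : ∀ x, x ∈ Bs ↔ ∃ i, aend ω w k i = x := by intro x; simp [Bs]
  refine ⟨⟨?_, ?_, ?_, ?_, ?_, ?_, ?_, ?_⟩, fun v _ => rfl, ?_⟩
  · intro v hv
    obtain ⟨i, rfl⟩ := (hAs v).1 hv
    exact hA.white i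
  · intro v hv
    obtain ⟨i, rfl⟩ := (hBs v).1 hv
    exact hA.black_end h1 h2 i
  · intro v hv
    obtain ⟨i, rfl⟩ := (hAs v).1 hv
    exact hA.mem i
  · intro v hv
    obtain ⟨i, rfl⟩ := (hBs v).1 hv
    exact hA.mem_V₁ h1 h2 i _ le_rfl
  · rw [card_image_of_injective _ hA.inj_w, card_image_of_injective _ hA.inj_end]
  · intro v hv
    exact mem_union_left _ (mem_union_left _ hv)
  · intro v hv
    exact mem_union_left _ (mem_union_right _ hv)
  · intro v hv
    rw [hPmem] at hv ⊢
    rcases hv with hv | ⟨y, hy, rfl⟩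
    · exact Or.inr ⟨v, hv, rfl⟩
    · exact Or.inl (by rw [h2.invol]; exact hy)
  · intro v hv
    obtain ⟨i, rfl⟩ := (hAs v).1 hv
    refine ⟨aend ω w k i, (hBs _).2 ⟨i, rfl⟩, ?_⟩
    apply same_cut_iter
    intro j hj hb hP
    have hodd : ¬ Even j := by
      rw [← hA.colour h1 h2 i j (by omega)]
      exact black_iff_not_white.1 hb
    rw [hPmem] at hP
    rcases hP with hP | ⟨y, hy, hyj⟩
    · rcases mem_union.1 hP with hP | hP
      · obtain ⟨i', hi'⟩ := (hAs _).1 hP
        rw [← hi'] at hb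
        exact (black_iff_not_white.1 hb) (hA.white i')
      · obtain ⟨i', hi'⟩ := (hBs _).1 hP
        by_cases hii : i = i'
        · subst hii
          exact hA.simple h1 h2 i j (2 * k i + 1) hj le_rfl hi'.symm
        · exact hA.disj i i' hii j (by omega) _ le_rfl hi'.symm
    · -- `y` is the successor of the point
      have hyb : y = suc ω ((suc ω)^[j] (w i)) := by
        rw [suc_black hb, ← hyj, h2.invol]
      rw [← Function.iterate_succ_apply' (suc ω) j (w i)] at hyb
      rcases mem_union.1 hy with hy' | hy'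
      · obtain ⟨i', hi'⟩ := (hAs _).1 hy'
        by_cases hii : i = i'
        · subst hii
          exact hA.noret i (j + 1) (by omega) (by omega) (by rw [← hyb, hi'])
        · exact hA.disj i i' hii (j + 1) (by omega) 0 (by omega) (by
            rw [← hyb, ← hi']; rfl)
      · obtain ⟨i', hi'⟩ := (hBs _).1 hy'
        have hyB : Black y := hi' ▸ hA.black_end h1 h2 i'
        have hyW : White y := by
          rw [hyb, hA.colour h1 h2 i (j + 1) (by omega), Nat.even_add_one]
          exact hodd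
        exact (black_iff_not_white.1 hyB) hyW

/-- `ω` has a system of disjoint directed arcs from `w i` to `b i` with partners `c i`, `d i` -/
def HasSys (V₁ : Finset Pt) (w b c d : ι → Pt) (ω : Conf) : Prop :=
  ∃ k : ι → ℕ, ArcSys V₁ ω w k ∧ ∀ i, aend ω w k i = b i ∧ ω.2 (w i) = c i ∧ ω.2 (b i) = d i

open Classical in
/-- **n arcs with fixed labels.** -/
theorem hasSys_card_le [Fintype ι] (V₁ V₂ : Finset Pt) (w b c d : ι → Pt) :
    ((PM V₁ ×ˢ PM V₂).filter (fun ω : Conf => HasSys V₁ w b c d ω)).card ≤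
      Z (V₁ \ (univ.image w ∪ univ.image b)) *
        Z ((V₂ \ ((univ.image w ∪ univ.image b) ∪ (univ.image c ∪ univ.image d))) ∪
          (univ.image w ∪ univ.image b)) := by
  rcases ((PM V₁ ×ˢ PM V₂).filter (fun ω : Conf => HasSys V₁ w b c d ω)).eq_empty_or_nonempty with
    he | ⟨ω₀, hω₀⟩
  · rw [he, card_empty]
    exact Nat.zero_le _
  rw [mem_filter, mem_product, mem_PM, mem_PM] at hω₀
  obtain ⟨⟨h1, h2⟩, k₀, hA₀, hl₀⟩ := hω₀
  have hb₀ : aend ω₀ w k₀ = b := funext fun i => (hl₀ i).1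
  have himg : ((univ.image w ∪ univ.image b).image ω₀.2) = univ.image c ∪ univ.image d := by
    rw [image_union, image_image, image_image]
    congr 1
    · apply image_congr
      intro i _
      exact (hl₀ i).2.1
    · apply image_congr
      intro i _
      exact (hl₀ i).2.2
  have hL := (hA₀.hasArcs h1 h2).1
  simp only [hb₀, himg] at hL
  refine le_trans ?_ (chain_swap V₂ hL)
  apply card_le_card
  intro ω hω
  rw [mem_filter] at hω ⊢
  refine ⟨hω.1, ?_⟩
  obtain ⟨hpm, k, hA, hl⟩ := hω
  rw [mem_product, mem_PM, mem_PM] at hpm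
  have hb : aend ω w k = b := funext fun i => (hl i).1
  have himg' : ((univ.image w ∪ univ.image b).image ω.2) = univ.image c ∪ univ.image d := by
    rw [image_union, image_image, image_image]
    congr 1
    · apply image_congr
      intro i _
      exact (hl i).2.1
    · apply image_congr
      intro i _
      exact (hl i).2.2
  have hHA := (hA.hasArcs hpm.1 hpm.2).2
  simp only [hb, himg'] at hHA
  have key : ∀ v ∈ univ.image w ∪ univ.image b, ω.2 v = ω₀.2 v := by
    intro v hv
    rcases mem_union.1 hv with hv | hv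
    · obtain ⟨i, -, rfl⟩ := mem_image.1 hv
      rw [(hl i).2.1, (hl₀ i).2.1]
    · obtain ⟨i, -, rfl⟩ := mem_image.1 hv
      rw [(hl i).2.2, (hl₀ i).2.2]
  refine ⟨?_, hHA.2⟩
  intro v hv
  rcases mem_union.1 hv with hv | hv
  · exact key v hv
  · rw [← himg] at hv
    obtain ⟨u, hu, rfl⟩ := mem_image.1 hv
    rw [h2.invol, ← key u hu, hpm.2.invol]

open Classical in
/-- **n arcs, union over labels.** -/
theorem hasSys_union_le [Fintype ι] (V₁ V₂ : Finset Pt)
    (Λ : Finset ((ι → Pt) × (ι → Pt) × (ι → Pt) × (ι → Pt))) (E : Finset Conf)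
    (hE : E ⊆ PM V₁ ×ˢ PM V₂)
    (h : ∀ ω ∈ E, ∃ l ∈ Λ, HasSys V₁ l.1 l.2.1 l.2.2.1 l.2.2.2 ω) :
    E.card ≤ ∑ l ∈ Λ, Z (V₁ \ (univ.image l.1 ∪ univ.image l.2.1)) *
        Z ((V₂ \ ((univ.image l.1 ∪ univ.image l.2.1) ∪
          (univ.image l.2.2.1 ∪ univ.image l.2.2.2))) ∪ (univ.image l.1 ∪ univ.image l.2.1)) := by
  calc E.card ≤ (Λ.biUnion (fun l => (PM V₁ ×ˢ PM V₂).filter
        (fun ω : Conf => HasSys V₁ l.1 l.2.1 l.2.2.1 l.2.2.2 ω))).card := by
        apply card_le_card
        intro ω hω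
        obtain ⟨l, hl, hs⟩ := h ω hω
        exact mem_biUnion.2 ⟨l, hl, mem_filter.2 ⟨hE hω, hs⟩⟩
    _ ≤ ∑ l ∈ Λ, ((PM V₁ ×ˢ PM V₂).filter
        (fun ω : Conf => HasSys V₁ l.1 l.2.1 l.2.2.1 l.2.2.2 ω)).card := card_biUnion_le
    _ ≤ _ := sum_le_sum fun l _ => hasSys_card_le V₁ V₂ l.1 l.2.1 l.2.2.1 l.2.2.2

end

end Vale.Agent.P155.SW
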