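import Vale.Agent.P155.F.DetInv
import Vale.Agent.P155.F.Cut
import Vale.Agent.P155.Skel

/-!
# P155, block F: numerical bounds used in the pair estimate
-/

namespace Vale.Agent.P155.F

open Finset

theorem dn_cast (u v : Pt) : ((dn u v : ℕ) : ℤ) = dinf u v := by
  unfold dn
  exact Int.toNat_of_nonneg (le_max_of_le_left (abs_nonneg _))

theorem dn_tri (u v w : Pt) : dn u w ≤ dn u v + dn v w := by
  have h : dinf u w ≤ dinf u v + dinf v w := by
    unfold dinf
    have h1 := abs_sub_le u.1 v.1 w.1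
    have h2 := abs_sub_le u.2 v.2 w.2
    apply max_le
    · have := le_max_left |u.1 - v.1| |u.2 - v.2|
      have := le_max_left |v.1 - w.1| |v.2 - w.2|
      linarith
    · have := le_max_right |u.1 - v.1| |u.2 - v.2|
      have := le_max_right |v.1 - w.1| |v.2 - w.2|
      linarith
  rw [← dn_cast, ← dn_cast, ← dn_cast] at h
  exact_mod_cast h

theorem dn_symm (u v : Pt) : dn u v = dn v u := by
  unfold dn dinf
  rw [abs_sub_comm u.1, abs_sub_comm u.2]

theorem mem_box_dn {x v : Pt} {r : ℕ} : v ∈ box x r ↔ dn x v ≤ r := by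
  have h : v ∈ box x r ↔ dinf x v ≤ r := by
    unfold box dinf
    rw [mem_product, mem_Icc, mem_Icc, max_le_iff, abs_le, abs_le]
    constructor
    · rintro ⟨⟨h1, h2⟩, h3, h4⟩
      refine ⟨⟨?_, ?_⟩, ?_, ?_⟩ <;> linarith
    · rintro ⟨⟨h1, h2⟩, h3, h4⟩
      refine ⟨⟨?_, ?_⟩, ?_, ?_⟩ <;> linarith
  rw [h, ← dn_cast]
  exact Nat.cast_le

/-- `dF` is 1-Lipschitz (as long as the complement is nonempty or not, in both cases). -/
theorem dF_le_add (O : Set Pt) (x y : Pt) : dF O x ≤ dF O y + dn x y := by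
  unfold dF
  rcases Set.eq_empty_or_nonempty {r | ∃ z, z ∉ O ∧ dn y z ≤ r} with h | h
  · have : {r | ∃ z, z ∉ O ∧ dn x z ≤ r} = ∅ := by
      rw [Set.eq_empty_iff_forall_notMem] at h ⊢
      rintro r ⟨z, hz, _⟩
      exact h (dn y z) ⟨z, hz, le_refl _⟩
    rw [this]
    simp
  · obtain ⟨z, hz, hr⟩ := Nat.sInf_mem h
    apply Nat.sInf_le
    exact ⟨z, hz, (dn_tri x y z).trans (by rw [add_comm]; exact Nat.add_le_add_right hr _)⟩

theorem abs_Kp_le {A : Pt → ℝ} (hA : IsPlane A) : ∃ C : ℝ, 0 ≤ C ∧ ∀ b w, White w → Black b →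
    |Kp A b w| ≤ C / (dn b w : ℝ) := by
  obtain ⟨C, hC⟩ := hA.asymp
  refine ⟨1 + |C|, by positivity, ?_⟩
  intro b w hw hb
  set z : Pt := b - w with hz
  have hodd : Odd (z.1 + z.2) := by
    rw [hz]
    simp only [Prod.fst_sub, Prod.snd_sub]
    rw [white_iff] at hw
    rw [black_iff] at hb
    rw [Int.odd_iff]
    omega
  have hne : z ≠ 0 := by
    intro h
    rw [h] at hodd
    simp at hodd
  set m : ℕ := dn b w with hm
  have hm1 : |z.1| ≤ (m : ℤ) ∧ |z.2| ≤ (m : ℤ) := by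
    rw [hm, dn_cast]
    exact ⟨le_max_left _ _, le_max_right _ _⟩
  have hmcases : (m : ℤ) = |z.1| ∨ (m : ℤ) = |z.2| := by
    rw [hm, dn_cast]
    exact max_choice _ _
  have hmpos : 1 ≤ m := by
    by_contra h
    have h0 : m = 0 := by omega
    rw [h0] at hm1
    apply hne
    have h1 : z.1 = 0 := abs_eq_zero.1 (le_antisymm hm1.1 (abs_nonneg _))
    have h2 : z.2 = 0 := abs_eq_zero.1 (le_antisymm hm1.2 (abs_nonneg _))
    exact Prod.ext h1 h2
  have hmR : (1 : ℝ) ≤ m := by exact_mod_cast hmpos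
  have hz1 : |(z.1 : ℝ)| ≤ m := by exact_mod_cast hm1.1
  have hz2 : |(z.2 : ℝ)| ≤ m := by exact_mod_cast hm1.2
  have hnsq : (m : ℝ) ^ 2 ≤ nsq z := by
    unfold nsq
    rcases hmcases with h | h
    · have h' : (m : ℝ) = |(z.1 : ℝ)| := by exact_mod_cast h
      rw [h', sq_abs]
      nlinarith [sq_nonneg (z.2 : ℝ)]
    · have h' : (m : ℝ) = |(z.2 : ℝ)| := by exact_mod_cast h
      rw [h', sq_abs]
      nlinarith [sq_nonneg (z.1 : ℝ)]
  have hnpos : 0 < nsq z := lt_of_lt_of_le (by positivity) hnsq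
  have hlead : |Alead z| ≤ 1 / m := by
    unfold Alead
    rw [abs_div]
    have hnum : |(if Odd z.1 then (z.1 : ℝ) else (z.2 : ℝ))| ≤ m := by
      split_ifs
      · exact hz1
      · exact hz2
    have hden : |Real.pi * nsq z| = Real.pi * nsq z := abs_of_pos (by positivity)
    rw [hden, div_le_div_iff₀ (by positivity) (by positivity)]
    have hpi : (1 : ℝ) ≤ Real.pi := by linarith [Real.pi_gt_three]
    calc |(if Odd z.1 then (z.1 : ℝ) else (z.2 : ℝ))| * m ≤ m * m :=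
          mul_le_mul_of_nonneg_right hnum (by positivity)
      _ = (m : ℝ) ^ 2 := by ring
      _ ≤ nsq z := hnsq
      _ = 1 * (1 * nsq z) := by ring
      _ ≤ 1 * (Real.pi * nsq z) := by gcongr
  have hA1 : |A z| ≤ (1 + |C|) / m := by
    have h1 := hC z hodd
    have h2 : C / nsq z ≤ |C| / m := by
      rw [div_le_div_iff₀ hnpos (by positivity)]
      calc C * m ≤ |C| * m := mul_le_mul_of_nonneg_right (le_abs_self C) (by positivity)
        _ ≤ |C| * (m * m) := by
            apply mul_le_mul_of_nonneg_left _ (abs_nonneg _)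
            nlinarith
        _ = |C| * m ^ 2 := by ring
        _ ≤ |C| * nsq z := mul_le_mul_of_nonneg_left hnsq (abs_nonneg _)
    calc |A z| = |(A z - Alead z) + Alead z| := by ring_nf
      _ ≤ |A z - Alead z| + |Alead z| := abs_add_le _ _
      _ ≤ C / nsq z + 1 / m := add_le_add h1 hlead
      _ ≤ |C| / m + 1 / m := by linarith
      _ = (1 + |C|) / m := by ring
  unfold Kp
  rw [abs_mul, ← hz]
  have hsgn : |(if Odd (b.1 - w.1) then (1 : ℝ) else sg w.2)| = 1 := by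
    split_ifs
    · simp
    · exact abs_sg _
  rw [hsgn, one_mul]
  exact hA1

open Skel

/-- Bound for the inverse Kasteleyn matrix at macroscopic distances. -/
theorem Kinv_far (hP : B_plane) (hD : B_dom) : ∃ C : ℝ, 0 < C ∧ ∀ (T : Temp) (w b : Pt) (r : ℕ),
    1 ≤ r → White w → Black b → w ∈ T.V → b ∈ T.V → r ≤ dn b w → r ≤ dF T.faceSet w →
    |Kinv T.V b w| ≤ C / r := by
  obtain ⟨A, hA⟩ := hP
  obtain ⟨C1, hC1, hKp⟩ := abs_Kp_le hA
  obtain ⟨C2, hC2⟩ := hD A hA
  refine ⟨C1 + |C2| + 1, by positivity, ?_⟩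
  intro T w b r hr hw hb hwV hbV hdn hdF
  have hrR : (1 : ℝ) ≤ r := by exact_mod_cast hr
  obtain ⟨_, h2, h3⟩ := hC2 T w b hw hb hwV hbV
  have hdFR : (r : ℝ) ≤ dF T.faceSet w := by exact_mod_cast hdF
  have hdnR : (r : ℝ) ≤ dn b w := by exact_mod_cast hdn
  have e1 : C2 / (1 + (dF T.faceSet w : ℝ)) ≤ |C2| / r := by
    calc C2 / (1 + (dF T.faceSet w : ℝ)) ≤ |C2| / (1 + (dF T.faceSet w : ℝ)) := by
          apply div_le_div_of_nonneg_right (le_abs_self _) (by positivity)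
      _ ≤ |C2| / r := by
          apply div_le_div_of_nonneg_left (abs_nonneg _) (by positivity)
          linarith
  rcases le_or_gt (2 * dn b w) (dF T.faceSet w) with h | h
  · have h4 := h2 h
    have h5 := hKp b w hw hb
    have e2 : C1 / (dn b w : ℝ) ≤ C1 / r :=
      div_le_div_of_nonneg_left hC1 (by positivity) hdnR
    calc |Kinv T.V b w| = |(Kinv T.V b w - Kp A b w) + Kp A b w| := by ring_nf
      _ ≤ |Kinv T.V b w - Kp A b w| + |Kp A b w| := abs_add_le _ _
      _ ≤ |C2| / r + C1 / r := by linarith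
      _ ≤ |C2| / r + C1 / r + 1 / r := by
          have : (0 : ℝ) ≤ 1 / r := by positivity
          linarith
      _ = (C1 + |C2| + 1) / r := by ring
  · have h4 := h3 (by omega)
    have : 0 ≤ C1 / (r : ℝ) := by positivity
    calc |Kinv T.V b w| ≤ |C2| / r := h4.trans e1
      _ ≤ |C2| / r + C1 / r + 1 / r := by
          have : (0 : ℝ) ≤ 1 / r := by positivity
          linarith
      _ = (C1 + |C2| + 1) / r := by ring

/-- The cut between two points of a box lies in the box enlarged by one. -/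
theorem cutV_subset {q f g : Pt} {ρ : ℕ} (hf : f ∈ box q ρ) (hg : g ∈ box q ρ) :
    cutV f g ⊆ box q (ρ + 1) := by
  unfold box at hf hg ⊢
  rw [mem_product, mem_Icc, mem_Icc] at hf hg
  obtain ⟨⟨f1, f2⟩, f3, f4⟩ := hf
  obtain ⟨⟨g1, g2⟩, g3, g4⟩ := hg
  intro v hv
  unfold cutV at hv
  rw [mem_union, mem_product, mem_product, mem_Ioc, mem_Ioc] at hv
  simp only [mem_insert, mem_singleton] at hv
  rw [mem_product, mem_Icc, mem_Icc]
  push_cast
  rcases hv with ⟨⟨h1, h2⟩, h3⟩ | ⟨h3, h1, h2⟩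
  · rcases min_lt_iff.1 h1 with h1 | h1 <;> rcases le_max_iff.1 h2 with h2 | h2 <;>
      rcases h3 with h3 | h3 <;> refine ⟨⟨?_, ?_⟩, ?_, ?_⟩ <;> linarith
  · rcases min_lt_iff.1 h1 with h1 | h1 <;> rcases le_max_iff.1 h2 with h2 | h2 <;>
      rcases h3 with h3 | h3 <;> refine ⟨⟨?_, ?_⟩, ?_, ?_⟩ <;> linarith

theorem card_cutV_box {q f g : Pt} {ρ : ℕ} (hf : f ∈ box q ρ) (hg : g ∈ box q ρ) :
    (cutV f g).card ≤ 8 * ρ := by
  have h := card_cutV_le f g
  unfold box at hf hg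
  rw [mem_product, mem_Icc, mem_Icc] at hf hg
  obtain ⟨⟨f1, f2⟩, f3, f4⟩ := hf
  obtain ⟨⟨g1, g2⟩, g3, g4⟩ := hg
  have h1 : |f.1 - g.1| ≤ 2 * ρ := by rw [abs_le]; constructor <;> linarith
  have h2 : |f.2 - g.2| ≤ 2 * ρ := by rw [abs_le]; constructor <;> linarith
  have h3 : ((cutV f g).card : ℤ) ≤ 8 * ρ := by linarith
  exact_mod_cast h3

end Vale.Agent.P155.F
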