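import Vale.Agent.P155.F.F2
import Vale.Agent.P155.A.InLoop

/-!
# P155, block F: the cut signs along a loop
-/

namespace Vale.Agent.P155.F

open Finset

section
variable {V : Finset Pt} {m1 m2 : Pt → Pt} (h1 : IsPM V m1) (h2 : IsPM V m2) {L : Set Pt}
  (hL : L ∈ Loops (m1, m2)) {γ : LatCycle} (hγ : γ.verts = L)
  (hpart : ∀ u v, γ.edge u v → (v = m1 u ∨ v = m2 u))

include hγ hpart in
/-- the partners of a vertex of the loop are its two neighbours in the cycle. -/
theorem edge_iff_partner {u : Pt} (hu : u ∈ L) (v : Pt) :
    γ.edge u v ↔ (v = m1 u ∨ v = m2 u) := by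
  constructor
  · exact hpart u v
  · rw [← hγ] at hu
    obtain ⟨i, rfl⟩ := hu
    have e1 : γ.edge (γ.c i) (γ.c (i + 1)) := LatCycle.edge_at.2 (Or.inl rfl)
    have e2 : γ.edge (γ.c i) (γ.c (i - 1)) := LatCycle.edge_at.2 (Or.inr rfl)
    have hne := LatCycle.succ_ne_pred (γ := γ) i
    rintro (rfl | rfl)
    · rcases hpart _ _ e1 with h | h <;> rcases hpart _ _ e2 with h' | h'
      · exact absurd (h.trans h'.symm) hne
      · rw [← h]; exact e1
      · rw [← h']; exact e2
      · exact absurd (h.trans h'.symm) hne
    · rcases hpart _ _ e1 with h | h <;> rcases hpart _ _ e2 with h' | h'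
      · exact absurd (h.trans h'.symm) hne
      · rw [← h']; exact e2
      · rw [← h]; exact e1
      · exact absurd (h.trans h'.symm) hne

theorem loop_partner_ne (h1 : IsPM V m1) (h2 : IsPM V m2) (hL : L ∈ Loops (m1, m2)) {u : Pt}
    (hu : u ∈ L) : m1 u ≠ m2 u := by
  obtain ⟨x, hx, rfl⟩ := hL
  have hx : m1 x ≠ m2 x := hx
  induction hu with
  | refl => exact hx
  | tail _ hstep ih =>
    rename_i y z _
    intro heq
    apply ih
    rcases hstep with h | h
    · simp only at h
      rw [h, h1.invol] at heq
      have := congrArg m2 heq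
      rw [h2.invol] at this
      exact this.symm
    · simp only at h
      rw [h, h2.invol] at heq
      have := congrArg m1 heq
      rw [h1.invol] at this
      exact this.symm

open Classical in
include h1 h2 hL hγ hpart in
/-- product over a loop of the sign of a single edge -/
theorem prod_single {a b : Pt} (ha : White a) (hb : Black b) (se : Pt → Pt → ℝ)
    (hse : ∀ u v, se u v = if (u = a ∧ v = b) ∨ (u = b ∧ v = a) then -1 else 1) :
    ∏ w ∈ V.filter (fun w => White w ∧ w ∈ L), (se w (m1 w) * se w (m2 w)) =
      if γ.edge a b then -1 else 1 := by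
  have hone : ∀ w, White w → w ≠ a → ∀ v, se w v = 1 := by
    intro w hw hwa v
    rw [hse, if_neg]
    rintro (⟨h, _⟩ | ⟨h, _⟩)
    · exact hwa h
    · rw [h] at hw
      exact black_iff_nw.1 hb hw
  by_cases haL : a ∈ L
  · have haV : a ∈ V := loops_sub h1 h2 hL haL
    rw [prod_eq_single a]
    · have hne := loop_partner_ne h1 h2 hL haL
      have hab : a ≠ b := by
        rintro rfl
        exact black_iff_nw.1 hb ha
      have e1 : ∀ v, se a v = if v = b then -1 else 1 := by
        intro v
        rw [hse]
        by_cases h : v = b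
        · rw [if_pos (Or.inl ⟨rfl, h⟩), if_pos h]
        · rw [if_neg, if_neg h]
          rintro (⟨_, h'⟩ | ⟨h', _⟩)
          · exact h h'
          · exact hab h'
      rw [e1, e1]
      have hiff := edge_iff_partner hγ hpart haL b
      by_cases c1 : m1 a = b
      · have c2 : ¬ m2 a = b := fun h => hne (c1.trans h.symm)
        rw [if_pos c1, if_neg c2, if_pos (hiff.2 (Or.inl c1.symm))]
        norm_num
      · by_cases c2 : m2 a = b
        · rw [if_neg c1, if_pos c2, if_pos (hiff.2 (Or.inr c2.symm))]
          norm_num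
        · rw [if_neg c1, if_neg c2, if_neg]
          · norm_num
          · intro h
            rcases hiff.1 h with h' | h'
            · exact c1 h'.symm
            · exact c2 h'.symm
    · intro w hw hwa
      rw [mem_filter] at hw
      rw [hone w hw.2.1 hwa, hone w hw.2.1 hwa, one_mul]
    · intro h
      exact absurd (mem_filter.2 ⟨haV, ha, haL⟩) h
  · rw [if_neg (fun h => haL (by rw [← hγ]; exact h.mem_left))]
    apply prod_eq_one
    intro w hw
    rw [mem_filter] at hw
    have hwa : w ≠ a := by
      rintro rfl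
      exact haL hw.2.2
    rw [hone w hw.2.1 hwa, hone w hw.2.1 hwa, one_mul]

end

/-- **The cut signs along a loop.** -/
theorem cutLoop : CutLoop := by
  classical
  intro V m1 m2 h1 h2 L hL f g
  have hω : ((m1, m2) : Conf) ∈ DD V := mem_product.2 ⟨mem_PM.2 h1, mem_PM.2 h2⟩
  obtain ⟨γ, hγ, _, hin, hpart⟩ := A1.exists_cycle' hω hL
  -- single edges
  have hv : ∀ j y : ℤ, ∏ w ∈ V.filter (fun w => White w ∧ w ∈ L),
      (sv j y w (m1 w) * sv j y w (m2 w)) = if γ.vedge j y then -1 else 1 := by
    intro j y
    by_cases hw : White (j, y)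
    · have hb : Black ((j, y + 1) : Pt) := adj_white (by simp [Adj]) hw
      exact prod_single h1 h2 hL hγ hpart hw hb (sv j y) (fun u v => rfl)
    · have hb : Black ((j, y) : Pt) := by rw [black_iff_nw]; exact hw
      have hw' : White ((j, y + 1) : Pt) := adj_black (by simp [Adj]) hb
      rw [prod_single h1 h2 hL hγ hpart hw' hb (sv j y) (fun u v => by
        unfold sv
        congr 1
        rw [or_comm])]
      rw [LatCycle.vedge_iff, LatCycle.edge_comm]
  have hh : ∀ x i : ℤ, ∏ w ∈ V.filter (fun w => White w ∧ w ∈ L),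
      (sh x i w (m1 w) * sh x i w (m2 w)) = if γ.hedge x i then -1 else 1 := by
    intro x i
    by_cases hw : White (x, i)
    · have hb : Black ((x + 1, i) : Pt) := adj_white (by simp [Adj]) hw
      exact prod_single h1 h2 hL hγ hpart hw hb (sh x i) (fun u v => rfl)
    · have hb : Black ((x, i) : Pt) := by rw [black_iff_nw]; exact hw
      have hw' : White ((x + 1, i) : Pt) := adj_black (by simp [Adj]) hb
      rw [prod_single h1 h2 hL hγ hpart hw' hb (sh x i) (fun u v => by
        unfold sh
        congr 1
        rw [or_comm])]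
      rw [LatCycle.hedge_iff, LatCycle.edge_comm]
  -- the product over the cut
  have e1 : ∏ w ∈ V.filter (fun w => White w ∧ w ∈ L), (sc f g w (m1 w) * sc f g w (m2 w)) =
      (∏ j ∈ Ioc (min f.1 g.1) (max f.1 g.1), (if γ.vedge j f.2 then (-1 : ℝ) else 1)) *
        ∏ i ∈ Ioc (min f.2 g.2) (max f.2 g.2), (if γ.hedge g.1 i then (-1 : ℝ) else 1) := by
    rw [← prod_congr rfl (fun j _ => hv j f.2), ← prod_congr rfl (fun i _ => hh g.1 i),
      prod_comm, prod_comm (s := Ioc (min f.2 g.2) (max f.2 g.2)), ← prod_mul_distrib]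
    apply prod_congr rfl
    intro w _
    unfold sc
    rw [prod_mul_distrib, prod_mul_distrib]
    ring
  rw [e1]
  have conv : ∀ (p q r : Prop), LatCycle.ind2 p = LatCycle.ind2 q + LatCycle.ind2 r →
      (if p then (-1 : ℝ) else 1) = (if q then (-1 : ℝ) else 1) * (if r then (-1 : ℝ) else 1) := by
    intro p q r h
    by_cases hq : q <;> by_cases hr : r
    · have : ¬ p := by
        rw [LatCycle.ind2_true hq, LatCycle.ind2_true hr] at h
        exact LatCycle.ind2_eq_zero.1 (h.trans (by decide))
      rw [if_neg this, if_pos hq, if_pos hr]; norm_num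
    · have : p := by
        rw [LatCycle.ind2_true hq, LatCycle.ind2_false hr] at h
        exact LatCycle.ind2_eq_one.1 (h.trans (by decide))
      rw [if_pos this, if_pos hq, if_neg hr]; norm_num
    · have : p := by
        rw [LatCycle.ind2_false hq, LatCycle.ind2_true hr] at h
        exact LatCycle.ind2_eq_one.1 (h.trans (by decide))
      rw [if_pos this, if_neg hq, if_pos hr]; norm_num
    · have : ¬ p := by
        rw [LatCycle.ind2_false hq, LatCycle.ind2_false hr] at h
        exact LatCycle.ind2_eq_zero.1 (h.trans (by decide))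
      rw [if_neg this, if_neg hq, if_neg hr]; norm_num
  have hss : ∀ x, ss (m1, m2) L x = if γ.inside x then -1 else 1 := by
    intro x
    unfold ss
    by_cases h : surr (m1, m2) L x
    · rw [if_pos h, if_pos ((hin x).1 h)]
    · rw [if_neg h, if_neg (fun h' => h ((hin x).2 h'))]
  exact telescope_cut (fun x => ss (m1, m2) L x) (fun j y => if γ.vedge j y then (-1 : ℝ) else 1)
    (fun x i => if γ.hedge x i then (-1 : ℝ) else 1) (fun x => ss_cases _ _ _)
    (by
      intro x y
      simp only [hss]
      exact conv _ _ _ (LatCycle.cross_v x y))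
    (by
      intro x y
      simp only [hss]
      exact conv _ _ _ (LatCycle.cross_h x y)) f g

end Vale.Agent.P155.F
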