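import Vale.Agent.P155.F.DetR

/-!
# P155, block F: the inverse Kasteleyn matrix and `detR`
-/

namespace Vale.Agent.P155.F

open Finset Matrix

/-- The square form of a white-by-black matrix. -/
noncomputable def MR (V : Finset Pt) (m0 : Pt → Pt) (κ : Pt → Pt → ℝ) : Matrix (WV V) (WV V) ℝ :=
  Matrix.of fun w w' => κ w (m0 w')

/-- The square form of the inverse Kasteleyn matrix. -/
noncomputable def GR (V : Finset Pt) (m0 : Pt → Pt) : Matrix (WV V) (WV V) ℝ :=
  Matrix.of fun w w' => Kinv V (m0 w) w'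

theorem detR_def (V : Finset Pt) (m0 : Pt → Pt) (κ : Pt → Pt → ℝ) :
    detR V m0 κ = (MR V m0 κ).det := rfl

theorem Kinv_off_left {V : Finset Pt} {b w : Pt} (h : b ∉ V) : Kinv V b w = 0 := by
  unfold Kinv; rw [dif_neg h]

theorem Kinv_off_right {V : Finset Pt} {b w : Pt} (h : w ∉ V) : Kinv V b w = 0 := by
  unfold Kinv; split_ifs <;> rfl

theorem K_adj {w b : Pt} (h : K w b ≠ 0) : Adj w b := by
  rw [← mem_nbrs]
  unfold nbrs
  simp only [mem_insert, mem_singleton]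
  unfold K at h
  split_ifs at h with h1 h2 h3 h4
  · exact Or.inl h1
  · exact Or.inr (Or.inl h2)
  · exact Or.inr (Or.inr (Or.inl h3))
  · exact Or.inr (Or.inr (Or.inr h4))
  · exact absurd rfl h

theorem abs_sg (y : ℤ) : |sg y| = 1 := by
  unfold sg; split_ifs <;> simp

theorem abs_K_le (w b : Pt) : |K w b| ≤ 1 := by
  unfold K
  split_ifs <;> simp [abs_sg]

theorem abs_K_eq {w b : Pt} (h : Adj w b) : |K w b| = 1 := by
  have := mem_nbrs.2 h
  unfold nbrs at this
  simp only [mem_insert, mem_singleton] at this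
  unfold K
  split_ifs with h1 h2 h3 h4
  · simp
  · simp
  · exact abs_sg _
  · rw [abs_neg]; exact abs_sg _
  · tauto

section
variable {V : Finset Pt} {m0 : Pt → Pt} (h0 : IsPM V m0)

include h0 in
/-- Summation over black vertices through the reference matching. -/
theorem sum_m0 (f : Pt → ℝ) : ∑ w : WV V, f (m0 w) = ∑ b ∈ V.filter Black, f b := by
  refine sum_bij (fun (w : WV V) _ => m0 w) ?_ ?_ ?_ ?_
  · intro w _
    rw [mem_filter]
    exact ⟨IsPM.mem h0 w.mem, IsPM.black h0 w.mem w.white⟩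
  · intro a _ b _ h
    exact Subtype.ext (IsPM.inj h0 h)
  · intro b hb
    rw [mem_filter] at hb
    exact ⟨⟨m0 b, mem_filter.2 ⟨IsPM.mem h0 hb.1, IsPM.white h0 hb.1 hb.2⟩⟩, mem_univ _,
      h0.invol b⟩
  · intro a _
    rfl

include h0 in
theorem sum_m0_nbrs {w : Pt} (hw : White w) {κ : Pt → ℝ} (hκ : ∀ b, κ b ≠ 0 → Adj w b) (w'' : Pt) :
    ∑ w' : WV V, κ (m0 w') * Kinv V (m0 w') w'' = ∑ b ∈ nbrs w, κ b * Kinv V b w'' := by
  rw [sum_m0 h0 (fun b => κ b * Kinv V b w'')]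
  have h1 : ∑ b ∈ V.filter Black, κ b * Kinv V b w'' =
      ∑ b ∈ (V.filter Black) ∩ nbrs w, κ b * Kinv V b w'' := by
    symm
    apply sum_subset inter_subset_left
    intro b hb hb'
    have : κ b = 0 := by
      by_contra hne
      exact hb' (mem_inter.2 ⟨hb, mem_nbrs.2 (hκ b hne)⟩)
    rw [this, zero_mul]
  have h2 : ∑ b ∈ nbrs w, κ b * Kinv V b w'' =
      ∑ b ∈ (V.filter Black) ∩ nbrs w, κ b * Kinv V b w'' := by
    symm
    apply sum_subset inter_subset_right
    intro b hb hb'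
    have : b ∉ V := by
      intro hV
      exact hb' (mem_inter.2 ⟨mem_filter.2 ⟨hV, adj_white (mem_nbrs.1 hb) hw⟩, hb⟩)
    rw [Kinv_off_left this, mul_zero]
  rw [h1, h2]

/-- The defining relation `K K⁻¹ = 1`. -/
def InvRel (V : Finset Pt) : Prop := ∀ w w', White w → White w' → w ∈ V → w' ∈ V →
    ∑ b ∈ nbrs w', K w' b * Kinv V b w = if w' = w then 1 else 0

include h0 in
theorem MR_mul_GR (hinv : InvRel V) : MR V m0 K * GR V m0 = 1 := by
  ext w w''
  rw [Matrix.mul_apply, Matrix.one_apply]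
  have h1 := sum_m0_nbrs h0 w.white (κ := K w) (fun b hb => K_adj hb) w''
  have h2 := hinv w'' w w''.white w.white w''.mem w.mem
  simp only [MR, GR, Matrix.of_apply]
  rw [h1, h2]
  simp only [Subtype.ext_iff]

include h0 in
theorem MR_inv (hinv : InvRel V) : (MR V m0 K)⁻¹ = GR V m0 :=
  Matrix.inv_eq_right_inv (MR_mul_GR h0 hinv)

include h0 in
theorem mul_GR_apply {κ : Pt → Pt → ℝ} (w w'' : WV V) (hκ : ∀ b, κ w b ≠ 0 → Adj w b) :
    (MR V m0 κ * GR V m0) w w'' = ∑ b ∈ nbrs (w : Pt), κ w b * Kinv V b w'' := by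
  rw [Matrix.mul_apply]
  exact sum_m0_nbrs h0 w.white hκ w''

include h0 in
/-- a row of `κ K⁻¹` with `κ` bounded by the adjacency matrix is bounded by four entries. -/
theorem abs_mul_GR_le {κ : Pt → Pt → ℝ} (w w'' : WV V) (hκ : ∀ b, κ w b ≠ 0 → Adj w b)
    (hb : ∀ b, |κ w b| ≤ 1) {k : ℝ} (hk : ∀ b ∈ nbrs (w : Pt), |Kinv V b w''| ≤ k) :
    |(MR V m0 κ * GR V m0) w w''| ≤ 4 * k := by
  rw [mul_GR_apply h0 w w'' hκ]
  have hk0 : 0 ≤ k := (abs_nonneg _).trans (hk _ (mem_nbrs.2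
    (show Adj (w : Pt) ((w : Pt).1 + 1, (w : Pt).2) by simp [Adj])))
  calc |∑ b ∈ nbrs (w : Pt), κ w b * Kinv V b w''|
      ≤ ∑ b ∈ nbrs (w : Pt), |κ w b * Kinv V b w''| := abs_sum_le_sum_abs _ _
    _ ≤ ∑ b ∈ nbrs (w : Pt), k := by
        apply sum_le_sum
        intro b hbn
        rw [abs_mul]
        calc |κ w b| * |Kinv V b w''| ≤ 1 * k :=
              mul_le_mul (hb b) (hk b hbn) (abs_nonneg _) zero_le_one
          _ = k := one_mul k
    _ = (nbrs (w : Pt)).card * k := by rw [sum_const, nsmul_eq_mul]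
    _ ≤ 4 * k := by
        apply mul_le_mul_of_nonneg_right _ hk0
        exact_mod_cast card_le_four
end

end Vale.Agent.P155.F
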