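import Vale.Agent.P155.F.Charge
import Vale.Agent.P155.Skel

/-!
# P155, block A5/A6: the interface forms, and the iterated Kuo inequality
-/

namespace Vale.Agent.P155.SW

open Finset Vale.Agent.P155 Vale.Agent.P155.Skel

theorem black_of_adj {w b : Pt} (hw : White w) (h : Adj w b) : Black b := by
  rw [black_iff_not_white, white_iff_of_adj h]; exact not_not.2 hw

theorem white_of_adj {w b : Pt} (hb : Black b) (h : Adj w b) : White w := by
  by_contra hc
  have := (white_iff_of_adj h).2 hc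
  exact (black_iff_not_white.1 hb) this

/-- **A5**, interface form -/
theorem a_swap : A_swap := by
  intro V w b' b0 w' hw hb' hb0 hw' hwW hwW' ha ha' hww hbb
  exact two_swap hw hw' hb0 hb' hwW hwW' (black_of_adj hwW ha) (black_of_adj hwW' ha') hww hbb ha ha'

/-- **A6**, interface form -/
theorem a_kuo : A_kuo := by
  intro V Ws Bs w hw hWs hBs hW hB
  have hX : Ws ∪ Bs ⊆ V := union_subset hWs hBs
  have h := kuo hX (mem_union_left _ hw) (hW w hw)
  refine h.trans ?_
  have hfil : (Ws ∪ Bs).filter (fun b => Black b) = Bs := by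
    ext b
    rw [mem_filter, mem_union]
    constructor
    · rintro ⟨h1 | h1, h2⟩
      · exact absurd (hW b h1) (black_iff_not_white.1 h2)
      · exact h1
    · intro h1
      exact ⟨Or.inr h1, hB b h1⟩
  rw [hfil]
  apply le_of_eq
  apply sum_congr rfl
  intro b hb
  congr 2
  ext x
  simp only [mem_sdiff, mem_union, mem_insert, mem_singleton, not_and, not_not, not_or]
  have h1 : w ∉ Bs := fun h => (black_iff_not_white.1 (hB w h)) (hW w hw)
  have h2 : b ∉ Ws := fun h => (black_iff_not_white.1 (hB b hb)) (hW b h)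
  constructor
  · rintro ⟨hx, hx2⟩
    refine ⟨hx, fun hxW => ?_, fun hxB => ?_⟩
    · by_contra hne
      exact h2 ((hx2 (Or.inl hxW) hne) ▸ hxW)
    · by_contra hne
      rcases eq_or_ne x w with h3 | h3
      · exact h1 (h3 ▸ hxB)
      · exact hne (hx2 (Or.inr hxB) h3)
  · rintro ⟨hx, hxW, hxB⟩
    refine ⟨hx, ?_⟩
    rintro (h3 | h3) h4
    · exact absurd (hxW h3) h4
    · exact hxB h3

/-- **A6**, iterated: removing `Ws` and `Bs` -/
theorem kuo_iter (V : Finset Pt) (μ : ℝ) (hμ : 0 ≤ μ) :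
    ∀ (k : ℕ) (Ws Bs : Finset Pt), Ws ⊆ V → Bs ⊆ V → (∀ v ∈ Ws, White v) → (∀ v ∈ Bs, Black v) →
      Ws.card = k → Bs.card = k → 0 < Z V →
      (∀ w ∈ Ws, ∀ b ∈ Bs, (Z (V \ {w, b}) : ℝ) ≤ μ * Z V) →
      (Z (V \ (Ws ∪ Bs)) : ℝ) ≤ k.factorial * μ ^ k * Z V := by
  intro k
  induction k with
  | zero =>
    intro Ws Bs _ _ _ _ h1 h2 _ _
    rw [card_eq_zero] at h1 h2
    subst h1; subst h2
    simp
  | succ k ih =>
    intro Ws Bs hWs hBs hW hB hc1 hc2 hZ hbd
    have hne : Ws.Nonempty := by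
      rw [← card_pos]; omega
    obtain ⟨w, hw⟩ := hne
    have h := a_kuo V Ws Bs w hw hWs hBs hW hB
    have h' : (Z (V \ (Ws ∪ Bs)) : ℝ) * Z V ≤
        ∑ b ∈ Bs, (Z (V \ {w, b}) : ℝ) * Z (V \ ((Ws \ {w}) ∪ (Bs \ {b}))) := by
      exact_mod_cast h
    have hZ' : (0 : ℝ) < Z V := by exact_mod_cast hZ
    have hterm : ∀ b ∈ Bs, (Z (V \ {w, b}) : ℝ) * Z (V \ ((Ws \ {w}) ∪ (Bs \ {b}))) ≤
        (μ * Z V) * (k.factorial * μ ^ k * Z V) := by
      intro b hb
      have e1 : (Ws \ {w}).card = k := by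
        rw [card_sdiff_of_subset (by simpa using hw), hc1]; simp
      have e2 : (Bs \ {b}).card = k := by
        rw [card_sdiff_of_subset (by simpa using hb), hc2]; simp
      have := ih (Ws \ {w}) (Bs \ {b}) (sdiff_subset.trans hWs) (sdiff_subset.trans hBs)
        (fun v hv => hW v (mem_sdiff.1 hv).1) (fun v hv => hB v (mem_sdiff.1 hv).1) e1 e2 hZ
        (fun w' hw' b' hb' => hbd w' (mem_sdiff.1 hw').1 b' (mem_sdiff.1 hb').1)
      exact mul_le_mul (hbd w hw b hb) this (by positivity) (by positivity)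
    have hsum := h'.trans (sum_le_sum hterm)
    rw [sum_const, hc2, nsmul_eq_mul] at hsum
    have : (Z (V \ (Ws ∪ Bs)) : ℝ) * Z V ≤
        (((k + 1).factorial : ℝ) * μ ^ (k + 1) * Z V) * Z V := by
      refine hsum.trans (le_of_eq ?_)
      rw [Nat.factorial_succ]; push_cast; ring
    exact le_of_mul_le_mul_right this hZ'

/-- **A6**, iterated, for an injective map `g` from whites to blacks -/
theorem kuo_iter_image (V : Finset Pt) (μ : ℝ) (hμ : 0 ≤ μ) (S : Finset Pt) (g : Pt → Pt)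
    (hS : S ⊆ V) (hW : ∀ v ∈ S, White v) (hg : Set.InjOn g S) (hgV : ∀ v ∈ S, g v ∈ V)
    (hgB : ∀ v ∈ S, Black (g v)) (hZ : 0 < Z V)
    (hbd : ∀ w ∈ S, ∀ w' ∈ S, (Z (V \ {w, g w'}) : ℝ) ≤ μ * Z V) :
    (Z (V \ (S ∪ S.image g)) : ℝ) ≤ S.card.factorial * μ ^ S.card * Z V := by
  apply kuo_iter V μ hμ S.card S (S.image g) hS
  · intro x hx
    obtain ⟨v, hv, rfl⟩ := mem_image.1 hx
    exact hgV v hv
  · exact hW
  · intro x hx
    obtain ⟨v, hv, rfl⟩ := mem_image.1 hx
    exact hgB v hv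
  · rfl
  · exact card_image_of_injOn hg
  · exact hZ
  · intro w hw b hb
    obtain ⟨v, hv, rfl⟩ := mem_image.1 hb
    exact hbd w hw v hv

end Vale.Agent.P155.SW
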