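import Vale.Agent.P155.F.F3
import Vale.Agent.P155.F.DetInv
import Vale.Agent.P155.F.Cut
import Vale.Agent.P155.F.KuoIter

/-!
# P155, block F3: the concrete two-cut determinant
-/

namespace Vale.Agent.P155.F

open Finset

/-- The Kasteleyn matrix with two cuts and the two slot rows `w1, w2` replaced by units at
`b1, b2`. -/
noncomputable def Kcut (f g f' g' w1 w2 b1 b2 : Pt) (w b : Pt) : ℝ :=
  if w = w1 then (if b = b1 then 1 else 0)
  else if w = w2 then (if b = b2 then 1 else 0)
  else K w b * (sc f g w b * sc f' g' w b)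

/-- local determinants are bounded by the iterated Kuo inequality -/
theorem abs_locdet_le {V : Finset Pt} {m0 : Pt → Pt} (h0 : IsPM V m0) (hpos : 0 < Z V)
    (κ : Pt → Pt → ℝ) (hκ1 : ∀ w b, |κ w b| ≤ 1) (hκ2 : ∀ w b, κ w b ≠ 0 → Adj w b)
    (S : Finset (WV V)) (g : WV V → WV V) (hg : Set.InjOn g S) {Mx : ℝ} (hMx : 0 ≤ Mx)
    (hM : ∀ w ∈ S, ∀ w' ∈ S, (Z (V \ {(w : Pt), m0 (g w')}) : ℝ) ≤ Mx * Z V) :
    |Matrix.det (fun i => if i ∈ S then Pi.single (g i) 1 else MR V m0 κ i :
      Matrix (WV V) (WV V) ℝ)| ≤ S.card.factorial * Mx ^ S.card * Z V := by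
  classical
  set Sp : Finset Pt := S.image (fun w : WV V => (w : Pt)) with hSp
  set gp : Pt → Pt := fun w => if h : w ∈ V.filter White then m0 (g ⟨w, h⟩) else w with hgp
  have hgpv : ∀ w : WV V, gp w = m0 (g w) := by
    intro w
    rw [hgp]
    simp only
    rw [dif_pos w.2]
  have hSpmem : ∀ w : WV V, (w : Pt) ∈ Sp ↔ w ∈ S := by
    intro w
    rw [hSp, mem_image]
    constructor
    · rintro ⟨w', hw', he⟩
      rwa [← Subtype.ext he]
    · intro h
      exact ⟨w, h, rfl⟩
  have hSpV : ∀ w ∈ Sp, ∃ w' : WV V, w' ∈ S ∧ (w' : Pt) = w := by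
    intro w hw
    obtain ⟨w', hw', he⟩ := mem_image.1 hw
    exact ⟨w', hw', he⟩
  set κ' : Pt → Pt → ℝ := fun w b => if w ∈ Sp then (if b = gp w then 1 else 0) else κ w b with hκ'
  have hmat : (fun i => if i ∈ S then Pi.single (g i) 1 else MR V m0 κ i :
      Matrix (WV V) (WV V) ℝ) = MR V m0 κ' := by
    funext i j
    by_cases hi : i ∈ S
    · simp only [hi, if_true, MR, Matrix.of_apply, hκ', (hSpmem i).2 hi, hgpv]
      rw [Pi.single_apply]
      by_cases hj : j = g i
      · rw [if_pos hj, if_pos (by rw [hj])]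
      · rw [if_neg hj, if_neg]
        intro hh
        exact hj (Subtype.ext (IsPM.inj h0 hh))
    · have hi' : (i : Pt) ∉ Sp := fun hh => hi ((hSpmem i).1 hh)
      simp only [hi, if_false, MR, Matrix.of_apply, hκ', hi']
  rw [hmat, ← detR_def]
  have hinj : Set.InjOn gp Sp := by
    intro a ha b hb hab
    obtain ⟨a', ha', rfl⟩ := hSpV a ha
    obtain ⟨b', hb', rfl⟩ := hSpV b hb
    rw [hgpv, hgpv] at hab
    have := hg ha' hb' (Subtype.ext (IsPM.inj h0 hab))
    rw [this]
  have hS1 : ∀ w ∈ Sp, w ∈ V ∧ White w := by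
    intro w hw
    obtain ⟨w', _, rfl⟩ := hSpV w hw
    exact ⟨w'.mem, w'.white⟩
  have hg1 : ∀ w ∈ Sp, gp w ∈ V ∧ Black (gp w) := by
    intro w hw
    obtain ⟨w', _, rfl⟩ := hSpV w hw
    rw [hgpv]
    exact ⟨IsPM.mem h0 (g w').mem, IsPM.black h0 (g w').mem (g w').white⟩
  have hU : UnitRows V Sp gp κ' := by
    refine ⟨?_, ?_, ?_⟩
    · intro w hw b
      simp only [hκ', hw, if_true]
    · intro w _ _ hw b
      simp only [hκ', hw, if_false]
      exact hκ1 w b
    · intro w _ _ hw b hb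
      simp only [hκ', hw, if_false] at hb
      exact hκ2 w b hb
  refine (abs_detR_le h0 hS1 hg1 hinj hU).trans ?_
  have hcard : Sp.card = S.card := card_image_of_injective _ Subtype.val_injective
  rw [← hcard]
  apply SW.kuo_iter_image V Mx hMx Sp gp (fun w hw => (hS1 w hw).1) (fun w hw => (hS1 w hw).2)
    hinj (fun w hw => (hg1 w hw).1) (fun w hw => (hg1 w hw).2) hpos
  intro w hw w' hw'
  obtain ⟨u, hu, rfl⟩ := hSpV w hw
  obtain ⟨u', hu', rfl⟩ := hSpV w' hw'
  rw [hgpv]
  exact hM u hu u' hu'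

theorem nrm_le {V : Finset Pt} {m0 : Pt → Pt} (h0 : IsPM V m0) (w : WV V) :
    ∑ c, |MR V m0 K w c| ≤ 4 := by
  classical
  have h1 : ∑ c, |MR V m0 K w c| = ∑ b ∈ V.filter Black, |K w b| := by
    rw [← sum_m0 h0 (fun b => |K w b|)]
    rfl
  rw [h1]
  calc ∑ b ∈ V.filter Black, |K w b| = ∑ b ∈ (V.filter Black) ∩ nbrs (w : Pt), |K w b| := by
        symm
        apply sum_subset inter_subset_left
        intro b hb hb'
        have : K w b = 0 := by
          by_contra hne
          exact hb' (mem_inter.2 ⟨hb, mem_nbrs.2 (K_adj hne)⟩)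
        rw [this, abs_zero]
    _ ≤ ∑ b ∈ (V.filter Black) ∩ nbrs (w : Pt), 1 := sum_le_sum (fun b _ => abs_K_le _ _)
    _ = (((V.filter Black) ∩ nbrs (w : Pt)).card : ℝ) := by simp
    _ ≤ 4 := by
        have : ((V.filter Black) ∩ nbrs (w : Pt)).card ≤ 4 :=
          (card_le_card inter_subset_right).trans card_le_four
        exact_mod_cast this

theorem dinf_tri (u v w : Pt) : dinf u w ≤ dinf u v + dinf v w := by
  unfold dinf
  have h1 := abs_sub_le u.1 v.1 w.1
  have h2 := abs_sub_le u.2 v.2 w.2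
  apply max_le
  · exact h1.trans (add_le_add (le_max_left _ _) (le_max_left _ _))
  · exact h2.trans (add_le_add (le_max_right _ _) (le_max_right _ _))

theorem dinf_symm (u v : Pt) : dinf u v = dinf v u := by
  unfold dinf
  rw [abs_sub_comm u.1, abs_sub_comm u.2]

theorem mem_box_iff {x v : Pt} {r : ℕ} : v ∈ box x r ↔ dinf x v ≤ r := by
  unfold box dinf
  rw [mem_product, mem_Icc, mem_Icc, max_le_iff, abs_le, abs_le]
  constructor
  · rintro ⟨⟨h1, h2⟩, h3, h4⟩
    refine ⟨⟨?_, ?_⟩, ?_, ?_⟩ <;> linarith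
  · rintro ⟨⟨h1, h2⟩, h3, h4⟩
    refine ⟨⟨?_, ?_⟩, ?_, ?_⟩ <;> linarith

theorem dinf_of_adj {u v : Pt} (h : Adj u v) : dinf u v ≤ 1 := by
  unfold dinf
  unfold Adj at h
  have := abs_nonneg (u.1 - v.1)
  have := abs_nonneg (u.2 - v.2)
  apply max_le <;> linarith

theorem box_of_adj {x u v : Pt} {r : ℕ} (h : u ∈ box x r) (ha : Adj u v) : v ∈ box x (r + 1) := by
  rw [mem_box_iff] at h ⊢
  have := dinf_tri x u v
  have := dinf_of_adj ha
  push_cast
  linarith

theorem box_succ {x u : Pt} {r : ℕ} (h : u ∈ box x r) : u ∈ box x (r + 1) := by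
  rw [mem_box_iff] at h ⊢
  push_cast
  linarith

/-- **F3, concrete.** -/
theorem abs_detR_cut_le {V : Finset Pt} {m0 : Pt → Pt} (h0 : IsPM V m0) (hinv : InvRel V)
    (hZ : |detR V m0 K| = Z V) (hpos : 0 < Z V) (q q' : Pt) (ρ : ℕ)
    (hfar : (2 * ρ + 4 : ℤ) < dinf q q') (f g f' g' w1 w2 b1 b2 : Pt)
    (hcut : cutV f g ⊆ box q ρ) (hcut' : cutV f' g' ⊆ box q' ρ) (hw : w1 ≠ w2)
    (hw1 : w1 ∈ V) (hw2 : w2 ∈ V) (hb1 : b1 ∈ V) (hb2 : b2 ∈ V)
    (hw1W : White w1) (hw2W : White w2) (hb1B : Black b1) (hb2B : Black b2)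
    (hw1q : w1 ∈ box q ρ) (hw2q : w2 ∈ box q ρ) (hb1q : b1 ∈ box q' ρ) (hb2q : b2 ∈ box q' ρ)
    {Mx k0 S0 : ℝ} (hMx : 1 ≤ Mx)
    (hM : ∀ w b, White w → Black b → w ∈ V → b ∈ V →
      (w ∈ box q (ρ + 1) ∧ b ∈ box q (ρ + 1) ∨ w ∈ box q' (ρ + 1) ∧ b ∈ box q' (ρ + 1)) →
      (Z (V \ {w, b}) : ℝ) ≤ Mx * Z V)
    (hk : ∀ w b, White w → Black b → w ∈ V → b ∈ V →
      (w ∈ box q (ρ + 1) ∧ b ∈ box q' (ρ + 1) ∨ w ∈ box q' (ρ + 1) ∧ b ∈ box q (ρ + 1)) →
      |Kinv V b w| ≤ k0)
    (hS : ((cutV f g).card : ℝ) + 2 ≤ S0) (hS' : ((cutV f' g').card : ℝ) + 2 ≤ S0)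
    (hx : 4 * S0 ^ 2 * Mx * (4 * k0) ≤ 1 / 2) :
    |detR V m0 (Kcut f g f' g' w1 w2 b1 b2)| ≤ 80 * S0 ^ 4 * Mx ^ 4 * (4 * k0) ^ 2 * Z V := by
  classical
  have hk0 : 0 ≤ k0 := (abs_nonneg _).trans (hk w1 b1 hw1W hb1B hw1 hb1
    (Or.inl ⟨box_succ hw1q, box_succ hb1q⟩))
  have hMx0 : 0 ≤ Mx := zero_le_one.trans hMx
  have hsep : ∀ u, u ∈ box q (ρ + 1) → u ∉ box q' (ρ + 1) := by
    intro u h1 h2
    rw [mem_box_iff] at h1 h2
    have h3 := dinf_tri q u q'
    rw [dinf_symm u q'] at h3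
    push_cast at h1 h2
    linarith
  have hinvM : (MR V m0 K)⁻¹ = GR V m0 := MR_inv h0 hinv
  have hKV : ∀ b w, (b ∈ V → |Kinv V b w| ≤ k0) → |Kinv V b w| ≤ k0 := by
    intro b w h
    by_cases hb : b ∈ V
    · exact h hb
    · rw [Kinv_off_left hb, abs_zero]; exact hk0
  set s1 : WV V := ⟨w1, mem_filter.2 ⟨hw1, hw1W⟩⟩ with hs1
  set s2 : WV V := ⟨w2, mem_filter.2 ⟨hw2, hw2W⟩⟩ with hs2
  set c1 : WV V := ⟨m0 b1, m0_mem h0 ⟨hb1, hb1B⟩⟩ with hc1
  set c2 : WV V := ⟨m0 b2, m0_mem h0 ⟨hb2, hb2B⟩⟩ with hc2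
  have hc1b : m0 c1 = b1 := h0.invol b1
  have hc2b : m0 c2 = b2 := h0.invol b2
  set P : Finset (WV V) := univ.filter (fun w => (w : Pt) ∈ cutV f g ∧ (w : Pt) ≠ w1 ∧
    (w : Pt) ≠ w2) with hP
  set P' : Finset (WV V) := univ.filter (fun w => (w : Pt) ∈ cutV f' g') with hP'
  set CQ : Finset (WV V) := univ.filter (fun w => m0 w ∈ box q (ρ + 1)) with hCQ
  set CQ' : Finset (WV V) := univ.filter (fun w => m0 w ∈ box q' (ρ + 1)) with hCQ'
  set κQ : Pt → Pt → ℝ := fun w b => K w b * sc f g w b with hκQ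
  set κQ' : Pt → Pt → ℝ := fun w b => K w b * sc f' g' w b with hκQ'
  have hTq : ∀ i ∈ insert s1 (insert s2 P), (i : Pt) ∈ box q ρ := by
    intro i hi
    rcases mem_insert.1 hi with rfl | hi
    · exact hw1q
    rcases mem_insert.1 hi with rfl | hi
    · exact hw2q
    exact hcut (mem_filter.1 hi).2.1
  have hP'q : ∀ i ∈ P', (i : Pt) ∈ box q' ρ := by
    intro i hi
    exact hcut' (mem_filter.1 hi).2
  have hndisj : ∀ i ∈ insert s1 (insert s2 P), i ∉ P' := by
    intro i hi hi'
    exact hsep _ (box_succ (hTq i hi)) (box_succ (hP'q i hi'))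
  have hsP : ∀ i ∈ insert s1 (insert s2 P), (i : Pt) ∉ cutV f' g' := by
    intro i hi hi'
    exact hsep _ (box_succ (hTq i hi)) (box_succ (hcut' hi'))
  have habs : ∀ (κ : Pt → Pt → ℝ), (∀ w b, |κ w b| = 1) → (∀ w b, |K w b * κ w b| ≤ 1) := by
    intro κ h w b
    rw [abs_mul, h, mul_one]
    exact abs_K_le w b
  have hκQ1 : ∀ w b, |κQ w b| ≤ 1 := habs _ (fun w b => abs_sc f g w b)
  have hκQ1' : ∀ w b, |κQ' w b| ≤ 1 := habs _ (fun w b => abs_sc f' g' w b)
  have hκQ2 : ∀ w b, κQ w b ≠ 0 → Adj w b := fun w b h => K_adj (left_ne_zero_of_mul h)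
  have hκQ2' : ∀ w b, κQ' w b ≠ 0 → Adj w b := fun w b h => K_adj (left_ne_zero_of_mul h)
  have hKsupp : ∀ (i c : WV V) (x : Pt), (i : Pt) ∈ box x ρ → MR V m0 K i c ≠ 0 →
      m0 c ∈ box x (ρ + 1) := by
    intro i c x hi hne
    exact box_of_adj hi (K_adj hne)
  have hrow : ∀ (i : WV V) (c : WV V) (b : Pt), m0 c = b →
      (∀ j : WV V, MR V m0 (Kcut f g f' g' w1 w2 b1 b2) i j = if m0 j = b then 1 else 0) →
      MR V m0 (Kcut f g f' g' w1 w2 b1 b2) i = Pi.single c 1 := by
    intro i c b hcb h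
    ext j
    rw [h j, Pi.single_apply]
    by_cases hj : j = c
    · rw [if_pos hj, if_pos (by rw [hj, hcb])]
    · rw [if_neg hj, if_neg]
      intro hh
      exact hj (Subtype.ext (IsPM.inj h0 (hh.trans hcb.symm)))
  have hBD : BlockData (MR V m0 K) (MR V m0 κQ) (MR V m0 κQ')
      (MR V m0 (Kcut f g f' g' w1 w2 b1 b2)) P P' s1 s2 c1 c2 CQ CQ' Mx (4 * k0) := by
    refine
      { det_ne := ?_, disj := ?_, ne12 := ?_, s1P := ?_, s2P := ?_, s1P' := ?_, s2P' := ?_,
        c1C := ?_, c2C := ?_, rowP := ?_, rowP' := ?_, row1 := ?_, row2 := ?_, rowO := ?_,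
        crossP := ?_, crossP' := ?_, cross1 := ?_, cross2 := ?_, supp := ?_, supp' := ?_,
        nrm := ?_, nrm' := ?_, loc := ?_, loc' := ?_, Mx1 := hMx }
    · rw [← detR_def, ← abs_pos, hZ]
      exact_mod_cast hpos
    · rw [Finset.disjoint_left]
      intro i hi
      exact hndisj i (mem_insert_of_mem (mem_insert_of_mem hi))
    · intro h
      exact hw (congrArg Subtype.val h)
    · intro h
      exact (mem_filter.1 h).2.2.1 rfl
    · intro h
      exact (mem_filter.1 h).2.2.2 rfl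
    · exact hndisj _ (mem_insert_self _ _)
    · exact hndisj _ (mem_insert_of_mem (mem_insert_self _ _))
    · rw [hCQ', mem_filter]
      refine ⟨mem_univ _, ?_⟩
      rw [hc1b]; exact box_succ hb1q
    · rw [hCQ', mem_filter]
      refine ⟨mem_univ _, ?_⟩
      rw [hc2b]; exact box_succ hb2q
    · intro i hi
      obtain ⟨_, h2, h3, h4⟩ := mem_filter.1 hi
      have h5 := hsP i (mem_insert_of_mem (mem_insert_of_mem hi))
      ext j
      simp only [MR, Matrix.of_apply, Kcut, h3, h4, if_false, hκQ, sc_eq_one _ h5, mul_one]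
    · intro i hi
      obtain ⟨_, h2⟩ := mem_filter.1 hi
      have h3 : (i : Pt) ≠ w1 := by
        intro h
        exact hsep _ (box_succ hw1q) (h ▸ box_succ (hP'q i hi))
      have h4 : (i : Pt) ≠ w2 := by
        intro h
        exact hsep _ (box_succ hw2q) (h ▸ box_succ (hP'q i hi))
      have h5 : (i : Pt) ∉ cutV f g := by
        intro h
        exact hsep _ (box_succ (hcut h)) (box_succ (hP'q i hi))
      ext j
      simp only [MR, Matrix.of_apply, Kcut, h3, h4, if_false, hκQ', sc_eq_one _ h5, one_mul]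
    · apply hrow s1 c1 b1 hc1b
      intro j
      simp only [MR, Matrix.of_apply, Kcut, hs1, if_true]
    · apply hrow s2 c2 b2 hc2b
      intro j
      simp only [MR, Matrix.of_apply, Kcut, hs2, hw.symm, if_false, if_true]
    · intro i hi hi' h1 h2
      have h3 : (i : Pt) ≠ w1 := fun h => h1 (Subtype.ext h)
      have h4 : (i : Pt) ≠ w2 := fun h => h2 (Subtype.ext h)
      have h5 : (i : Pt) ∉ cutV f g := fun h => hi (mem_filter.2 ⟨mem_univ _, h, h3, h4⟩)
      have h6 : (i : Pt) ∉ cutV f' g' := fun h => hi' (mem_filter.2 ⟨mem_univ _, h⟩)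
      ext j
      simp only [MR, Matrix.of_apply, Kcut, h3, h4, if_false, sc_eq_one _ h5, sc_eq_one _ h6,
        mul_one]
    · intro i hi j hj
      rw [hinvM]
      apply abs_mul_GR_le h0 i j (fun b => hκQ2 i b) (fun b => hκQ1 i b)
      intro b hb
      apply hKV
      intro hbV
      have hi2 := hTq i (mem_insert_of_mem (mem_insert_of_mem hi))
      exact hk j b j.white (adj_white (mem_nbrs.1 hb) i.white) j.mem hbV
        (Or.inr ⟨box_succ (hP'q j hj), box_of_adj hi2 (mem_nbrs.1 hb)⟩)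
    · intro i hi j hj
      rw [hinvM]
      apply abs_mul_GR_le h0 i j (fun b => hκQ2' i b) (fun b => hκQ1' i b)
      intro b hb
      apply hKV
      intro hbV
      exact hk j b j.white (adj_white (mem_nbrs.1 hb) i.white) j.mem hbV
        (Or.inl ⟨box_succ (hTq j hj), box_of_adj (hP'q i hi) (mem_nbrs.1 hb)⟩)
    · intro j hj
      rw [hinvM]
      have h1 : GR V m0 c1 j = Kinv V b1 j := by
        simp only [GR, Matrix.of_apply, hc1b]
      rw [h1]
      have := hk j b1 j.white hb1B j.mem hb1 (Or.inl ⟨box_succ (hTq j hj), box_succ hb1q⟩)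
      linarith
    · intro j hj
      rw [hinvM]
      have h1 : GR V m0 c2 j = Kinv V b2 j := by
        simp only [GR, Matrix.of_apply, hc2b]
      rw [h1]
      have := hk j b2 j.white hb2B j.mem hb2 (Or.inl ⟨box_succ (hTq j hj), box_succ hb2q⟩)
      linarith
    · intro i hi c hc
      by_contra hne
      exact hc (mem_filter.2 ⟨mem_univ _, hKsupp i c q (hTq i hi) hne⟩)
    · intro i hi c hc
      by_contra hne
      exact hc (mem_filter.2 ⟨mem_univ _, hKsupp i c q' (hP'q i hi) hne⟩)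
    · intro i _
      exact nrm_le h0 i
    · intro i _
      exact nrm_le h0 i
    · intro S hSsub gg hgg hgC
      set κ : Pt → Pt → ℝ := fun w b => if w ∈ cutV f g ∧ w ≠ w1 ∧ w ≠ w2 then κQ w b else K w b
        with hκ
      have e : rowsRep (MR V m0 K) (MR V m0 κQ) P S gg =
          (fun i => if i ∈ S then Pi.single (gg i) 1 else MR V m0 κ i :
            Matrix (WV V) (WV V) ℝ) := by
        funext i
        by_cases hi : i ∈ S
        · simp only [rowsRep, hi, if_true]
        · by_cases hiP : i ∈ P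
          · have h2 := (mem_filter.1 hiP).2
            simp only [rowsRep, hi, if_false, hiP, if_true]
            funext j
            simp only [MR, Matrix.of_apply, hκ]
            rw [if_pos h2]
          · have h2 : ¬ ((i : Pt) ∈ cutV f g ∧ (i : Pt) ≠ w1 ∧ (i : Pt) ≠ w2) :=
              fun h => hiP (mem_filter.2 ⟨mem_univ _, h⟩)
            simp only [rowsRep, hi, if_false, hiP]
            funext j
            simp only [MR, Matrix.of_apply, hκ]
            rw [if_neg h2]
      rw [e, ← detR_def, hZ]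
      apply abs_locdet_le h0 hpos κ _ _ S gg hgg hMx0
      · intro w hw w' hw'
        apply hM w _ w.white (IsPM.black h0 (gg w').mem (gg w').white) w.mem
          (IsPM.mem h0 (gg w').mem)
        exact Or.inl ⟨box_succ (hTq w (hSsub hw)), (mem_filter.1 (hgC w' hw')).2⟩
      · intro w b
        simp only [hκ]
        split_ifs
        · exact hκQ1 w b
        · exact abs_K_le w b
      · intro w b hne
        simp only [hκ] at hne
        split_ifs at hne
        · exact hκQ2 w b hne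
        · exact K_adj hne
    · intro S hSsub gg hgg hgC
      set κ : Pt → Pt → ℝ := fun w b => if w ∈ cutV f' g' then κQ' w b else K w b
        with hκ
      have e : rowsRep (MR V m0 K) (MR V m0 κQ') P' S gg =
          (fun i => if i ∈ S then Pi.single (gg i) 1 else MR V m0 κ i :
            Matrix (WV V) (WV V) ℝ) := by
        funext i
        by_cases hi : i ∈ S
        · simp only [rowsRep, hi, if_true]
        · by_cases hiP : i ∈ P'
          · have h2 := (mem_filter.1 hiP).2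
            simp only [rowsRep, hi, if_false, hiP, if_true]
            funext j
            simp only [MR, Matrix.of_apply, hκ]
            rw [if_pos h2]
          · have h2 : ¬ ((i : Pt) ∈ cutV f' g') :=
              fun h => hiP (mem_filter.2 ⟨mem_univ _, h⟩)
            simp only [rowsRep, hi, if_false, hiP]
            funext j
            simp only [MR, Matrix.of_apply, hκ]
            rw [if_neg h2]
      rw [e, ← detR_def, hZ]
      apply abs_locdet_le h0 hpos κ _ _ S gg hgg hMx0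
      · intro w hw w' hw'
        apply hM w _ w.white (IsPM.black h0 (gg w').mem (gg w').white) w.mem
          (IsPM.mem h0 (gg w').mem)
        exact Or.inr ⟨box_succ (hP'q w (hSsub hw)), (mem_filter.1 (hgC w' hw')).2⟩
      · intro w b
        simp only [hκ]
        split_ifs
        · exact hκQ1' w b
        · exact abs_K_le w b
      · intro w b hne
        simp only [hκ] at hne
        split_ifs at hne
        · exact hκQ2' w b hne
        · exact K_adj hne
  have hcardP : (P.card : ℝ) ≤ (cutV f g).card := by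
    have : P.card ≤ (cutV f g).card := by
      rw [← card_image_of_injective P Subtype.val_injective]
      apply card_le_card
      intro x hx
      obtain ⟨w, hw, rfl⟩ := mem_image.1 hx
      exact (mem_filter.1 hw).2.1
    exact_mod_cast this
  have hcardP' : (P'.card : ℝ) ≤ (cutV f' g').card := by
    have : P'.card ≤ (cutV f' g').card := by
      rw [← card_image_of_injective P' Subtype.val_injective]
      apply card_le_card
      intro x hx
      obtain ⟨w, hw, rfl⟩ := mem_image.1 hx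
      exact (mem_filter.1 hw).2
    exact_mod_cast this
  have := abs_det_block_le hBD S0 (by linarith) (by linarith) hx
  rw [← detR_def, ← detR_def, hZ] at this
  exact this

end Vale.Agent.P155.F
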