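import Vale.Agent.P155.F.PairFinal
import Vale.Agent.P155.F.CutLoop
import Vale.Agent.P155.F.F3Cut
import Vale.Agent.P155.A.SignLoop
import Vale.Agent.P155.A.Pick

/-!
# P155, block F: the pair estimate from block B
-/

namespace Vale.Agent.P155.F

open Finset Skel

theorem signLoop : SignLoop := A.signLoop_of_pick (fun γ => γ.pick)

theorem det_ne (T : Temp) : (KM T.V).det ≠ 0 :=
  Temp.det_ne_zero T (Temp.card_of_euler T T.γ.pick)

theorem exists_pm (T : Temp) : ∃ m, IsPM T.V m := exists_isPM (det_ne T)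

theorem Kcut_eq (w1 w2 b1 b2 : Pt) :
    Kc {w1, w2} (fun w => if w = w1 then b1 else b2) (fun w b => sc w1 w2 w b * sc b1 b2 w b) =
      Kcut w1 w2 b1 b2 w1 w2 b1 b2 := by
  funext w b
  unfold Kc Kcut
  by_cases h1 : w = w1
  · subst h1
    simp
  · by_cases h2 : w = w2
    · subst h2
      simp [h1]
    · simp [h1, h2]

theorem cutBound : CutBound := by
  intro V m0 h0 hinv hZ hpos q q' ρ hfar w1 w2 b1 b2 hcut hcut' hw _ hw1 hw2 hb1 hb2 hW1 hW2 hB1
    hB2 mw1 mw2 mb1 mb2 Mx k0 S0 hMx hM hk hS hS' hx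
  rw [Kcut_eq]
  exact abs_detR_cut_le h0 hinv hZ hpos q q' ρ (by rw [← dn_cast]; exact_mod_cast hfar) w1 w2 b1 b2
    w1 w2 b1 b2 hcut hcut' hw hw1 hw2 hb1 hb2 hW1 hW2 hB1 hB2 mw1 mw2 mb1 mb2 hMx hM hk hS hS' hx

theorem invRel (T : Temp) : InvRel T.V := fun _ _ _ hw' hV hV' =>
  sum_K_Kinv (det_ne T) hV hV' hw'

/-- **Block F**: the pair estimate, from the bounds of block B. -/
theorem f_pair (hP : B_plane) (hD : B_dom) (hM : B_mono) : F_pair :=
  pair_of cutLoop signLoop cutBound invRel hP hD hM exists_pm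

end Vale.Agent.P155.F
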