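import Mathlib

/-!
# P155, block F3: a block Laplace bound

`abs_det_block_le`: a determinant whose rows are split into two far apart groups, and two slot rows
moved from one group to the other, is at most `80 S0⁴ Mx⁴ κ²` times the reference determinant.
-/

namespace Vale.Agent.P155.F

open Finset

variable {n : Type*} [Fintype n] [DecidableEq n]

/-- rows `i ∈ I` replaced by the unit rows `δ_{f i}` -/
def unitRows (M : Matrix n n ℝ) (I : Finset n) (f : n → n) : Matrix n n ℝ :=
  fun i => if i ∈ I then Pi.single (f i) 1 else M i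

theorem abs_det_le_rows (C : n → Finset n) (B : ℝ) (I : Finset n) :
    ∀ M : Matrix n n ℝ, (∀ i ∈ I, ∀ c, c ∉ C i → M i c = 0) →
    (∀ f : n → n, (∀ i ∈ I, f i ∈ C i) → |(unitRows M I f).det| ≤ B) →
    |M.det| ≤ (∏ i ∈ I, ∑ c ∈ C i, |M i c|) * B := by
  induction I using Finset.induction_on with
  | empty =>
    intro M _ h
    have := h id (by simp)
    have e : unitRows M ∅ id = M := by
      ext i j; simp [unitRows]
    rw [e] at this
    simpa using this
  | insert a I ha ih =>
    intro M hsup h
    have h1 : M.det = ∑ c, M a c * (M.updateRow a (Pi.single c 1)).det := by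
      rw [Matrix.det_eq_sum_mul_adjugate_row M a]
      simp [Matrix.adjugate_apply]
    have h2 : M.det = ∑ c ∈ C a, M a c * (M.updateRow a (Pi.single c 1)).det := by
      rw [h1]
      symm
      apply Finset.sum_subset (Finset.subset_univ _)
      intro c _ hc
      rw [hsup a (Finset.mem_insert_self _ _) c hc, zero_mul]
    have h3 : ∀ c ∈ C a, |(M.updateRow a (Pi.single c 1)).det| ≤
        (∏ i ∈ I, ∑ c ∈ C i, |M i c|) * B := by
      intro c hc
      have hne : ∀ i ∈ I, i ≠ a := fun i hi h => ha (h ▸ hi)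
      have := ih (M.updateRow a (Pi.single c 1)) (by
        intro i hi c' hc'
        rw [Matrix.updateRow_ne (hne i hi)]
        exact hsup i (Finset.mem_insert_of_mem hi) c' hc') (by
        intro f hf
        have e : unitRows (M.updateRow a (Pi.single c 1)) I f =
            unitRows M (insert a I) (Function.update f a c) := by
          funext i
          by_cases hia : i = a
          · subst hia
            simp [unitRows, ha]
          · by_cases hi : i ∈ I
            · simp [unitRows, hi, hia]
            · simp [unitRows, hi, hia]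
        rw [e]
        apply h
        intro i hi
        rcases Finset.mem_insert.1 hi with rfl | hi
        · simpa using hc
        · rw [Function.update_of_ne (hne i hi)]
          exact hf i hi)
      refine this.trans (le_of_eq ?_)
      congr 1
      apply Finset.prod_congr rfl
      intro i hi
      rw [Matrix.updateRow_ne (hne i hi)]
    rw [h2]
    calc |∑ c ∈ C a, M a c * (M.updateRow a (Pi.single c 1)).det|
        ≤ ∑ c ∈ C a, |M a c * (M.updateRow a (Pi.single c 1)).det| :=
          Finset.abs_sum_le_sum_abs _ _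
      _ ≤ ∑ c ∈ C a, |M a c| * ((∏ i ∈ I, ∑ c ∈ C i, |M i c|) * B) := by
          apply Finset.sum_le_sum
          intro c hc
          rw [abs_mul]
          exact mul_le_mul_of_nonneg_left (h3 c hc) (abs_nonneg _)
      _ = (∏ i ∈ insert a I, ∑ c ∈ C i, |M i c|) * B := by
          rw [Finset.prod_insert ha, ← Finset.sum_mul, mul_assoc]

/-- the same with injective choices only -/
theorem abs_det_le_rows_inj (C : n → Finset n) (B : ℝ) (hB : 0 ≤ B) (I : Finset n)
    (M : Matrix n n ℝ) (hs : ∀ i ∈ I, ∀ c, c ∉ C i → M i c = 0)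
    (h : ∀ f : n → n, Set.InjOn f I → (∀ i ∈ I, f i ∈ C i) → |(unitRows M I f).det| ≤ B) :
    |M.det| ≤ (∏ i ∈ I, ∑ c ∈ C i, |M i c|) * B := by
  apply abs_det_le_rows C B I M hs
  intro f hf
  by_cases hinj : Set.InjOn f I
  · exact h f hinj hf
  · unfold Set.InjOn at hinj
    push Not at hinj
    obtain ⟨i, hi, j, hj, hij, hne⟩ := hinj
    have : (unitRows M I f).det = 0 := by
      apply Matrix.det_zero_of_row_eq hne
      have hi' : i ∈ I := hi
      have hj' : j ∈ I := hj
      simp [unitRows, hi', hj', hij]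
    rw [this, abs_zero]
    exact hB

/-- only the diagonal block of the non-unit rows matters -/
theorem det_eq_of_block (M M' : Matrix n n ℝ) (Y : Finset n)
    (h1 : ∀ i, i ∉ Y → M i = Pi.single i 1) (h2 : ∀ i, i ∉ Y → M' i = Pi.single i 1)
    (h : ∀ i ∈ Y, ∀ j ∈ Y, M i j = M' i j) : M.det = M'.det := by
  have e : ∀ N : Matrix n n ℝ, (∀ i, i ∉ Y → N i = Pi.single i 1) →
      ∀ i, ¬ (i ∈ Y) → ∀ j, j ∈ Y → N i j = 0 := by
    intro N hN i hi j hj
    rw [hN i hi]
    apply Pi.single_eq_of_ne
    rintro rfl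
    exact hi hj
  rw [Matrix.twoBlockTriangular_det M (fun i => i ∈ Y) (e M h1),
    Matrix.twoBlockTriangular_det M' (fun i => i ∈ Y) (e M' h2)]
  congr 2
  · ext i j
    exact h i i.2 j j.2
  · ext i j
    show M i j = M' i j
    rw [h1 i i.2, h2 i i.2]

/-- too many rows supported in few columns -/
theorem det_eq_zero_of_card (M : Matrix n n ℝ) (X Y : Finset n) (hc : Y.card < X.card)
    (h : ∀ i ∈ X, ∀ j, j ∉ Y → M i j = 0) : M.det = 0 := by
  rw [Matrix.det_apply]
  apply Finset.sum_eq_zero
  intro σ _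
  obtain ⟨i, hi, hiY⟩ : ∃ i ∈ X, σ.symm i ∉ Y := by
    by_contra hcon
    push Not at hcon
    have : X.card ≤ Y.card := Finset.card_le_card_of_injOn σ.symm
      (fun i hi => hcon i hi) σ.symm.injective.injOn
    omega
  have : ∏ i, M (σ i) i = 0 := by
    apply Finset.prod_eq_zero (Finset.mem_univ (σ.symm i))
    rw [Equiv.apply_symm_apply]
    exact h i hi _ hiY
  rw [this, smul_zero]

omit [Fintype n] in
/-- a permutation exchanging two disjoint finsets of the same size -/
theorem exists_exchange : ∀ (k : ℕ) (X Y : Finset n), X.card = k → Y.card = k → Disjoint X Y →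
    ∃ σ : Equiv.Perm n, (∀ x ∈ X, σ x ∈ Y) ∧ (∀ y ∈ Y, σ y ∈ X) ∧ ∀ z, z ∉ X → z ∉ Y → σ z = z := by
  intro k
  induction k with
  | zero =>
    intro X Y hX hY _
    rw [Finset.card_eq_zero] at hX hY
    subst hX hY
    exact ⟨1, by simp, by simp, by simp⟩
  | succ k ih =>
    intro X Y hX hY hXY
    obtain ⟨x, hx⟩ : X.Nonempty := by
      rw [← Finset.card_pos]; omega
    obtain ⟨y, hy⟩ : Y.Nonempty := by
      rw [← Finset.card_pos]; omega
    have hxy : x ≠ y := fun h => (Finset.disjoint_left.1 hXY hx) (h ▸ hy)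
    have hxY : x ∉ Y := Finset.disjoint_left.1 hXY hx
    have hyX : y ∉ X := Finset.disjoint_right.1 hXY hy
    obtain ⟨σ, h1, h2, h3⟩ := ih (X.erase x) (Y.erase y)
      (by rw [Finset.card_erase_of_mem hx, hX]; rfl) (by rw [Finset.card_erase_of_mem hy, hY]; rfl)
      (hXY.mono (Finset.erase_subset _ _) (Finset.erase_subset _ _))
    have hσx : σ x = x := h3 x (by simp) (by simp [hxY])
    have hσy : σ y = y := h3 y (by simp [hyX]) (by simp)
    refine ⟨σ.trans (Equiv.swap x y), ?_, ?_, ?_⟩
    · intro z hz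
      rw [Equiv.trans_apply]
      by_cases hzx : z = x
      · rw [hzx, hσx, Equiv.swap_apply_left]; exact hy
      · have := h1 z (Finset.mem_erase.2 ⟨hzx, hz⟩)
        obtain ⟨ha, hb⟩ := Finset.mem_erase.1 this
        have hne : σ z ≠ x := by rintro h; rw [h] at hb; exact hxY hb
        rw [Equiv.swap_apply_of_ne_of_ne hne ha]
        exact hb
    · intro z hz
      rw [Equiv.trans_apply]
      by_cases hzy : z = y
      · rw [hzy, hσy, Equiv.swap_apply_right]; exact hx
      · have := h2 z (Finset.mem_erase.2 ⟨hzy, hz⟩)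
        obtain ⟨ha, hb⟩ := Finset.mem_erase.1 this
        have hne : σ z ≠ y := by rintro h; rw [h] at hb; exact hyX hb
        rw [Equiv.swap_apply_of_ne_of_ne ha hne]
        exact hb
    · intro z hzX hzY
      have hzx : z ≠ x := by rintro rfl; exact hzX hx
      have hzy : z ≠ y := by rintro rfl; exact hzY hy
      rw [Equiv.trans_apply, h3 z (fun h => hzX (Finset.mem_of_mem_erase h))
        (fun h => hzY (Finset.mem_of_mem_erase h)),
        Equiv.swap_apply_of_ne_of_ne hzx hzy]

/-- the rows `N (σ i)`, `i ∈ Y`, and unit rows elsewhere -/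
def inRows (N : Matrix n n ℝ) (σ : Equiv.Perm n) (Y : Finset n) : Matrix n n ℝ :=
  fun i => if i ∈ Y then N (σ i) else Pi.single i 1

/-- the rows `N (σ i)`, `i ∉ Y`, and unit rows elsewhere -/
def outRows (N : Matrix n n ℝ) (σ : Equiv.Perm n) (Y : Finset n) : Matrix n n ℝ :=
  fun i => if i ∈ Y then Pi.single i 1 else N (σ i)

/-- product decomposition after a permutation of the rows -/
theorem abs_det_eq_mul (N : Matrix n n ℝ) (σ : Equiv.Perm n) (Y : Finset n)
    (h1 : ∀ i ∈ Y, ∀ j, j ∉ Y → N (σ i) j = 0) :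
    |N.det| = |(inRows N σ Y).det| * |(outRows N σ Y).det| := by
  have e : (N.submatrix σ id) = inRows N σ Y * outRows N σ Y := by
    ext i j
    rw [Matrix.mul_apply]
    simp only [Matrix.submatrix_apply, id, inRows, outRows]
    by_cases hi : i ∈ Y
    · simp only [hi, if_true]
      rw [Finset.sum_eq_single j]
      · by_cases hj : j ∈ Y
        · simp [hj]
        · rw [h1 i hi j hj, zero_mul]
      · intro c _ hcj
        by_cases hc : c ∈ Y
        · simp [hc, Pi.single_eq_of_ne hcj.symm]
        · rw [h1 i hi c hc, zero_mul]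
      · intro h; exact absurd (Finset.mem_univ _) h
    · simp only [hi, if_false]
      rw [Finset.sum_eq_single i]
      · simp [hi]
      · intro c _ hci
        rw [Pi.single_eq_of_ne hci, zero_mul]
      · intro h; exact absurd (Finset.mem_univ _) h
  rw [← abs_mul, ← Matrix.det_mul, ← e, Matrix.det_permute, abs_mul]
  rcases Int.units_eq_one_or (Equiv.Perm.sign σ) with h | h <;> simp [h]

/-- `K` with the rows of `P` taken from `KQ` and then the rows of `S` replaced by units. -/
def rowsRep (K KQ : Matrix n n ℝ) (P S : Finset n) (g : n → n) : Matrix n n ℝ :=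
  fun i => if i ∈ S then Pi.single (g i) 1 else if i ∈ P then KQ i else K i

/-- the hypotheses of the block Laplace bound -/
structure BlockData (K KQ KQ' Kt : Matrix n n ℝ) (P P' : Finset n) (s1 s2 c1 c2 : n)
    (CQ CQ' : Finset n) (Mx κ : ℝ) : Prop where
  det_ne : K.det ≠ 0
  disj : Disjoint P P'
  ne12 : s1 ≠ s2
  s1P : s1 ∉ P
  s2P : s2 ∉ P
  s1P' : s1 ∉ P'
  s2P' : s2 ∉ P'
  c1C : c1 ∈ CQ'
  c2C : c2 ∈ CQ'
  rowP : ∀ i ∈ P, Kt i = KQ i
  rowP' : ∀ i ∈ P', Kt i = KQ' i
  row1 : Kt s1 = Pi.single c1 1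
  row2 : Kt s2 = Pi.single c2 1
  rowO : ∀ i, i ∉ P → i ∉ P' → i ≠ s1 → i ≠ s2 → Kt i = K i
  crossP : ∀ i ∈ P, ∀ j ∈ P', |(KQ * K⁻¹) i j| ≤ κ
  crossP' : ∀ i ∈ P', ∀ j ∈ insert s1 (insert s2 P), |(KQ' * K⁻¹) i j| ≤ κ
  cross1 : ∀ j ∈ insert s1 (insert s2 P), |K⁻¹ c1 j| ≤ κ
  cross2 : ∀ j ∈ insert s1 (insert s2 P), |K⁻¹ c2 j| ≤ κ
  supp : ∀ i ∈ insert s1 (insert s2 P), ∀ c, c ∉ CQ → K i c = 0
  supp' : ∀ i ∈ P', ∀ c, c ∉ CQ' → K i c = 0
  nrm : ∀ i ∈ insert s1 (insert s2 P), ∑ c, |K i c| ≤ 4
  nrm' : ∀ i ∈ P', ∑ c, |K i c| ≤ 4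
  loc : ∀ S ⊆ insert s1 (insert s2 P), ∀ g : n → n, Set.InjOn g S → (∀ i ∈ S, g i ∈ CQ) →
    |(rowsRep K KQ P S g).det| ≤ (S.card).factorial * Mx ^ S.card * |K.det|
  loc' : ∀ S ⊆ P', ∀ g : n → n, Set.InjOn g S → (∀ i ∈ S, g i ∈ CQ') →
    |(rowsRep K KQ' P' S g).det| ≤ (S.card).factorial * Mx ^ S.card * |K.det|
  Mx1 : 1 ≤ Mx

namespace BlockData

variable {K KQ KQ' Kt : Matrix n n ℝ} {P P' : Finset n} {s1 s2 c1 c2 : n}
    {CQ CQ' : Finset n} {Mx κ : ℝ}

theorem kappa_nonneg (h : BlockData K KQ KQ' Kt P P' s1 s2 c1 c2 CQ CQ' Mx κ) : 0 ≤ κ :=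
  (abs_nonneg _).trans (h.cross1 s1 (Finset.mem_insert_self _ _))

theorem mulK (h : BlockData K KQ KQ' Kt P P' s1 s2 c1 c2 CQ CQ' Mx κ) :
    Kt * K⁻¹ * K = Kt := by
  rw [Matrix.mul_assoc, Matrix.nonsing_inv_mul _ (isUnit_iff_ne_zero.2 h.det_ne), Matrix.mul_one]

/-- the rows of `A = Kt K⁻¹` -/
theorem rowA_P (h : BlockData K KQ KQ' Kt P P' s1 s2 c1 c2 CQ CQ' Mx κ) {i : n} (hi : i ∈ P) (j : n) :
    (Kt * K⁻¹) i j = (KQ * K⁻¹) i j := by
  rw [Matrix.mul_apply, Matrix.mul_apply, h.rowP i hi]

theorem rowA_P' (h : BlockData K KQ KQ' Kt P P' s1 s2 c1 c2 CQ CQ' Mx κ) {i : n} (hi : i ∈ P')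
    (j : n) : (Kt * K⁻¹) i j = (KQ' * K⁻¹) i j := by
  rw [Matrix.mul_apply, Matrix.mul_apply, h.rowP' i hi]

theorem rowA_1 (h : BlockData K KQ KQ' Kt P P' s1 s2 c1 c2 CQ CQ' Mx κ) (j : n) :
    (Kt * K⁻¹) s1 j = K⁻¹ c1 j := by
  rw [Matrix.mul_apply, h.row1]
  simp [Pi.single_apply]

theorem rowA_2 (h : BlockData K KQ KQ' Kt P P' s1 s2 c1 c2 CQ CQ' Mx κ) (j : n) :
    (Kt * K⁻¹) s2 j = K⁻¹ c2 j := by
  rw [Matrix.mul_apply, h.row2]
  simp [Pi.single_apply]

theorem rowA_O (h : BlockData K KQ KQ' Kt P P' s1 s2 c1 c2 CQ CQ' Mx κ) {i : n}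
    (h1 : i ∉ P) (h2 : i ∉ P') (h3 : i ≠ s1) (h4 : i ≠ s2) :
    (Kt * K⁻¹) i = Pi.single i 1 := by
  have : (Kt * K⁻¹) i = (K * K⁻¹) i := by
    ext j
    rw [Matrix.mul_apply, Matrix.mul_apply, h.rowO i h1 h2 h3 h4]
  rw [this, Matrix.mul_nonsing_inv _ (isUnit_iff_ne_zero.2 h.det_ne)]
  ext j
  rw [Matrix.one_apply, Pi.single_apply]
  simp [eq_comm]

/-- the own-block part of the rows of `A` -/
def locRow (A : Matrix n n ℝ) (P P' : Finset n) (s1 s2 : n) (i : n) : n → ℝ :=
  if i ∈ P then (fun j => if j ∈ insert s1 (insert s2 P) then A i j else 0)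
  else if i ∈ insert s1 (insert s2 P') then (fun j => if j ∈ P' then A i j else 0)
  else Pi.single i 1

/-- the matrix of the term `(β, β', f)` -/
def termMat (A : Matrix n n ℝ) (P P' : Finset n) (s1 s2 : n) (β β' : Finset n) (f : n → n) :
    Matrix n n ℝ :=
  fun i => if i ∈ β ∪ β' then Pi.single (f i) 1 else locRow A P P' s1 s2 i

/-- the factor of the first block -/
def tMat1 (A : Matrix n n ℝ) (P S : Finset n) (f : n → n) : Matrix n n ℝ :=
  fun i => if i ∈ S then Pi.single (f i) 1 else if i ∈ P then A i else Pi.single i 1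

/-- the factor of the second block -/
def tMat2 (A : Matrix n n ℝ) (P' Y β : Finset n) (f σ : n → n) : Matrix n n ℝ :=
  fun i => if i ∈ Y then (if σ i ∈ β then Pi.single (f (σ i)) 1 else A (σ i))
    else if i ∈ P' then A i else Pi.single i 1

theorem abs_det_mulK (h : BlockData K KQ KQ' Kt P P' s1 s2 c1 c2 CQ CQ' Mx κ)
    (A1 : Matrix n n ℝ) (b : ℝ) (hb : |(A1 * K).det| ≤ b * |K.det|) : |A1.det| ≤ b := by
  rw [Matrix.det_mul, abs_mul] at hb
  exact le_of_mul_le_mul_right hb (abs_pos.2 h.det_ne)

/-- bound of one term -/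
theorem term_bound (h : BlockData K KQ KQ' Kt P P' s1 s2 c1 c2 CQ CQ' Mx κ)
    (β β' : Finset n) (hβ : β ⊆ P) (hβ' : β' ⊆ insert s1 (insert s2 P'))
    (hcard : β'.card = β.card + 2) (f : n → n)
    (hf : ∀ i ∈ β, f i ∈ P') (hf' : ∀ i ∈ β', f i ∈ insert s1 (insert s2 P)) :
    |(termMat (Kt * K⁻¹) P P' s1 s2 β β' f).det| ≤
      (4 ^ (β.card + 2) * ((β.card + 2).factorial * Mx ^ (β.card + 2))) *
      (4 ^ β.card * ((β.card + 2).factorial * Mx ^ (β.card + 2))) := by
  classical
  set A := Kt * K⁻¹ with hA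
  set TQ := insert s1 (insert s2 P) with hTQ
  set R' := insert s1 (insert s2 P') with hR'
  set S := insert s1 (insert s2 β) with hS
  have hs1β : s1 ∉ β := fun hh => h.s1P (hβ hh)
  have hs2β : s2 ∉ β := fun hh => h.s2P (hβ hh)
  have hScard : S.card = β.card + 2 := by
    rw [hS, Finset.card_insert_of_notMem, Finset.card_insert_of_notMem hs2β]
    rw [Finset.mem_insert]
    push Not
    exact ⟨h.ne12, hs1β⟩
  have hSTQ : S ⊆ TQ := Finset.insert_subset_insert _ (Finset.insert_subset_insert _ hβ)
  have hTQP' : ∀ i, i ∈ TQ → i ∉ P' := by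
    intro i hi
    rcases Finset.mem_insert.1 hi with rfl | hi
    · exact h.s1P'
    rcases Finset.mem_insert.1 hi with rfl | hi
    · exact h.s2P'
    exact Finset.disjoint_left.1 h.disj hi
  have hPR' : ∀ i, i ∈ P → i ∉ R' := by
    intro i hi hi'
    rcases Finset.mem_insert.1 hi' with rfl | hi'
    · exact h.s1P hi
    rcases Finset.mem_insert.1 hi' with rfl | hi'
    · exact h.s2P hi
    exact Finset.disjoint_left.1 h.disj hi hi'
  have hXY : (S \ β').card = (β' \ S).card := by
    have e1 := Finset.card_sdiff_add_card_inter S β'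
    have e2 := Finset.card_sdiff_add_card_inter β' S
    rw [Finset.inter_comm] at e2
    omega
  obtain ⟨σ, hσ1, hσ2, hσ3⟩ := exists_exchange (β' \ S).card (S \ β') (β' \ S) hXY rfl
    (by
      rw [Finset.disjoint_left]
      intro x hx hx'
      exact (Finset.mem_sdiff.1 hx).2 (Finset.mem_sdiff.1 hx').1)
  have hσS : ∀ i ∈ S, σ i ∈ β' := by
    intro i hi
    by_cases hi' : i ∈ β'
    · rw [hσ3 i (by simp [hi']) (by simp [hi])]
      exact hi'
    · exact (Finset.mem_sdiff.1 (hσ1 i (Finset.mem_sdiff.2 ⟨hi, hi'⟩))).1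
  have hσP : ∀ i ∈ TQ, i ∉ S → i ∈ P ∧ i ∉ β ∧ i ∉ β' ∧ σ i = i := by
    intro i hi hiS
    have h1 : i ∉ β := fun hh => hiS (Finset.mem_insert_of_mem (Finset.mem_insert_of_mem hh))
    have h2 : i ∈ P := by
      rcases Finset.mem_insert.1 hi with rfl | hi
      · exact absurd (Finset.mem_insert_self _ _) hiS
      rcases Finset.mem_insert.1 hi with rfl | hi
      · exact absurd (Finset.mem_insert_of_mem (Finset.mem_insert_self _ _)) hiS
      exact hi
    have h3 : i ∉ β' := fun hh => hPR' i h2 (hβ' hh)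
    exact ⟨h2, h1, h3, hσ3 i (by simp [hiS]) (by simp [h3])⟩
  set N := termMat A P P' s1 s2 β β' f with hN
  have hNβ' : ∀ i ∈ β', N i = Pi.single (f i) 1 := by
    intro i hi
    simp [hN, termMat, hi]
  have hNβ : ∀ i ∈ β, N i = Pi.single (f i) 1 := by
    intro i hi
    simp [hN, termMat, hi]
  have hNo : ∀ i, i ∉ β → i ∉ β' → N i = locRow A P P' s1 s2 i := by
    intro i hi hi'
    simp [hN, termMat, hi, hi']
  have hlocP : ∀ i ∈ P, ∀ j, locRow A P P' s1 s2 i j = if j ∈ TQ then A i j else 0 := by
    intro i hi j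
    simp [locRow, hi, hTQ]
  have hlocR' : ∀ i ∈ R', ∀ j, locRow A P P' s1 s2 i j = if j ∈ P' then A i j else 0 := by
    intro i hi j
    have : i ∉ P := fun hh => hPR' i hh hi
    rw [hR'] at hi
    simp only [locRow, this, if_false, hi, if_true]
  have hlocO : ∀ i, i ∉ P → i ∉ R' → locRow A P P' s1 s2 i = Pi.single i 1 := by
    intro i hi hi'
    rw [hR'] at hi'
    simp only [locRow, hi, if_false, hi']
  have hAK : A * K = Kt := h.mulK
  have hrowmul : ∀ (M : Matrix n n ℝ) (i c : n), M i = Pi.single c 1 → (M * K) i = K c := by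
    intro M i c hM
    ext j
    rw [Matrix.mul_apply, hM]
    simp [Pi.single_apply]
  have hrowmulA : ∀ (M : Matrix n n ℝ) (i c : n), M i = A c → (M * K) i = Kt c := by
    intro M i c hM
    ext j
    rw [← hAK, Matrix.mul_apply, hM, Matrix.mul_apply]
  -- the product decomposition
  have hprod := abs_det_eq_mul N σ TQ (by
    intro i hi j hj
    by_cases hiS : i ∈ S
    · rw [hNβ' _ (hσS i hiS)]
      apply Pi.single_eq_of_ne
      rintro rfl
      exact hj (hf' _ (hσS i hiS))
    · obtain ⟨h1, h2, h3, h4⟩ := hσP i hi hiS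
      rw [h4, hNo i h2 h3, hlocP i h1 j, if_neg hj])
  rw [hprod]
  have hMx0 : 0 ≤ Mx := zero_le_one.trans h.Mx1
  apply mul_le_mul _ _ (abs_nonneg _) (by positivity)
  · -- the `Q` block
    set A1 : Matrix n n ℝ := tMat1 A P S (fun i => f (σ i)) with hA1
    have e1 : (inRows N σ TQ).det = A1.det := by
      apply det_eq_of_block _ _ TQ
      · intro i hi
        simp [inRows, hi]
      · intro i hi
        have h1 : i ∉ S := fun hh => hi (hSTQ hh)
        have h2 : i ∉ P := fun hh => hi (Finset.mem_insert_of_mem (Finset.mem_insert_of_mem hh))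
        simp [hA1, tMat1, h1, h2]
      · intro i hi j hj
        have : inRows N σ TQ i j = N (σ i) j := by simp [inRows, hi]
        rw [this]
        by_cases hiS : i ∈ S
        · rw [hNβ' _ (hσS i hiS)]
          simp [hA1, tMat1, hiS]
        · obtain ⟨h1, h2, h3, h4⟩ := hσP i hi hiS
          rw [h4, hNo i h2 h3, hlocP i h1 j, if_pos hj]
          simp [hA1, tMat1, hiS, h1]
    rw [e1]
    apply h.abs_det_mulK
    have hrow : ∀ i ∈ S, (A1 * K) i = K (f (σ i)) := by
      intro i hi
      apply hrowmul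
      simp [hA1, tMat1, hi]
    have hb := abs_det_le_rows_inj (fun _ => CQ) ((S.card).factorial * Mx ^ S.card * |K.det|)
      (by positivity) S (A1 * K) (by
        intro i hi c hc
        rw [hrow i hi]
        exact h.supp _ (hf' _ (hσS i hi)) c hc) (by
        intro g hg hgC
        have : unitRows (A1 * K) S g = rowsRep K KQ P S g := by
          funext i
          by_cases hi : i ∈ S
          · simp [unitRows, rowsRep, hi]
          · by_cases hiP : i ∈ P
            · have : (A1 * K) i = Kt i := by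
                apply hrowmulA
                simp [hA1, tMat1, hi, hiP]
              simp only [unitRows, rowsRep, hi, if_false, hiP, if_true, this]
              exact h.rowP i hiP
            · have : (A1 * K) i = K i := by
                apply hrowmul
                simp [hA1, tMat1, hi, hiP]
              simp only [unitRows, rowsRep, hi, if_false, hiP, this]
        rw [this]
        exact h.loc S hSTQ g hg hgC)
    refine hb.trans ?_
    rw [hScard]
    have : (∏ i ∈ S, ∑ c ∈ CQ, |(A1 * K) i c|) ≤ 4 ^ (β.card + 2) := by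
      rw [← hScard, ← Finset.prod_const]
      apply Finset.prod_le_prod
      · intro i _
        positivity
      · intro i hi
        rw [hrow i hi]
        refine le_trans ?_ (h.nrm _ (hf' _ (hσS i hi)))
        exact Finset.sum_le_sum_of_subset_of_nonneg (Finset.subset_univ _)
          (fun _ _ _ => abs_nonneg _)
    calc _ ≤ 4 ^ (β.card + 2) * (((β.card + 2).factorial : ℝ) * Mx ^ (β.card + 2) * |K.det|) :=
          mul_le_mul_of_nonneg_right this (by positivity)
      _ = _ := by ring
  · -- the `Q'` block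
    set Y := β' \ S with hY
    have hYP' : ∀ i ∈ Y, i ∈ P' := by
      intro i hi
      obtain ⟨h1, h2⟩ := Finset.mem_sdiff.1 hi
      rcases Finset.mem_insert.1 (hβ' h1) with rfl | h3
      · exact absurd (Finset.mem_insert_self _ _) h2
      rcases Finset.mem_insert.1 h3 with rfl | h3
      · exact absurd (Finset.mem_insert_of_mem (Finset.mem_insert_self _ _)) h2
      exact h3
    set A2 : Matrix n n ℝ := tMat2 A P' Y β f σ with hA2
    have hTQP'2 : ∀ i ∈ P', i ∉ TQ := fun i hi hh => hTQP' i hh hi
    have hfix : ∀ i, i ∉ TQ → i ∉ Y → i ∉ β' ∧ i ∉ β ∧ σ i = i := by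
      intro i hi hiY
      have h1 : i ∉ S := fun hh => hi (hSTQ hh)
      have h2 : i ∉ β' := fun hh => hiY (Finset.mem_sdiff.2 ⟨hh, h1⟩)
      refine ⟨h2, fun hh => hi (Finset.mem_insert_of_mem (Finset.mem_insert_of_mem (hβ hh))), ?_⟩
      exact hσ3 i (by simp [h1]) hiY
    have hslot : ∀ i ∈ Y, σ i ∉ β → (σ i = s1 ∨ σ i = s2) ∧ σ i ∉ β' := by
      intro i hi hi'
      obtain ⟨h1, h2⟩ := Finset.mem_sdiff.1 (hσ2 i hi)
      refine ⟨?_, h2⟩
      rcases Finset.mem_insert.1 h1 with h3 | h3
      · exact Or.inl h3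
      rcases Finset.mem_insert.1 h3 with h3 | h3
      · exact Or.inr h3
      exact absurd h3 hi'
    have hslotR : ∀ i, (i = s1 ∨ i = s2) → i ∈ R' := by
      rintro i (rfl | rfl)
      · exact Finset.mem_insert_self _ _
      · exact Finset.mem_insert_of_mem (Finset.mem_insert_self _ _)
    have e1 : (outRows N σ TQ).det = A2.det := by
      apply det_eq_of_block _ _ P'
      · intro i hi
        by_cases hiT : i ∈ TQ
        · simp [outRows, hiT]
        · have hiY : i ∉ Y := fun hh => hi (hYP' i hh)
          obtain ⟨h1, h2, h3⟩ := hfix i hiT hiY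
          have h4 : i ∉ P := fun hh => hiT (Finset.mem_insert_of_mem (Finset.mem_insert_of_mem hh))
          have h5 : i ∉ R' := by
            intro hh
            rcases Finset.mem_insert.1 hh with rfl | h6
            · exact hiT (Finset.mem_insert_self _ _)
            rcases Finset.mem_insert.1 h6 with rfl | h6
            · exact hiT (Finset.mem_insert_of_mem (Finset.mem_insert_self _ _))
            exact hi h6
          have : outRows N σ TQ i = N (σ i) := by simp [outRows, hiT]
          rw [this, h3, hNo i h2 h1, hlocO i h4 h5]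
      · intro i hi
        have hiY : i ∉ Y := fun hh => hi (hYP' i hh)
        simp [hA2, tMat2, hiY, hi]
      · intro i hi j hj
        have hiT := hTQP'2 i hi
        have : outRows N σ TQ i j = N (σ i) j := by simp [outRows, hiT]
        rw [this]
        by_cases hiY : i ∈ Y
        · by_cases hσβ : σ i ∈ β
          · rw [hNβ _ hσβ]
            simp [hA2, tMat2, hiY, hσβ]
          · obtain ⟨h1, h2⟩ := hslot i hiY hσβ
            rw [hNo _ hσβ h2, hlocR' _ (hslotR _ h1) j, if_pos hj]
            simp [hA2, tMat2, hiY, hσβ]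
        · obtain ⟨h1, h2, h3⟩ := hfix i hiT hiY
          rw [h3, hNo i h2 h1, hlocR' i (Finset.mem_insert_of_mem (Finset.mem_insert_of_mem hi)) j,
            if_pos hj]
          simp [hA2, tMat2, hiY, hi]
    rw [e1]
    apply h.abs_det_mulK
    have hrow1 : ∀ i ∈ Y, σ i ∈ β → (A2 * K) i = K (f (σ i)) := by
      intro i hi hi'
      apply hrowmul
      simp [hA2, tMat2, hi, hi']
    have hrow2 : ∀ i ∈ Y, σ i ∉ β → (A2 * K) i = Kt (σ i) := by
      intro i hi hi'
      apply hrowmulA
      simp [hA2, tMat2, hi, hi']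
    have hrow3 : ∀ i ∈ Y, σ i ∉ β → ∃ c ∈ CQ', (A2 * K) i = Pi.single c 1 := by
      intro i hi hi'
      rw [hrow2 i hi hi']
      rcases (hslot i hi hi').1 with h1 | h1
      · exact ⟨c1, h.c1C, by rw [h1, h.row1]⟩
      · exact ⟨c2, h.c2C, by rw [h1, h.row2]⟩
    have hb := abs_det_le_rows_inj (fun _ => CQ') ((Y.card).factorial * Mx ^ Y.card * |K.det|)
      (by positivity) Y (A2 * K) (by
        intro i hi c hc
        by_cases hi' : σ i ∈ β
        · rw [hrow1 i hi hi']
          exact h.supp' _ (hf _ hi') c hc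
        · obtain ⟨c', hc', he⟩ := hrow3 i hi hi'
          rw [he]
          apply Pi.single_eq_of_ne
          rintro rfl
          exact hc hc') (by
        intro g hg hgC
        have : unitRows (A2 * K) Y g = rowsRep K KQ' P' Y g := by
          funext i
          by_cases hi : i ∈ Y
          · simp [unitRows, rowsRep, hi]
          · by_cases hiP : i ∈ P'
            · have : (A2 * K) i = Kt i := by
                apply hrowmulA
                simp [hA2, tMat2, hi, hiP]
              simp only [unitRows, rowsRep, hi, if_false, hiP, if_true, this]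
              exact h.rowP' i hiP
            · have : (A2 * K) i = K i := by
                apply hrowmul
                simp [hA2, tMat2, hi, hiP]
              simp only [unitRows, rowsRep, hi, if_false, hiP, this]
        rw [this]
        exact h.loc' Y (fun i hi => hYP' i hi) g hg hgC)
    refine hb.trans ?_
    have hYcard : Y.card ≤ β.card + 2 := by
      rw [← hcard]
      exact Finset.card_le_card Finset.sdiff_subset
    have h4 : (∏ i ∈ Y, ∑ c ∈ CQ', |(A2 * K) i c|) ≤ 4 ^ β.card := by
      calc (∏ i ∈ Y, ∑ c ∈ CQ', |(A2 * K) i c|)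
          ≤ ∏ i ∈ Y, (if σ i ∈ β then (4 : ℝ) else 1) := by
            apply Finset.prod_le_prod
            · intro i _
              positivity
            · intro i hi
              by_cases hi' : σ i ∈ β
              · rw [if_pos hi', hrow1 i hi hi']
                refine le_trans ?_ (h.nrm' _ (hf _ hi'))
                exact Finset.sum_le_sum_of_subset_of_nonneg (Finset.subset_univ _)
                  (fun _ _ _ => abs_nonneg _)
              · rw [if_neg hi']
                obtain ⟨c', hc', he⟩ := hrow3 i hi hi'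
                rw [he]
                rw [Finset.sum_eq_single_of_mem c' hc']
                · simp
                · intro c _ hcc
                  rw [Pi.single_eq_of_ne hcc, abs_zero]
        _ = 4 ^ (Y.filter (fun i => σ i ∈ β)).card := by
            rw [Finset.prod_ite, Finset.prod_const, Finset.prod_const_one, mul_one]
        _ ≤ 4 ^ β.card := by
            apply pow_le_pow_right₀ (by norm_num)
            apply Finset.card_le_card_of_injOn σ
            · intro i hi
              exact (Finset.mem_filter.1 hi).2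
            · exact σ.injective.injOn
    have h5 : ((Y.card).factorial : ℝ) * Mx ^ Y.card ≤
        ((β.card + 2).factorial : ℝ) * Mx ^ (β.card + 2) := by
      apply mul_le_mul _ (pow_le_pow_right₀ h.Mx1 hYcard) (by positivity) (by positivity)
      exact_mod_cast Nat.factorial_le hYcard
    calc _ ≤ 4 ^ β.card * (((β.card + 2).factorial : ℝ) * Mx ^ (β.card + 2) * |K.det|) :=
          mul_le_mul h4 (mul_le_mul_of_nonneg_right h5 (abs_nonneg _)) (by positivity)
            (by positivity)
      _ = _ := by ring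

/-- the terms with the wrong charge vanish -/
theorem term_zero (h : BlockData K KQ KQ' Kt P P' s1 s2 c1 c2 CQ CQ' Mx κ)
    (β β' : Finset n) (hβ : β ⊆ P) (hβ' : β' ⊆ insert s1 (insert s2 P'))
    (hcard : β'.card ≠ β.card + 2) (f : n → n)
    (hf : ∀ i ∈ β, f i ∈ P') (hf' : ∀ i ∈ β', f i ∈ insert s1 (insert s2 P)) :
    (termMat (Kt * K⁻¹) P P' s1 s2 β β' f).det = 0 := by
  classical
  have hTcard : (insert s1 (insert s2 P)).card = P.card + 2 := by
    rw [Finset.card_insert_of_notMem, Finset.card_insert_of_notMem h.s2P]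
    rw [Finset.mem_insert]
    push Not
    exact ⟨h.ne12, h.s1P⟩
  have hRcard : (insert s1 (insert s2 P')).card = P'.card + 2 := by
    rw [Finset.card_insert_of_notMem, Finset.card_insert_of_notMem h.s2P']
    rw [Finset.mem_insert]
    push Not
    exact ⟨h.ne12, h.s1P'⟩
  have hPR' : ∀ i, i ∈ P → i ∉ insert s1 (insert s2 P') := by
    intro i hi hi'
    rcases Finset.mem_insert.1 hi' with rfl | hi'
    · exact h.s1P hi
    rcases Finset.mem_insert.1 hi' with rfl | hi'
    · exact h.s2P hi
    exact Finset.disjoint_left.1 h.disj hi hi'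
  have hT : ∀ i, i ∈ insert s1 (insert s2 P) → i ∉ P' := by
    intro i hi hi'
    rcases Finset.mem_insert.1 hi with rfl | hi
    · exact h.s1P' hi'
    rcases Finset.mem_insert.1 hi with rfl | hi
    · exact h.s2P' hi'
    exact Finset.disjoint_left.1 h.disj hi hi'
  rcases lt_or_gt_of_ne hcard with hlt | hgt
  · apply det_eq_zero_of_card _ (β ∪ (insert s1 (insert s2 P') \ β')) P'
    · rw [Finset.card_union_of_disjoint, Finset.card_sdiff_of_subset hβ', hRcard]
      · have := Finset.card_le_card hβ'
        omega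
      · rw [Finset.disjoint_left]
        intro i hi hi'
        exact hPR' i (hβ hi) (Finset.mem_sdiff.1 hi').1
    · intro i hi j hj
      rcases Finset.mem_union.1 hi with hi | hi
      · have : termMat (Kt * K⁻¹) P P' s1 s2 β β' f i = Pi.single (f i) 1 := by
          simp [termMat, hi]
        rw [this]
        apply Pi.single_eq_of_ne
        rintro rfl
        exact hj (hf i hi)
      · obtain ⟨h1, h2⟩ := Finset.mem_sdiff.1 hi
        have h3 : i ∉ P := fun hh => hPR' i hh h1
        have h4 : i ∉ β := fun hh => h3 (hβ hh)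
        have : termMat (Kt * K⁻¹) P P' s1 s2 β β' f i = locRow (Kt * K⁻¹) P P' s1 s2 i := by
          simp only [termMat, Finset.mem_union, h2, h4, or_self, if_false]
        rw [this]
        simp only [locRow, h3, if_false, h1, if_true, hj]
  · apply det_eq_zero_of_card _ ((P \ β) ∪ β') (insert s1 (insert s2 P))
    · rw [Finset.card_union_of_disjoint, Finset.card_sdiff_of_subset hβ, hTcard]
      · have := Finset.card_le_card hβ
        omega
      · rw [Finset.disjoint_left]
        intro i hi hi'
        exact hPR' i (Finset.mem_sdiff.1 hi).1 (hβ' hi')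
    · intro i hi j hj
      rcases Finset.mem_union.1 hi with hi | hi
      · obtain ⟨h1, h2⟩ := Finset.mem_sdiff.1 hi
        have h3 : i ∉ β' := fun hh => hPR' i h1 (hβ' hh)
        have : termMat (Kt * K⁻¹) P P' s1 s2 β β' f i = locRow (Kt * K⁻¹) P P' s1 s2 i := by
          simp only [termMat, Finset.mem_union, h2, h3, or_self, if_false]
        rw [this]
        simp only [locRow, h1, if_true, hj, if_false]
      · have : termMat (Kt * K⁻¹) P P' s1 s2 β β' f i = Pi.single (f i) 1 := by
          simp [termMat, hi]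
        rw [this]
        apply Pi.single_eq_of_ne
        rintro rfl
        exact hj (hf' i hi)

/-- the cross part of the rows -/
def croRow (A : Matrix n n ℝ) (P P' : Finset n) (s1 s2 : n) (i : n) : n → ℝ :=
  if i ∈ P then (fun j => if j ∈ P' then A i j else 0)
  else if i ∈ insert s1 (insert s2 P') then
    (fun j => if j ∈ insert s1 (insert s2 P) then A i j else 0)
  else 0

/-- cross rows on `s`, own rows off `s` -/
def mixMat (A : Matrix n n ℝ) (P P' : Finset n) (s1 s2 : n) (s : Finset n) : Matrix n n ℝ :=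
  fun i => if i ∈ s then croRow A P P' s1 s2 i else locRow A P P' s1 s2 i

/-- the multilinear expansion -/
theorem det_expand (h : BlockData K KQ KQ' Kt P P' s1 s2 c1 c2 CQ CQ' Mx κ) :
    (Kt * K⁻¹).det = ∑ s ∈ (P ∪ insert s1 (insert s2 P')).powerset,
      (mixMat (Kt * K⁻¹) P P' s1 s2 s).det := by
  classical
  set A := Kt * K⁻¹ with hA
  have e1 : A.det = Matrix.det (croRow A P P' s1 s2 + locRow A P P' s1 s2) := by
    apply det_eq_of_block _ _ (P ∪ insert s1 (insert s2 P'))
    · intro i hi
      simp only [Finset.mem_union, Finset.mem_insert, not_or] at hi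
      exact h.rowA_O hi.1 hi.2.2.2 hi.2.1 hi.2.2.1
    · intro i hi
      simp only [Finset.mem_union, not_or] at hi
      show croRow A P P' s1 s2 i + locRow A P P' s1 s2 i = _
      simp only [croRow, locRow, hi.1, if_false, hi.2, zero_add]
    · intro i hi j hj
      show A i j = croRow A P P' s1 s2 i j + locRow A P P' s1 s2 i j
      have hj' : (j ∈ P' ∧ j ∉ insert s1 (insert s2 P)) ∨
          (j ∉ P' ∧ j ∈ insert s1 (insert s2 P)) := by
        simp only [Finset.mem_union, Finset.mem_insert] at hj ⊢
        rcases hj with hj | rfl | rfl | hj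
        · right; exact ⟨Finset.disjoint_left.1 h.disj hj, Or.inr (Or.inr hj)⟩
        · right; exact ⟨h.s1P', Or.inl rfl⟩
        · right; exact ⟨h.s2P', Or.inr (Or.inl rfl)⟩
        · left
          refine ⟨hj, ?_⟩
          rintro (rfl | rfl | hh)
          · exact h.s1P' hj
          · exact h.s2P' hj
          · exact Finset.disjoint_left.1 h.disj hh hj
      by_cases hiP : i ∈ P
      · simp only [croRow, locRow, hiP, if_true]
        rcases hj' with ⟨h1, h2⟩ | ⟨h1, h2⟩
        · simp only [h1, h2, if_true, if_false, add_zero]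
        · simp only [h1, h2, if_true, if_false, zero_add]
      · have hiR : i ∈ insert s1 (insert s2 P') := by
          rcases Finset.mem_union.1 hi with hh | hh
          · exact absurd hh hiP
          · exact hh
        simp only [croRow, locRow, hiP, hiR, if_true, if_false]
        rcases hj' with ⟨h1, h2⟩ | ⟨h1, h2⟩
        · simp only [h1, h2, if_true, if_false, zero_add]
        · simp only [h1, h2, if_true, if_false, add_zero]
  rw [e1]
  have e2 : Matrix.det (croRow A P P' s1 s2 + locRow A P P' s1 s2) =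
      ∑ s : Finset n, (mixMat A P P' s1 s2 s).det := by
    have := (Matrix.detRowAlternating (R := ℝ) (n := n)).toMultilinearMap.map_add_univ
      (croRow A P P' s1 s2) (locRow A P P' s1 s2)
    refine this.trans ?_
    apply Finset.sum_congr rfl
    intro s _
    show Matrix.det (s.piecewise (croRow A P P' s1 s2) (locRow A P P' s1 s2)) = _
    congr 1
  rw [e2]
  symm
  apply Finset.sum_subset (Finset.subset_univ _)
  intro s _ hs
  rw [Finset.mem_powerset, Finset.subset_iff] at hs
  push Not at hs
  obtain ⟨i, hi, hi'⟩ := hs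
  apply Matrix.det_eq_zero_of_row_eq_zero i
  intro j
  simp only [Finset.mem_union, not_or] at hi'
  simp only [mixMat, hi, if_true, croRow, hi'.1, hi'.2, if_false, Pi.zero_apply]

/-- the weight of the terms with `|β| = k`, `|β'| = k + 2` -/
noncomputable def wt (Mx x : ℝ) (k : ℕ) : ℝ :=
  x ^ (2 * k + 2) * ((4 ^ (k + 2) * ((k + 2).factorial * Mx ^ (k + 2))) *
    (4 ^ k * ((k + 2).factorial * Mx ^ (k + 2))))

theorem wt_nonneg {Mx x : ℝ} (hM : 0 ≤ Mx) (hx : 0 ≤ x) (k : ℕ) : 0 ≤ wt Mx x k := by
  unfold wt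
  positivity

theorem mix_bound (h : BlockData K KQ KQ' Kt P P' s1 s2 c1 c2 CQ CQ' Mx κ) (S0 : ℝ)
    (hS : (P.card : ℝ) + 2 ≤ S0) (hS' : (P'.card : ℝ) + 2 ≤ S0) (s : Finset n)
    (hs : s ⊆ P ∪ insert s1 (insert s2 P')) :
    |(mixMat (Kt * K⁻¹) P P' s1 s2 s).det| ≤
      if (s ∩ insert s1 (insert s2 P')).card = (s ∩ P).card + 2 then
        wt Mx (S0 * κ) (s ∩ P).card else 0 := by
  classical
  have hκ := h.kappa_nonneg
  have hMx0 : 0 ≤ Mx := zero_le_one.trans h.Mx1
  have hS0 : 0 ≤ S0 := le_trans (by positivity) hS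
  set A := Kt * K⁻¹ with hA
  have hTcard : (insert s1 (insert s2 P)).card = P.card + 2 := by
    rw [Finset.card_insert_of_notMem, Finset.card_insert_of_notMem h.s2P]
    rw [Finset.mem_insert]
    push Not
    exact ⟨h.ne12, h.s1P⟩
  have hPR' : ∀ i, i ∈ P → i ∉ insert s1 (insert s2 P') := by
    intro i hi hi'
    rcases Finset.mem_insert.1 hi' with rfl | hi'
    · exact h.s1P hi
    rcases Finset.mem_insert.1 hi' with rfl | hi'
    · exact h.s2P hi
    exact Finset.disjoint_left.1 h.disj hi hi'
  set R' := insert s1 (insert s2 P') with hR'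
  have hcross : ∀ i ∈ R', ∀ j ∈ insert s1 (insert s2 P), |A i j| ≤ κ := by
    intro i hi j hj
    rcases Finset.mem_insert.1 hi with rfl | hi
    · rw [hA, h.rowA_1]; exact h.cross1 j hj
    rcases Finset.mem_insert.1 hi with rfl | hi
    · rw [hA, h.rowA_2]; exact h.cross2 j hj
    rw [hA, h.rowA_P' hi]; exact h.crossP' i hi j hj
  have hcrossP : ∀ i ∈ P, ∀ j ∈ P', |A i j| ≤ κ := by
    intro i hi j hj
    rw [hA, h.rowA_P hi]; exact h.crossP i hi j hj
  have hsu : s = (s ∩ P) ∪ (s ∩ R') := by
    rw [← Finset.inter_union_distrib_left]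
    exact (Finset.inter_eq_left.2 hs).symm
  have hdisj : Disjoint (s ∩ P) (s ∩ R') := by
    rw [Finset.disjoint_left]
    intro i hi hi'
    exact hPR' i (Finset.mem_inter.1 hi).2 (Finset.mem_inter.1 hi').2
  have hscard : s.card = (s ∩ P).card + (s ∩ R').card := by
    rw [← Finset.card_union_of_disjoint hdisj, ← hsu]
  set β := s ∩ P with hβdef
  set β' := s ∩ R' with hβ'def
  have hβ : β ⊆ P := Finset.inter_subset_right
  have hβ' : β' ⊆ R' := Finset.inter_subset_right
  set B : ℝ := if β'.card = β.card + 2 then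
    ((4 ^ (β.card + 2) * ((β.card + 2).factorial * Mx ^ (β.card + 2))) *
      (4 ^ β.card * ((β.card + 2).factorial * Mx ^ (β.card + 2)))) else 0 with hB
  have hB0 : 0 ≤ B := by
    rw [hB]
    split_ifs
    · positivity
    · exact le_refl _
  have key := abs_det_le_rows (fun i => if i ∈ P then P' else insert s1 (insert s2 P)) B s
    (mixMat A P P' s1 s2 s) (by
      intro i hi c hc
      by_cases hiP : i ∈ P
      · simp only [hiP, if_true] at hc
        simp only [mixMat, hi, if_true, croRow, hiP, hc, if_false]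
      · simp only [hiP, if_false] at hc
        have hiR : i ∈ insert s1 (insert s2 P') := by
          rcases Finset.mem_union.1 (hs hi) with hh | hh
          · exact absurd hh hiP
          · exact hh
        simp only [mixMat, hi, if_true, croRow, hiP, hiR, hc, if_false]) (by
      intro f hf
      have e : unitRows (mixMat A P P' s1 s2 s) s f = termMat A P P' s1 s2 β β' f := by
        funext i
        by_cases hi : i ∈ s
        · have hi2 : i ∈ β ∪ β' := by rw [← hsu]; exact hi
          simp only [unitRows, termMat, hi, hi2, if_true]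
        · have hi2 : i ∉ β ∪ β' := by rw [← hsu]; exact hi
          simp only [unitRows, termMat, hi, hi2, if_false, mixMat]
      have hf1 : ∀ i ∈ β, f i ∈ P' := by
        intro i hi
        have := hf i (Finset.mem_inter.1 hi).1
        simpa only [hβ hi, if_true] using this
      have hf2 : ∀ i ∈ β', f i ∈ insert s1 (insert s2 P) := by
        intro i hi
        have h1 := hf i (Finset.mem_inter.1 hi).1
        have h2 : i ∉ P := fun hh => hPR' i hh (hβ' hi)
        simpa only [h2, if_false] using h1
      rw [e]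
      by_cases hc : β'.card = β.card + 2
      · rw [hB, if_pos hc]
        exact h.term_bound β β' hβ hβ' hc f hf1 hf2
      · rw [hB, if_neg hc, hA, h.term_zero β β' hβ hβ' hc f hf1 hf2, abs_zero])
  refine key.trans ?_
  have hprod : (∏ i ∈ s, ∑ c ∈ (if i ∈ P then P' else insert s1 (insert s2 P)),
      |mixMat A P P' s1 s2 s i c|) ≤ (S0 * κ) ^ s.card := by
    rw [← Finset.prod_const]
    apply Finset.prod_le_prod
    · intro i _
      positivity
    · intro i hi
      by_cases hiP : i ∈ P
      · simp only [hiP, if_true]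
        calc ∑ c ∈ P', |mixMat A P P' s1 s2 s i c| ≤ ∑ c ∈ P', κ := by
              apply Finset.sum_le_sum
              intro c hc
              simp only [mixMat, hi, if_true, croRow, hiP, hc]
              exact hcrossP i hiP c hc
          _ = P'.card * κ := by rw [Finset.sum_const, nsmul_eq_mul]
          _ ≤ S0 * κ := by
              apply mul_le_mul_of_nonneg_right _ hκ
              linarith
      · simp only [hiP, if_false]
        have hiR : i ∈ insert s1 (insert s2 P') := by
          rcases Finset.mem_union.1 (hs hi) with hh | hh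
          · exact absurd hh hiP
          · exact hh
        calc ∑ c ∈ insert s1 (insert s2 P), |mixMat A P P' s1 s2 s i c| ≤
              ∑ c ∈ insert s1 (insert s2 P), κ := by
              apply Finset.sum_le_sum
              intro c hc
              simp only [mixMat, hi, if_true, croRow, hiP, hiR, hc, if_false]
              exact hcross i hiR c hc
          _ = ((insert s1 (insert s2 P)).card : ℝ) * κ := by rw [Finset.sum_const, nsmul_eq_mul]
          _ ≤ S0 * κ := by
              apply mul_le_mul_of_nonneg_right _ hκ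
              rw [hTcard]
              push_cast
              linarith
  refine (mul_le_mul_of_nonneg_right hprod hB0).trans (le_of_eq ?_)
  by_cases hc : β'.card = β.card + 2
  · rw [hB, if_pos hc, if_pos hc, hscard, hc, wt]
    congr 2
    ring
  · rw [hB, if_neg hc, if_neg hc, mul_zero]

end BlockData

theorem sum_quarter (m : ℕ) : ∑ k ∈ range m, ((k : ℝ) + 1) * (k + 2) * (1 / 4) ^ k =
    128 / 27 - (4 / 3 * (m : ℝ) ^ 2 + 44 / 9 * m + 128 / 27) * (1 / 4) ^ m := by
  induction m with
  | zero => simp
  | succ m ih =>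
    rw [Finset.sum_range_succ, ih]
    push_cast
    ring

theorem sum_le_five (x : ℝ) (hx0 : 0 ≤ x) (hx : x ≤ 1 / 4) (m : ℕ) :
    ∑ k ∈ range m, ((k : ℝ) + 1) * (k + 2) * x ^ k ≤ 5 := by
  calc ∑ k ∈ range m, ((k : ℝ) + 1) * (k + 2) * x ^ k
      ≤ ∑ k ∈ range m, ((k : ℝ) + 1) * (k + 2) * (1 / 4) ^ k := by
        apply Finset.sum_le_sum
        intro k _
        apply mul_le_mul_of_nonneg_left _ (by positivity)
        exact pow_le_pow_left₀ hx0 hx k
    _ = 128 / 27 - (4 / 3 * (m : ℝ) ^ 2 + 44 / 9 * m + 128 / 27) * (1 / 4) ^ m := sum_quarter m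
    _ ≤ 5 := by
        have : 0 ≤ (4 / 3 * (m : ℝ) ^ 2 + 44 / 9 * m + 128 / 27) * (1 / 4) ^ m := by positivity
        linarith

omit [Fintype n] in
/-- counting of the subsets -/
theorem sum_powerset_le (P R : Finset n) (_hd : Disjoint P R) (w : ℕ → ℝ) (hw : ∀ k, 0 ≤ w k) :
    ∑ s ∈ (P ∪ R).powerset, (if (s ∩ R).card = (s ∩ P).card + 2 then w (s ∩ P).card else 0) ≤
      ∑ k ∈ range (P.card + 1), (P.card.choose k : ℝ) * ((R.card.choose (k + 2) : ℝ) * w k) := by
  classical
  set φ : Finset n × Finset n → ℝ := fun p => if p.2.card = p.1.card + 2 then w p.1.card else 0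
    with hφ
  have hφ0 : ∀ p, 0 ≤ φ p := by
    intro p
    rw [hφ]
    dsimp only
    split_ifs
    · exact hw _
    · exact le_refl _
  have h1 : ∑ s ∈ (P ∪ R).powerset,
      (if (s ∩ R).card = (s ∩ P).card + 2 then w (s ∩ P).card else 0) =
      ∑ p ∈ (P ∪ R).powerset.image (fun s => (s ∩ P, s ∩ R)), φ p := by
    rw [Finset.sum_image]
    intro s hs t ht hst
    have hs' := Finset.mem_powerset.1 hs
    have ht' := Finset.mem_powerset.1 ht
    simp only [Prod.mk.injEq] at hst
    calc s = s ∩ (P ∪ R) := (Finset.inter_eq_left.2 hs').symm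
      _ = (s ∩ P) ∪ (s ∩ R) := Finset.inter_union_distrib_left _ _ _
      _ = (t ∩ P) ∪ (t ∩ R) := by rw [hst.1, hst.2]
      _ = t ∩ (P ∪ R) := (Finset.inter_union_distrib_left _ _ _).symm
      _ = t := Finset.inter_eq_left.2 ht'
  rw [h1]
  calc ∑ p ∈ (P ∪ R).powerset.image (fun s => (s ∩ P, s ∩ R)), φ p
      ≤ ∑ p ∈ P.powerset ×ˢ R.powerset, φ p := by
        apply Finset.sum_le_sum_of_subset_of_nonneg
        · intro p hp
          obtain ⟨s, _, rfl⟩ := Finset.mem_image.1 hp
          rw [Finset.mem_product]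
          exact ⟨Finset.mem_powerset.2 Finset.inter_subset_right,
            Finset.mem_powerset.2 Finset.inter_subset_right⟩
        · intro p _ _
          exact hφ0 p
    _ = ∑ β ∈ P.powerset, (R.card.choose (β.card + 2) : ℝ) * w β.card := by
        rw [Finset.sum_product]
        apply Finset.sum_congr rfl
        intro β _
        rw [hφ]
        dsimp only
        rw [← Finset.sum_filter, ← Finset.powersetCard_eq_filter, Finset.sum_const,
          Finset.card_powersetCard, nsmul_eq_mul]
    _ = ∑ k ∈ range (P.card + 1), (P.card.choose k : ℝ) * ((R.card.choose (k + 2) : ℝ) * w k) := by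
        rw [Finset.sum_powerset_apply_card (fun k => (R.card.choose (k + 2) : ℝ) * w k)]
        simp only [nsmul_eq_mul]

/-- **F3.** -/
theorem abs_det_block_le {K KQ KQ' Kt : Matrix n n ℝ} {P P' : Finset n} {s1 s2 c1 c2 : n}
    {CQ CQ' : Finset n} {Mx κ : ℝ} (h : BlockData K KQ KQ' Kt P P' s1 s2 c1 c2 CQ CQ' Mx κ)
    (S0 : ℝ) (hS : (P.card : ℝ) + 2 ≤ S0) (hS' : (P'.card : ℝ) + 2 ≤ S0)
    (hx : 4 * S0 ^ 2 * Mx * κ ≤ 1 / 2) :
    |Kt.det| ≤ 80 * S0 ^ 4 * Mx ^ 4 * κ ^ 2 * |K.det| := by
  classical
  have hκ := h.kappa_nonneg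
  have hMx0 : 0 ≤ Mx := zero_le_one.trans h.Mx1
  have hS0 : 0 ≤ S0 := le_trans (by positivity) hS
  have e : Kt.det = (Kt * K⁻¹).det * K.det := by
    rw [← Matrix.det_mul, h.mulK]
  rw [e, abs_mul]
  apply mul_le_mul_of_nonneg_right _ (abs_nonneg _)
  set R' := insert s1 (insert s2 P') with hR'
  have hRcard : R'.card = P'.card + 2 := by
    rw [hR', Finset.card_insert_of_notMem, Finset.card_insert_of_notMem h.s2P']
    rw [Finset.mem_insert]
    push Not
    exact ⟨h.ne12, h.s1P'⟩
  have hdisj : Disjoint P R' := by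
    rw [Finset.disjoint_left]
    intro i hi hi'
    rcases Finset.mem_insert.1 hi' with rfl | hi'
    · exact h.s1P hi
    rcases Finset.mem_insert.1 hi' with rfl | hi'
    · exact h.s2P hi
    exact Finset.disjoint_left.1 h.disj hi hi'
  set x := (4 * S0 ^ 2 * Mx * κ) ^ 2 with hxdef
  have hx0 : 0 ≤ x := by positivity
  have hx4 : x ≤ 1 / 4 := by
    have h0 : 0 ≤ 4 * S0 ^ 2 * Mx * κ := by positivity
    rw [hxdef]
    nlinarith
  calc |(Kt * K⁻¹).det|
      ≤ ∑ s ∈ (P ∪ R').powerset, |(BlockData.mixMat (Kt * K⁻¹) P P' s1 s2 s).det| := by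
        rw [h.det_expand]
        exact Finset.abs_sum_le_sum_abs _ _
    _ ≤ ∑ s ∈ (P ∪ R').powerset, (if (s ∩ R').card = (s ∩ P).card + 2 then
          BlockData.wt Mx (S0 * κ) (s ∩ P).card else 0) := by
        apply Finset.sum_le_sum
        intro s hs
        exact h.mix_bound S0 hS hS' s (Finset.mem_powerset.1 hs)
    _ ≤ ∑ k ∈ range (P.card + 1), (P.card.choose k : ℝ) *
          ((R'.card.choose (k + 2) : ℝ) * BlockData.wt Mx (S0 * κ) k) :=
        sum_powerset_le P R' hdisj _ (fun k => BlockData.wt_nonneg hMx0 (by positivity) k)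
    _ ≤ ∑ k ∈ range (P.card + 1), (Mx ^ 2 * x) * (((k : ℝ) + 1) * (k + 2) * x ^ k) := by
        apply Finset.sum_le_sum
        intro k _
        have a1 : (P.card.choose k : ℝ) ≤ S0 ^ k / k.factorial := by
          refine (Nat.choose_le_pow_div k P.card).trans ?_
          apply div_le_div_of_nonneg_right _ (by positivity)
          apply pow_le_pow_left₀ (by positivity)
          linarith
        have a2 : (R'.card.choose (k + 2) : ℝ) ≤ S0 ^ (k + 2) / (k + 2).factorial := by
          refine (Nat.choose_le_pow_div (k + 2) R'.card).trans ?_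
          apply div_le_div_of_nonneg_right _ (by positivity)
          apply pow_le_pow_left₀ (by positivity)
          rw [hRcard]
          push_cast
          linarith
        have a3 := BlockData.wt_nonneg hMx0 (show 0 ≤ S0 * κ by positivity) k
        calc (P.card.choose k : ℝ) * ((R'.card.choose (k + 2) : ℝ) * BlockData.wt Mx (S0 * κ) k)
            ≤ (S0 ^ k / k.factorial) * ((S0 ^ (k + 2) / (k + 2).factorial) *
              BlockData.wt Mx (S0 * κ) k) := by
              apply mul_le_mul a1 _ (by positivity) (by positivity)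
              exact mul_le_mul_of_nonneg_right a2 a3
          _ = (Mx ^ 2 * x) * (((k : ℝ) + 1) * (k + 2) * x ^ k) := by
              have hf1 : ((k.factorial : ℕ) : ℝ) ≠ 0 := by positivity
              have hf2 : (((k + 2).factorial : ℕ) : ℝ) = (k + 2) * ((k + 1) * k.factorial) := by
                rw [Nat.factorial_succ, Nat.factorial_succ]
                push_cast
                ring
              have hx' : ((4 * S0 ^ 2 * Mx * κ) ^ 2) ^ k =
                  (4 ^ k) ^ 2 * (S0 ^ k) ^ 4 * (Mx ^ k) ^ 2 * (κ ^ k) ^ 2 := by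
                rw [pow_right_comm]
                simp only [mul_pow]
                ring
              rw [BlockData.wt, hf2, hxdef, hx']
              simp only [pow_add, pow_mul, mul_pow]
              field_simp
              ring
    _ = (Mx ^ 2 * x) * ∑ k ∈ range (P.card + 1), ((k : ℝ) + 1) * (k + 2) * x ^ k := by
        rw [Finset.mul_sum]
    _ ≤ (Mx ^ 2 * x) * 5 := by
        apply mul_le_mul_of_nonneg_left (sum_le_five x hx0 hx4 _) (by positivity)
    _ = 80 * S0 ^ 4 * Mx ^ 4 * κ ^ 2 := by
        rw [hxdef]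
        ring

end Vale.Agent.P155.F
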