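import Vale.Agent.P155.F.ChProb

/-!
# P155, TIGHT: contact weights in one ball (k-th moments, `k → ∞`)
-/

namespace Vale.Agent.P155.SW

open Finset Vale.Agent.P155

section comb

variable {ι : Type*} [DecidableEq ι]

open Classical in
/-- tuples in `S` with pairwise separated entries -/
noncomputable def tup (S : Finset ι) (sep : ι → ι → Prop) (k : ℕ) : Finset (Fin k → ι) :=
  (Fintype.piFinset (fun _ : Fin k => S)).filter (fun x => ∀ i j, i ≠ j → sep (x i) (x j))

omit [DecidableEq ι] in
theorem mem_tup {S : Finset ι} {sep : ι → ι → Prop} {k : ℕ} {x : Fin k → ι} :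
    x ∈ tup S sep k ↔ (∀ i, x i ∈ S) ∧ ∀ i j, i ≠ j → sep (x i) (x j) := by
  classical
  unfold tup
  rw [mem_filter, Fintype.mem_piFinset]

open Classical in
/-- **selection of separated tuples** from a set of large mass -/
theorem select (S : Finset ι) (sep : ι → ι → Prop) (hsym : ∀ i j, sep i j → sep j i)
    (g : ι → ℝ) (hg : ∀ i ∈ S, 0 ≤ g i) {μ Λ : ℝ} (hμ : 0 ≤ μ)
    (hloc : ∀ i ∈ S, ∑ j ∈ S.filter (fun j => ¬ sep i j), g j ≤ μ) (k : ℕ) (hΛ : 0 ≤ Λ)
    (hS : Λ + k * μ ≤ ∑ i ∈ S, g i) :
    Λ ^ k ≤ ∑ x ∈ tup S sep k, ∏ i, g (x i) := by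
  have key : ∀ j, j ≤ k → Λ ^ j ≤ ∑ x ∈ tup S sep j, ∏ i, g (x i) := by
    intro j
    induction j with
    | zero =>
      intro _
      have h1 : (tup S sep 0) = {Fin.elim0} := by
        ext x
        rw [mem_tup, mem_singleton]
        constructor
        · intro _
          funext i
          exact i.elim0
        · rintro rfl
          exact ⟨fun i => i.elim0, fun i => i.elim0⟩
      rw [h1]
      simp
    | succ j ih =>
      intro hj
      have ih' := ih (by omega)
      -- the candidates for the last entry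
      set T : (Fin j → ι) → Finset ι := fun x => S.filter (fun q => ∀ i, sep (x i) q) with hT
      have hmass : ∀ x ∈ tup S sep j, Λ ≤ ∑ q ∈ T x, g q := by
        intro x hx
        rw [mem_tup] at hx
        have h1 : ∑ q ∈ S \ T x, g q ≤ j * μ := by
          calc ∑ q ∈ S \ T x, g q
              ≤ ∑ q ∈ S \ T x, ∑ i : Fin j, (if ¬ sep (x i) q then g q else 0) := by
                apply sum_le_sum
                intro q hq
                rw [mem_sdiff, hT, mem_filter, not_and] at hq
                have h3 := hq.2 hq.1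
                push Not at h3
                obtain ⟨i, hi⟩ := h3
                have h4 := single_le_sum (f := fun i : Fin j => if ¬ sep (x i) q then g q else 0)
                  (fun i _ => by
                    split_ifs
                    · exact le_rfl
                    · exact hg q hq.1) (mem_univ i)
                simpa only [hi, not_false_eq_true, if_true] using h4
            _ = ∑ i : Fin j, ∑ q ∈ S \ T x, (if ¬ sep (x i) q then g q else 0) := sum_comm
            _ ≤ ∑ i : Fin j, ∑ q ∈ S, (if ¬ sep (x i) q then g q else 0) := by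
                apply sum_le_sum
                intro i _
                apply sum_le_sum_of_subset_of_nonneg sdiff_subset
                intro q hq _
                split_ifs
                · exact le_rfl
                · exact hg q hq
            _ ≤ ∑ _i : Fin j, μ := by
                apply sum_le_sum
                intro i _
                rw [← sum_filter]
                exact hloc _ (hx.1 i)
            _ = j * μ := by rw [sum_const, card_univ, Fintype.card_fin, nsmul_eq_mul]
        have h2 : ∑ q ∈ S \ T x, g q + ∑ q ∈ T x, g q = ∑ q ∈ S, g q :=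
          sum_sdiff (filter_subset _ _)
        have h3 : (j : ℝ) * μ ≤ k * μ := by
          apply mul_le_mul_of_nonneg_right _ hμ
          exact_mod_cast (by omega : j ≤ k)
        linarith
      have hinj : Set.InjOn (fun p : (Fin j → ι) × ι => (Fin.snoc p.1 p.2 : Fin (j + 1) → ι))
          (((tup S sep j).sigma T).image (fun p => (p.1, p.2)) : Finset ((Fin j → ι) × ι)) := by
        intro p _ q _ h
        have h1 : p.1 = q.1 := by
          have := congrArg Fin.init h
          simpa using this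
        have h2 : p.2 = q.2 := by
          have := congrFun h (Fin.last j)
          simpa using this
        exact Prod.ext h1 h2
      calc Λ ^ (j + 1) = Λ ^ j * Λ := pow_succ _ _
        _ ≤ (∑ x ∈ tup S sep j, ∏ i, g (x i)) * Λ := mul_le_mul_of_nonneg_right ih' hΛ
        _ = ∑ x ∈ tup S sep j, (∏ i, g (x i)) * Λ := sum_mul _ _ _
        _ ≤ ∑ x ∈ tup S sep j, (∏ i, g (x i)) * ∑ q ∈ T x, g q := by
            apply sum_le_sum
            intro x hx
            apply mul_le_mul_of_nonneg_left (hmass x hx)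
            exact prod_nonneg (fun i _ => hg _ ((mem_tup.1 hx).1 i))
        _ = ∑ x ∈ tup S sep j, ∑ q ∈ T x, (∏ i, g (x i)) * g q := by
            simp only [mul_sum]
        _ = ∑ p ∈ (tup S sep j).sigma T, (∏ i, g (p.1 i)) * g p.2 := by
            rw [sum_sigma]
        _ = ∑ p ∈ (tup S sep j).sigma T, ∏ i, g ((Fin.snoc p.1 p.2 : Fin (j + 1) → ι) i) := by
            apply sum_congr rfl
            intro p _
            rw [Fin.prod_univ_castSucc]
            simp
        _ = ∑ y ∈ ((tup S sep j).sigma T).image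
              (fun p => (Fin.snoc p.1 p.2 : Fin (j + 1) → ι)), ∏ i, g (y i) := by
            rw [sum_image]
            intro p hp q hq h
            have h0 := hinj (mem_coe.2 (mem_image_of_mem (fun p : (Σ _ : Fin j → ι, ι) => (p.1, p.2)) (mem_coe.1 hp)))
              (mem_coe.2 (mem_image_of_mem (fun p : (Σ _ : Fin j → ι, ι) => (p.1, p.2)) (mem_coe.1 hq))) h
            obtain ⟨p1, p2⟩ := p
            obtain ⟨q1, q2⟩ := q
            simp only [Prod.mk.injEq] at h0
            obtain ⟨rfl, rfl⟩ := h0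
            rfl
        _ ≤ ∑ y ∈ tup S sep (j + 1), ∏ i, g (y i) := by
            apply sum_le_sum_of_subset_of_nonneg
            · intro y hy
              obtain ⟨p, hp, rfl⟩ := mem_image.1 hy
              rw [mem_sigma] at hp
              obtain ⟨hp1, hp2⟩ := hp
              rw [mem_tup] at hp1 ⊢
              rw [hT, mem_filter] at hp2
              constructor
              · intro i
                refine Fin.lastCases ?_ (fun i => ?_) i
                · simpa using hp2.1
                · simpa using hp1.1 i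
              · intro i i'
                refine Fin.lastCases ?_ (fun i => ?_) i
                · refine Fin.lastCases ?_ (fun i' => ?_) i'
                  · intro h; exact absurd rfl h
                  · intro _
                    simpa using hsym _ _ (hp2.2 i')
                · refine Fin.lastCases ?_ (fun i' => ?_) i'
                  · intro _
                    simpa using hp2.2 i
                  · intro h
                    simpa using hp1.2 i i' (fun h' => h (by rw [h']))
            · intro y hy _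
              exact prod_nonneg (fun i _ => hg _ ((mem_tup.1 hy).1 i))
  exact key k le_rfl

open Classical in
/-- summing over the coordinates outside a sub-tuple -/
theorem fiber_sum (Q : Finset ι) {n k : ℕ} (e : Fin n → Fin k) (he : Function.Injective e)
    (g : ι → ℝ) {gm M : ℝ} (hg0 : ∀ q ∈ Q, 0 ≤ g q) (hgm : ∀ q ∈ Q, g q ≤ gm)
    (hM : ∑ q ∈ Q, g q ≤ M) (f : (Fin n → ι) → ℝ) (hf : ∀ z, 0 ≤ f z) :
    ∑ x ∈ Fintype.piFinset (fun _ : Fin k => Q), (∏ i, g (x i)) * f (fun j => x (e j)) ≤
      gm ^ n * M ^ (k - n) * ∑ z ∈ Fintype.piFinset (fun _ : Fin n => Q), f z := by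
  have hmaps : ∀ x ∈ Fintype.piFinset (fun _ : Fin k => Q),
      (fun j => x (e j)) ∈ Fintype.piFinset (fun _ : Fin n => Q) := by
    intro x hx
    rw [Fintype.mem_piFinset] at hx ⊢
    exact fun j => hx (e j)
  rw [← sum_fiberwise_of_maps_to hmaps, mul_sum]
  apply sum_le_sum
  intro z hz
  rw [Fintype.mem_piFinset] at hz
  set s : Fin k → Finset ι := fun i => if h : ∃ j, e j = i then {z h.choose} else Q with hs
  have hsQ : ∀ i, ∀ q ∈ s i, q ∈ Q := by
    intro i q hq
    simp only [hs] at hq
    split_ifs at hq with h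
    · rw [mem_singleton] at hq
      rw [hq]; exact hz _
    · exact hq
  calc ∑ x ∈ (Fintype.piFinset (fun _ : Fin k => Q)).filter (fun x => (fun j => x (e j)) = z),
        (∏ i, g (x i)) * f (fun j => x (e j))
      = ∑ x ∈ (Fintype.piFinset (fun _ : Fin k => Q)).filter (fun x => (fun j => x (e j)) = z),
        (∏ i, g (x i)) * f z := by
        apply sum_congr rfl
        intro x hx
        rw [(mem_filter.1 hx).2]
    _ = (∑ x ∈ (Fintype.piFinset (fun _ : Fin k => Q)).filter (fun x => (fun j => x (e j)) = z),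
        ∏ i, g (x i)) * f z := by rw [sum_mul]
    _ ≤ (∑ x ∈ Fintype.piFinset s, ∏ i, g (x i)) * f z := by
        apply mul_le_mul_of_nonneg_right _ (hf z)
        apply sum_le_sum_of_subset_of_nonneg
        · intro x hx
          rw [mem_filter, Fintype.mem_piFinset] at hx
          rw [Fintype.mem_piFinset]
          intro i
          simp only [hs]
          split_ifs with h
          · rw [mem_singleton]
            have h1 := h.choose_spec
            have h2 := congrFun hx.2 h.choose
            rw [← h2, h1]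
          · exact hx.1 i
        · intro x hx _
          rw [Fintype.mem_piFinset] at hx
          exact prod_nonneg (fun i _ => hg0 _ (hsQ i _ (hx i)))
    _ = (∏ i, ∑ q ∈ s i, g q) * f z := by rw [prod_univ_sum]
    _ ≤ (∏ i : Fin k, if (∃ j, e j = i) then gm else M) * f z := by
        apply mul_le_mul_of_nonneg_right _ (hf z)
        apply prod_le_prod
        · intro i _
          exact sum_nonneg (fun q hq => hg0 q (hsQ i q hq))
        · intro i _
          simp only [hs]
          split_ifs with h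
          · rw [sum_singleton]
            exact hgm _ (hz _)
          · exact hM
    _ = gm ^ n * M ^ (k - n) * f z := by
        rw [prod_ite, prod_const, prod_const]
        have h1 : (univ.filter (fun i : Fin k => ∃ j, e j = i)).card = n := by
          have : univ.filter (fun i : Fin k => ∃ j, e j = i) = univ.image e := by
            ext i
            simp
          rw [this, card_image_of_injective _ he, card_univ, Fintype.card_fin]
        have h2 : (univ.filter (fun i : Fin k => ¬ ∃ j, e j = i)).card = k - n := by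
          have h3 := card_filter_add_card_filter_not (s := (univ : Finset (Fin k)))
            (fun i : Fin k => ∃ j, e j = i)
          rw [h1, card_univ, Fintype.card_fin] at h3
          omega
        rw [h1, h2]

end comb

/-- the points `p`, `q` are ends of two different strands of `η` -/
def TwoEnds (η : Conf) (p q : Pt) : Prop :=
  (suc η p = p ∨ pre η p = p) ∧ (suc η q = q ∨ pre η q = q) ∧ ¬ Same η p q

open Classical in
/-- the boxes of `Q` visited by both strands -/
noncomputable def both {ι : Type*} (Q : Finset ι) (A0 : ι → Finset Pt) (η : Conf) (p q : Pt) :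
    Finset ι :=
  Q.filter (fun i => (∃ u ∈ A0 i, Same η p u) ∧ (∃ u ∈ A0 i, Same η q u))

theorem mem_both {ι : Type*} {Q : Finset ι} {A0 : ι → Finset Pt} {η : Conf} {p q : Pt} {i : ι} :
    i ∈ both Q A0 η p q ↔ i ∈ Q ∧ (∃ u ∈ A0 i, Same η p u) ∧ (∃ u ∈ A0 i, Same η q u) := by
  classical
  unfold both
  rw [mem_filter]

open Classical in
/-- **Contact weight in one ball.** Random nonnegative weights `g ω i` of the boxes `i ∈ Q`, each at
most `gm`, of total mass at most `M`, the boxes not separated from a given one having mass at most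
`μ`. Then, off an event of small probability, the mass of the boxes visited by both strands of any
pair of different strands of `B` is less than `Λ + k μ`. -/
theorem cw_ball {ι : Type*} [DecidableEq ι] {V B : Finset Pt} (Q : Finset ι)
    (sep : ι → ι → Prop) (hsym : ∀ i j, sep i j → sep j i) (A0 A A' : ι → Finset Pt)
    (hgeo : ∀ (n : ℕ) (z : Fin n → ι), z ∈ tup Q sep n →
      GeoReg V B (fun i => A0 (z i)) (fun i => A (z i)) (fun i => A' (z i)))
    (Good : Finset Pt → Prop) (β : ℕ → ℝ) (hβ0 : ∀ n, 0 ≤ β n) {a : ℝ}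
    (ha : ∀ i ∈ Q, ((A i).card : ℝ) * (A' i).card ≤ a) (k : ℕ)
    (hβ : ∀ W, Good W → ∀ (n : ℕ) (z : Fin n → ι), z ∈ tup Q sep n → k ≤ 2 * n → n ≤ k →
      (∀ x ex, Adm true W (fun i => A (z i)) (ibd B) x ex →
        (Z (W \ XS x ex) : ℝ) ≤ β n * Z W) ∧
      (∀ x ex, Adm false W (fun i => A' (z i)) (ibd B) x ex →
        (Z (W \ XS x ex) : ℝ) ≤ β n * Z W))
    (g : Conf → ι → ℝ) {gm M μ Λ Φ : ℝ} (hg0 : ∀ ω ∈ DD V, ∀ i ∈ Q, 0 ≤ g ω i)
    (hgm : ∀ ω ∈ DD V, ∀ i ∈ Q, g ω i ≤ gm) (hgm0 : 0 ≤ gm) (hM0 : 0 ≤ M)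
    (hM : ∀ ω ∈ DD V, ∑ i ∈ Q, g ω i ≤ M) (hμ : 0 ≤ μ)
    (hloc : ∀ ω ∈ DD V, ∀ i ∈ Q, ∑ j ∈ Q.filter (fun j => ¬ sep i j), g ω j ≤ μ) (hΛ : 0 < Λ)
    (hΦ : ∀ n, k ≤ 2 * n → n ≤ k → gm ^ n * M ^ (k - n) * (Q.card : ℝ) ^ n *
      (a ^ (2 * n) * (5 * (ibd B).card + 1) ^ 4 * 16 * β n ^ 2) ≤ Φ) :
    Pr V (fun ω => (Good (Vin V B ω.1) ∧ Good (Vin V B ω.2)) ∧
      ∃ p q, TwoEnds (res V B ω) p q ∧
        Λ + k * μ ≤ ∑ i ∈ both Q A0 (res V B ω) p q, g ω i) ≤
      (Λ ^ k)⁻¹ * (((k + 1 : ℕ) * k ^ k * k.factorial : ℝ) * Φ) := by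
  -- the indicator of the event for a tuple and an order type
  set F : (n : ℕ) → Equiv.Perm (Fin n) → (Fin n → ι) → Conf → ℝ := fun n τ z ω =>
    if z ∈ tup Q sep n ∧ ((Good (Vin V B ω.1) ∧ Good (Vin V B ω.2)) ∧
      TwoRuns (fun j => A (z j)) (fun r => if r then τ else 1) (res V B ω)) then 1 else 0 with hF
  have hF0 : ∀ n τ z ω, 0 ≤ F n τ z ω := by
    intro n τ z ω
    simp only [hF]
    split_ifs <;> norm_num
  set I : Finset (OT k) := univ.filter (fun i => i.Ok) with hI
  -- pointwise bound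
  have hpt : ∀ ω ∈ DD V, ((Good (Vin V B ω.1) ∧ Good (Vin V B ω.2)) ∧
      ∃ p q, TwoEnds (res V B ω) p q ∧
        Λ + k * μ ≤ ∑ i ∈ both Q A0 (res V B ω) p q, g ω i) →
      Λ ^ k ≤ ∑ i ∈ I, gm ^ (i.1 : ℕ) * M ^ (k - (i.1 : ℕ)) *
        ∑ z ∈ Fintype.piFinset (fun _ : Fin i.1 => Q), F i.1 i.2.2 z ω := by
    rintro ω hω ⟨hgood, p, q, hpq, hmass⟩
    set S := both Q A0 (res V B ω) p q with hS
    have hSQ : ∀ i ∈ S, i ∈ Q := fun i hi => (mem_both.1 hi).1
    have h1 : Λ ^ k ≤ ∑ x ∈ tup S sep k, ∏ i, g ω (x i) := by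
      apply select S sep hsym (g ω) (fun i hi => hg0 ω hω i (hSQ i hi)) hμ _ k hΛ.le hmass
      intro i hi
      refine le_trans ?_ (hloc ω hω i (hSQ i hi))
      apply sum_le_sum_of_subset_of_nonneg
      · intro j hj
        rw [mem_filter] at hj ⊢
        exact ⟨hSQ j hj.1, hj.2⟩
      · intro j hj _
        exact hg0 ω hω j (mem_filter.1 hj).1
    refine h1.trans ?_
    have h2 : ∀ x ∈ tup S sep k, ∏ i, g ω (x i) ≤
        ∑ i ∈ I, (∏ j, g ω (x j)) * F i.1 i.2.2 (fun j => x (i.2.1 j)) ω := by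
      intro x hx
      rw [mem_tup] at hx
      have hxQ : x ∈ tup Q sep k := mem_tup.2 ⟨fun i => hSQ _ (hx.1 i), hx.2⟩
      have hT : TwoVisit (fun i => A0 (x i)) (res V B ω) := by
        refine ⟨p, q, hpq.1, hpq.2.1, hpq.2.2, fun i => ?_⟩
        exact (mem_both.1 (hx.1 i)).2
      obtain ⟨n, e, τ, hk, hn, hinj, hev, hTR⟩ := twoVisit_types (hgeo k x hxQ) hω hT
      have hprod : 0 ≤ ∏ j, g ω (x j) :=
        prod_nonneg (fun j _ => hg0 ω hω _ (hSQ _ (hx.1 j)))
      have hmem : (⟨⟨n, by omega⟩, e, τ⟩ : OT k) ∈ I :=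
        mem_filter.2 ⟨mem_univ _, hk, hinj, hev⟩
      have h3 := single_le_sum
        (f := fun i : OT k => (∏ j, g ω (x j)) * F i.1 i.2.2 (fun j => x (i.2.1 j)) ω)
        (fun i _ => mul_nonneg hprod (hF0 _ _ _ _)) hmem
      refine le_trans (le_of_eq ?_) h3
      have hFone : F n τ (fun j => x (e j)) ω = 1 := by
        simp only [hF]
        rw [if_pos]
        refine ⟨mem_tup.2 ⟨fun j => hSQ _ (hx.1 _), fun i j hij => hx.2 _ _ (fun h => hij (hinj h))⟩,
          hgood, hTR⟩
      show _ = (∏ j, g ω (x j)) * F n τ (fun j => x (e j)) ω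
      rw [hFone, mul_one]
    calc ∑ x ∈ tup S sep k, ∏ i, g ω (x i)
        ≤ ∑ x ∈ tup S sep k,
          ∑ i ∈ I, (∏ j, g ω (x j)) * F i.1 i.2.2 (fun j => x (i.2.1 j)) ω := sum_le_sum h2
      _ = ∑ i ∈ I, ∑ x ∈ tup S sep k,
          (∏ j, g ω (x j)) * F i.1 i.2.2 (fun j => x (i.2.1 j)) ω := sum_comm
      _ ≤ ∑ i ∈ I, gm ^ (i.1 : ℕ) * M ^ (k - (i.1 : ℕ)) *
          ∑ z ∈ Fintype.piFinset (fun _ : Fin i.1 => Q), F i.1 i.2.2 z ω := by
          apply sum_le_sum
          intro i hi
          obtain ⟨-, hinj, -⟩ := (mem_filter.1 hi).2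
          refine le_trans ?_ (fiber_sum Q i.2.1 hinj (g ω) (hg0 ω hω) (hgm ω hω) (hM ω hω)
            (fun z => F i.1 i.2.2 z ω) (fun z => hF0 _ _ _ _))
          apply sum_le_sum_of_subset_of_nonneg
          · intro x hx
            rw [mem_tup] at hx
            rw [Fintype.mem_piFinset]
            exact fun j => hSQ _ (hx.1 j)
          · intro x hx _
            rw [Fintype.mem_piFinset] at hx
            exact mul_nonneg (prod_nonneg (fun j _ => hg0 ω hω _ (hx j))) (hF0 _ _ _ _)
  -- the expectation of each indicator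
  have hEF : ∀ i ∈ I, ∀ z, J.avg (DD V) (fun ω => F i.1 i.2.2 z ω) ≤
      a ^ (2 * (i.1 : ℕ)) * (5 * (ibd B).card + 1) ^ 4 * 16 * β i.1 ^ 2 := by
    intro i hi z
    obtain ⟨hk, hinj, hev⟩ := (mem_filter.1 hi).2
    have hn : (i.1 : ℕ) ≤ k := by have := i.1.2; omega
    have hpow : (0 : ℝ) ≤ a ^ (2 * (i.1 : ℕ)) := by rw [pow_mul]; positivity
    by_cases hz : z ∈ tup Q sep i.1
    · have h1 := pr_twoRuns (hgeo i.1 z hz) Good (hβ0 i.1)
        (fun j => ha _ ((mem_tup.1 hz).1 j)) (fun W hW => hβ W hW i.1 z hz hk hn) i.2.2 hev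
      rw [E.Pr_eq_avg] at h1
      refine le_trans (le_of_eq ?_) h1
      apply J.avg_congr
      intro ω _
      simp only [hF, hz, true_and]
    · have : J.avg (DD V) (fun ω => F i.1 i.2.2 z ω) = 0 := by
        simp only [hF, hz, false_and, if_false]
        exact J.avg_zero _
      rw [this]
      positivity
  -- Markov
  have hΛk : 0 < Λ ^ k := pow_pos hΛ k
  rw [E.Pr_eq_avg]
  have h4 : J.avg (DD V) (fun ω => if ((Good (Vin V B ω.1) ∧ Good (Vin V B ω.2)) ∧
      ∃ p q, TwoEnds (res V B ω) p q ∧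
        Λ + k * μ ≤ ∑ i ∈ both Q A0 (res V B ω) p q, g ω i) then (1 : ℝ) else 0) ≤
      J.avg (DD V) (fun ω => (Λ ^ k)⁻¹ * ∑ i ∈ I, gm ^ (i.1 : ℕ) * M ^ (k - (i.1 : ℕ)) *
        ∑ z ∈ Fintype.piFinset (fun _ : Fin i.1 => Q), F i.1 i.2.2 z ω) := by
    apply J.avg_mono
    intro ω hω
    split_ifs with h
    · rw [inv_mul_eq_div, le_div_iff₀ hΛk, one_mul]
      exact hpt ω hω h
    · apply mul_nonneg (inv_nonneg.2 hΛk.le)
      apply sum_nonneg
      intro i _
      exact mul_nonneg (mul_nonneg (pow_nonneg hgm0 _) (pow_nonneg hM0 _))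
        (sum_nonneg (fun z _ => hF0 _ _ _ _))
  refine h4.trans ?_
  rw [J.avg_mul_left, J.avg_sum]
  apply mul_le_mul_of_nonneg_left _ (inv_nonneg.2 hΛk.le)
  have h5 : ∀ i ∈ I, J.avg (DD V) (fun ω => gm ^ (i.1 : ℕ) * M ^ (k - (i.1 : ℕ)) *
        ∑ z ∈ Fintype.piFinset (fun _ : Fin i.1 => Q), F i.1 i.2.2 z ω) ≤ Φ := by
    intro i hi
    obtain ⟨hk, hinj, hev⟩ := (mem_filter.1 hi).2
    have hn : (i.1 : ℕ) ≤ k := by have := i.1.2; omega
    rw [J.avg_mul_left, J.avg_sum]
    refine le_trans ?_ (hΦ i.1 hk hn)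
    rw [mul_assoc (gm ^ (i.1 : ℕ) * M ^ (k - (i.1 : ℕ)))]
    apply mul_le_mul_of_nonneg_left _ (mul_nonneg (pow_nonneg hgm0 _) (pow_nonneg hM0 _))
    calc ∑ z ∈ Fintype.piFinset (fun _ : Fin i.1 => Q), J.avg (DD V) (fun ω => F i.1 i.2.2 z ω)
        ≤ ∑ _z ∈ Fintype.piFinset (fun _ : Fin i.1 => Q),
          (a ^ (2 * (i.1 : ℕ)) * (5 * ((ibd B).card : ℝ) + 1) ^ 4 * 16 * β i.1 ^ 2) :=
          sum_le_sum (fun z _ => hEF i hi z)
      _ = _ := by
          rw [sum_const, Fintype.card_piFinset_const, nsmul_eq_mul]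
          push_cast
          ring
  have hΦ0 : ∀ i ∈ I, 0 ≤ Φ := by
    intro i hi
    refine le_trans ?_ (h5 i hi)
    apply J.avg_nonneg
    intro ω _
    exact mul_nonneg (mul_nonneg (pow_nonneg hgm0 _) (pow_nonneg hM0 _))
        (sum_nonneg (fun z _ => hF0 _ _ _ _))
  have hΦ00 : 0 ≤ Φ := by
    have h6 := hΦ k (by omega) le_rfl
    refine le_trans ?_ h6
    have hpow : (0 : ℝ) ≤ a ^ (2 * k) := by rw [pow_mul]; positivity
    positivity
  have hcard : (I.card : ℝ) ≤ ((k + 1 : ℕ) * k ^ k * k.factorial : ℝ) := by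
    have h1 : I.card ≤ (k + 1) * k ^ k * k.factorial :=
      (card_filter_le _ _).trans (by rw [card_univ]; exact card_OT k)
    exact_mod_cast h1
  calc _ ≤ ∑ _i ∈ I, Φ := sum_le_sum h5
    _ = I.card * Φ := by rw [sum_const, nsmul_eq_mul]
    _ ≤ _ := mul_le_mul_of_nonneg_right hcard hΦ00

end Vale.Agent.P155.SW
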