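import Vale.Agent.P155.F.Runs

/-!
# P155, TIGHT (chain lemma): counting configurations with two runs visiting `m` regions with
parity-good orders
-/

namespace Vale.Agent.P155.SW

open Finset Vale.Agent.P155

/-! ## adding vertices -/

theorem Z_insert_le {W : Finset Pt} {b : Pt} (hb : b ∉ W) (B : ℕ)
    (h : ∀ y ∈ W, Adj b y → Z (W.erase y) ≤ B) : Z (insert b W) ≤ 4 * B := by
  classical
  have hsub : PM (insert b W) ⊆ (nbrs b).biUnion
      (fun y => (PM (insert b W)).filter (fun m => m b = y)) := by
    intro m hm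
    rw [mem_biUnion]
    refine ⟨m b, mem_nbrs.2 ((mem_PM.1 hm).adj b (mem_insert_self _ _)), ?_⟩
    exact mem_filter.2 ⟨hm, rfl⟩
  have hone : ∀ y ∈ nbrs b, ((PM (insert b W)).filter (fun m => m b = y)).card ≤ B := by
    intro y hy
    have hadj : Adj b y := mem_nbrs.1 hy
    by_cases hyW : y ∈ W
    · refine le_trans ?_ (h y hyW hadj)
      unfold Z
      apply card_le_card_of_injOn (cut {b, y})
      · intro m hm
        rw [mem_coe, mem_filter, mem_PM] at hm
        rw [mem_coe, mem_PM]
        have hset : W.erase y = insert b W \ {b, y} := by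
          ext v
          simp only [mem_erase, mem_sdiff, mem_insert, mem_singleton, not_or]
          constructor
          · rintro ⟨h1, h2⟩
            exact ⟨Or.inr h2, fun h3 => hb (h3 ▸ h2), h1⟩
          · rintro ⟨h1 | h1, h2, h3⟩
            · exact absurd h1 h2
            · exact ⟨h3, h1⟩
        rw [hset]
        apply pm_cut hm.1
        intro v hv
        simp only [mem_insert, mem_singleton] at hv ⊢
        rcases hv with rfl | rfl
        · exact Or.inr hm.2
        · left
          rw [← hm.2, hm.1.invol]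
      · intro m hm m' hm' he
        rw [mem_coe, mem_filter, mem_PM] at hm hm'
        funext v
        by_cases hv : v = b
        · rw [hv, hm.2, hm'.2]
        · by_cases hv' : v = y
          · rw [hv']
            nth_rewrite 1 [← hm.2]
            rw [← hm'.2, hm.1.invol, hm'.1.invol]
          · have := congrFun he v
            unfold cut at this
            simpa [hv, hv'] using this
    · have : (PM (insert b W)).filter (fun m => m b = y) = ∅ := by
        rw [filter_eq_empty_iff]
        intro m hm hmb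
        have h3 := pm_mem (mem_PM.1 hm) (mem_insert_self b W)
        rw [hmb, mem_insert] at h3
        rcases h3 with h3 | h3
        · exact adj_irrefl b (h3 ▸ hadj)
        · exact hyW h3
      rw [this, card_empty]
      exact Nat.zero_le _
  have h4 : (nbrs b).card ≤ 4 := by
    unfold nbrs
    refine (card_insert_le _ _).trans ?_
    refine Nat.succ_le_succ ((card_insert_le _ _).trans ?_)
    refine Nat.succ_le_succ ((card_insert_le _ _).trans ?_)
    simp
  calc Z (insert b W) = (PM (insert b W)).card := rfl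
    _ ≤ _ := card_le_card hsub
    _ ≤ ∑ y ∈ nbrs b, ((PM (insert b W)).filter (fun m => m b = y)).card := card_biUnion_le
    _ ≤ ∑ _y ∈ nbrs b, B := sum_le_sum hone
    _ = (nbrs b).card * B := by rw [sum_const, smul_eq_mul]
    _ ≤ 4 * B := Nat.mul_le_mul_right _ h4

/-- adding black points `Bs` to the vertex set -/
theorem Z_union_le (Bs : Finset Pt) : ∀ (W : Finset Pt), Disjoint W Bs → (∀ b ∈ Bs, Black b) →
    ∀ B : ℕ, (∀ f : Pt → Pt, (∀ b ∈ Bs, f b ∈ W ∧ Adj b (f b)) → Set.InjOn f Bs →
      Z (W \ Bs.image f) ≤ B) → Z (W ∪ Bs) ≤ 4 ^ Bs.card * B := by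
  classical
  induction Bs using Finset.induction_on with
  | empty =>
    intro W _ _ B h
    have := h id (by simp) (by simp)
    simpa using this
  | insert b Bs hb ih =>
    intro W hd hbl B h
    have hd' := hd
    rw [disjoint_insert_right] at hd'
    have hbW : b ∉ W ∪ Bs := by
      rw [mem_union, not_or]
      exact ⟨hd'.1, hb⟩
    rw [union_insert, card_insert_of_notMem hb]
    refine (Z_insert_le hbW (4 ^ Bs.card * B) ?_).trans (le_of_eq (by ring))
    intro y hy hadj
    have hyB : y ∉ Bs := by
      intro hc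
      have h1 := hbl b (mem_insert_self _ _)
      have h2 := hbl y (mem_insert_of_mem hc)
      rw [black_iff_not_white] at h1 h2
      exact h2 ((white_iff_of_adj hadj).2 h1)
    have hyW : y ∈ W := by
      rcases mem_union.1 hy with h1 | h1
      · exact h1
      · exact absurd h1 hyB
    have hset : (W ∪ Bs).erase y = W.erase y ∪ Bs := by
      rw [erase_union_distrib, erase_eq_of_notMem hyB]
    rw [hset]
    apply ih (W.erase y) (disjoint_of_subset_left (erase_subset _ _) hd'.2)
      (fun b' hb' => hbl b' (mem_insert_of_mem hb'))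
    intro f hf hinj
    have hbf : ∀ b' ∈ Bs, Function.update f b y b' = f b' := by
      intro b' hb'
      exact Function.update_of_ne (by rintro rfl; exact hb hb') _ _
    have := h (Function.update f b y) (by
      intro b' hb'
      rcases mem_insert.1 hb' with rfl | hb'
      · rw [Function.update_self]
        exact ⟨hyW, hadj⟩
      · rw [hbf b' hb']
        exact ⟨mem_of_mem_erase (hf b' hb').1, (hf b' hb').2⟩) (by
      intro b₁ h₁ b₂ h₂ he
      rw [mem_coe, mem_insert] at h₁ h₂
      rcases h₁ with rfl | h₁ <;> rcases h₂ with rfl | h₂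
      · rfl
      · rw [Function.update_self, hbf _ h₂] at he
        exact absurd he.symm (mem_erase.1 (hf _ h₂).1).1
      · rw [Function.update_self, hbf _ h₁] at he
        exact absurd he (mem_erase.1 (hf _ h₁).1).1
      · rw [hbf _ h₁, hbf _ h₂] at he
        exact hinj h₁ h₂ he)
    have hset2 : W \ (insert b Bs).image (Function.update f b y) = W.erase y \ Bs.image f := by
      ext v
      simp only [mem_sdiff, mem_image, mem_insert, mem_erase, not_exists, not_and, exists_eq_or_imp,
        Function.update_self, not_or]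
      constructor
      · rintro ⟨h1, h2, h3⟩
        refine ⟨⟨fun h => h2 h.symm, h1⟩, fun b' hb' => ?_⟩
        have := h3 b' hb'
        rwa [hbf b' hb'] at this
      · rintro ⟨⟨h1, h2⟩, h3⟩
        refine ⟨h2, fun h => h1 h.symm, fun b' hb' => ?_⟩
        rw [hbf b' hb']
        exact h3 b' hb'
    rw [hset2] at this
    exact this

/-! ## label systems -/

section

variable {m : ℕ}

/-- the removed points: the labels in the `m` regions (one for each of the two runs) and, if `m` is
odd, the two exit labels -/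
def XS (x : Fin m → Bool → Pt) (ex : Bool → Pt) : Finset Pt :=
  (univ : Finset (Fin m × Bool)).image (fun p => x p.1 p.2) ∪ (if Even m then ∅ else univ.image ex)

theorem mem_XS {x : Fin m → Bool → Pt} {ex : Bool → Pt} {v : Pt} :
    v ∈ XS x ex ↔ (∃ i r, x i r = v) ∨ (¬ Even m ∧ ∃ r, ex r = v) := by
  unfold XS
  rw [mem_union, mem_image]
  refine or_congr ?_ ?_
  · constructor
    · rintro ⟨p, -, h⟩; exact ⟨p.1, p.2, h⟩
    · rintro ⟨i, r, h⟩; exact ⟨(i, r), mem_univ _, h⟩
  · by_cases hm : Even m
    · simp only [hm, if_true, notMem_empty, not_true_eq_false, false_and]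
    · rw [if_neg hm, mem_image]
      constructor
      · rintro ⟨r, -, h⟩; exact ⟨hm, r, h⟩
      · rintro ⟨-, r, h⟩; exact ⟨r, mem_univ _, h⟩

/-- Admissible labels for one copy: `c = true` for the first matching (regions with even index get
white labels, the exits are black), `c = false` for the second one. -/
structure Adm (c : Bool) (V : Finset Pt) (A : Fin m → Finset Pt) (D : Finset Pt)
    (x : Fin m → Bool → Pt) (ex : Bool → Pt) : Prop where
  mem : ∀ i r, x i r ∈ A i
  memV : ∀ i r, x i r ∈ V
  col : ∀ i r, (White (x i r) ↔ (Even (i : ℕ) ↔ c = true))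
  ne : ∀ i, x i false ≠ x i true
  exV : ¬ Even m → ∀ r, ex r ∈ V
  exD : ¬ Even m → ∀ r, ex r ∈ D ∨ ∃ z ∈ D, z ∉ V ∧ Adj z (ex r)
  exc : ¬ Even m → ∀ r, (White (ex r) ↔ c = false)
  exne : ¬ Even m → ex false ≠ ex true

theorem na_lt (j : Fin ((m + 1) / 2)) : 2 * (j : ℕ) < m := by have := j.2; omega

variable (σ : Bool → Equiv.Perm (Fin m))

/-- starts of the arcs -/
def wl (x : Fin m → Bool → Pt) (p : Bool × Fin ((m + 1) / 2)) : Pt :=
  x (σ p.1 ⟨2 * p.2, na_lt p.2⟩) p.1

/-- ends of the arcs -/
def bl (x : Fin m → Bool → Pt) (ex : Bool → Pt) (p : Bool × Fin ((m + 1) / 2)) : Pt :=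
  if h : 2 * (p.2 : ℕ) + 1 < m then x (σ p.1 ⟨2 * p.2 + 1, h⟩) p.1 else ex p.1

theorem image_wl_bl (x : Fin m → Bool → Pt) (ex : Bool → Pt) :
    univ.image (wl σ x) ∪ univ.image (bl σ x ex) = XS x ex := by
  ext v
  rw [mem_XS, mem_union, mem_image, mem_image]
  constructor
  · rintro (⟨p, -, rfl⟩ | ⟨p, -, rfl⟩)
    · exact Or.inl ⟨_, _, rfl⟩
    · unfold bl
      split_ifs with h
      · exact Or.inl ⟨_, _, rfl⟩
      · refine Or.inr ⟨?_, _, rfl⟩
        have := na_lt p.2
        have hm : m = 2 * (p.2 : ℕ) + 1 := by omega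
        rw [Nat.not_even_iff_odd]
        exact ⟨_, hm⟩
  · rintro (⟨i, r, rfl⟩ | ⟨hm, r, rfl⟩)
    · set k := (σ r).symm i with hk
      have hik : i = σ r k := by rw [hk]; simp
      rcases Nat.even_or_odd' (k : ℕ) with ⟨j, hj | hj⟩
      · left
        refine ⟨(r, ⟨j, by have := k.2; omega⟩), mem_univ _, ?_⟩
        unfold wl
        have hfin : (⟨2 * j, by have := k.2; omega⟩ : Fin m) = k := Fin.ext hj.symm
        show x (σ r ⟨2 * j, _⟩) r = x i r
        rw [hfin, ← hik]
      · right
        refine ⟨(r, ⟨j, by have := k.2; omega⟩), mem_univ _, ?_⟩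
        unfold bl
        have hlt : 2 * j + 1 < m := by have := k.2; omega
        have hfin : (⟨2 * j + 1, hlt⟩ : Fin m) = k := Fin.ext hj.symm
        simp only [hlt, dif_pos]
        rw [hfin, ← hik]
    · right
      obtain ⟨j, hj⟩ := Nat.not_even_iff_odd.1 hm
      refine ⟨(r, ⟨j, by omega⟩), mem_univ _, ?_⟩
      unfold bl
      have hlt : ¬ 2 * j + 1 < m := by omega
      simp only [hlt, dif_neg, not_false_eq_true]

/-- the points and their neighbours -/
def nb0 (D : Finset Pt) : Finset Pt := D ∪ D.biUnion nbrs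

/-- the points and their neighbours, and the dummy label -/
def nb (D : Finset Pt) : Finset Pt := insert (0, 0) (D ∪ D.biUnion nbrs)

theorem card_nb_le (D : Finset Pt) : (nb D).card ≤ 5 * D.card + 1 := by
  unfold nb
  refine (card_insert_le _ _).trans (Nat.succ_le_succ ?_)
  refine (card_union_le _ _).trans ?_
  have h1 : (D.biUnion nbrs).card ≤ ∑ v ∈ D, (nbrs v).card := card_biUnion_le
  have h2 : ∑ v ∈ D, (nbrs v).card ≤ ∑ _v ∈ D, 4 := by
    apply sum_le_sum
    intro v _
    unfold nbrs
    refine (card_insert_le _ _).trans ?_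
    refine Nat.succ_le_succ ((card_insert_le _ _).trans ?_)
    refine Nat.succ_le_succ ((card_insert_le _ _).trans ?_)
    simp
  rw [sum_const, smul_eq_mul] at h2
  omega

theorem mem_nb_of_mem {D : Finset Pt} {v : Pt} (h : v ∈ D) : v ∈ nb D :=
  mem_insert_of_mem (mem_union_left _ h)

theorem mem_nb_of_adj {D : Finset Pt} {z v : Pt} (h : z ∈ D) (ha : Adj z v) : v ∈ nb D :=
  mem_insert_of_mem (mem_union_right _ (mem_biUnion.2 ⟨z, h, mem_nbrs.2 ha⟩))

theorem mem_nb0_of_mem {D : Finset Pt} {v : Pt} (h : v ∈ D) : v ∈ nb0 D :=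
  mem_union_left _ h

theorem mem_nb0_of_adj {D : Finset Pt} {z v : Pt} (h : z ∈ D) (ha : Adj z v) : v ∈ nb0 D :=
  mem_union_right _ (mem_biUnion.2 ⟨z, h, mem_nbrs.2 ha⟩)

/-- The geometric data: the regions `A i` (for the labels) and `A' i` (for their partners), and the
set `D` containing all points of exactly one of `V₁`, `V₂`. -/
structure Regions (V₁ V₂ D : Finset Pt) (A A' : Fin m → Finset Pt) : Prop where
  sub1 : ∀ i, A i ⊆ V₁
  sub2 : ∀ i, A i ⊆ V₂
  sub : ∀ i, A i ⊆ A' i
  nbr : ∀ i, ∀ u ∈ A i, ∀ v, Adj u v → v ∈ A' i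
  disj : ∀ i j, i ≠ j → Disjoint (A' i) (A' j)
  farD : ∀ i, Disjoint (A' i) (nb0 D)
  diff1 : ∀ z, z ∈ V₁ → z ∉ V₂ → z ∈ D
  diff2 : ∀ z, z ∈ V₂ → z ∉ V₁ → z ∈ D

/-- the condition satisfied by the labels of actual configurations -/
structure GoodLab (V₁ V₂ D : Finset Pt) (A A' : Fin m → Finset Pt)
    (x y : Fin m → Bool → Pt) (ex dz : Bool → Pt) : Prop where
  adm : Adm true V₁ A D x ex
  yV : ∀ i r, y i r ∈ V₂
  yadj : ∀ i r, Adj (x i r) (y i r)
  yne : ∀ i, y i false ≠ y i true
  cases : ¬ Even m → ∀ r, (ex r ∉ V₂ ∧ dz r = ex r) ∨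
    (ex r ∈ V₂ ∧ dz r ∈ V₂ ∧ dz r ∉ V₁ ∧ Adj (ex r) (dz r))
  dne : ¬ Even m → dz false ≠ dz true

/-- the second factor -/
theorem second_le {V₁ V₂ D : Finset Pt} {A A' : Fin m → Finset Pt} (hR : Regions V₁ V₂ D A A')
    {x y : Fin m → Bool → Pt} {ex dz : Bool → Pt} (hG : GoodLab V₁ V₂ D A A' x y ex dz) (B : ℕ)
    (hB : ∀ (y : Fin m → Bool → Pt) (ey : Bool → Pt), Adm false V₂ A' D y ey →
      Z (V₂ \ XS y ey) ≤ B) :
    Z ((V₂ \ (XS x ex ∪ XS y dz)) ∪ XS x ex) ≤ 16 * B := by
  classical
  -- facts on the labels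
  have hxV : ∀ i r, x i r ∈ V₂ := fun i r => hR.sub2 i (hG.adm.mem i r)
  have hyA : ∀ i r, y i r ∈ A' i := fun i r => hR.nbr i _ (hG.adm.mem i r) _ (hG.yadj i r)
  have hxA : ∀ i r, x i r ∈ A' i := fun i r => hR.sub i (hG.adm.mem i r)
  have hyc : ∀ i r, White (y i r) ↔ (Even (i : ℕ) ↔ false = true) := by
    intro i r
    rw [white_iff_of_adj (hG.yadj i r), hG.adm.col i r]
    simp
  have hxy : ∀ i r j r', x i r ≠ y j r' := by
    intro i r j r' he
    by_cases hij : i = j
    · subst hij
      have h1 := hG.adm.col i r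
      have h2 := hyc i r'
      rw [← he] at h2
      simp only [Bool.false_eq_true, iff_false, iff_true] at h1 h2
      tauto
    · exact (disjoint_left.1 (hR.disj i j hij)) (hxA i r) (he ▸ hyA j r')
  by_cases hm : Even m
  · -- no exits
    have hset : (V₂ \ (XS x ex ∪ XS y dz)) ∪ XS x ex = V₂ \ XS y dz := by
      ext v
      simp only [mem_union, mem_sdiff, mem_XS, hm, not_true_eq_false, false_and, or_false]
      constructor
      · rintro (⟨h1, h2⟩ | ⟨i, r, rfl⟩)
        · exact ⟨h1, fun h => h2 (Or.inr h)⟩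
        · refine ⟨hxV i r, ?_⟩
          rintro ⟨j, r', h⟩
          exact hxy i r j r' h.symm
      · rintro ⟨h1, h2⟩
        by_cases h3 : ∃ i r, x i r = v
        · exact Or.inr h3
        · exact Or.inl ⟨h1, fun h => h.elim h3 h2⟩
    rw [hset]
    refine (hB y dz ?_).trans (by omega)
    exact ⟨hyA, hG.yV, hyc, hG.yne, fun h => absurd hm h, fun h => absurd hm h,
      fun h => absurd hm h, fun h => absurd hm h⟩
  · -- exits
    have hcases := hG.cases hm
    have hexV := hG.adm.exV hm
    have hexc : ∀ r, Black (ex r) := by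
      intro r
      rw [black_iff_not_white, hG.adm.exc hm r]
      simp
    have hdzw : ∀ r, ex r ∈ V₂ → White (dz r) := by
      intro r h
      rcases hcases r with h1 | h1
      · exact absurd h h1.1
      · rw [white_iff_of_adj h1.2.2.2]
        exact black_iff_not_white.1 (hexc r)
    set R : Finset Bool := univ.filter (fun r => ex r ∉ V₂) with hRdef
    set Bs : Finset Pt := R.image ex with hBs
    set W : Finset Pt := V₂ \ (univ.image (fun p : Fin m × Bool => y p.1 p.2) ∪
      (univ.filter (fun r => ex r ∈ V₂)).image dz) with hW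
    have hmemR : ∀ r, r ∈ R ↔ ex r ∉ V₂ := by intro r; simp [hRdef]
    have hexne : ∀ r r', ex r = ex r' → r = r' := by
      have := hG.adm.exne hm
      intro r r' h
      cases r <;> cases r' <;> first | rfl | exact absurd h this | exact absurd h.symm this
    have hdzne : ∀ r r', dz r = dz r' → r = r' := by
      have := hG.dne hm
      intro r r' h
      cases r <;> cases r' <;> first | rfl | exact absurd h this | exact absurd h.symm this
    have hexnb : ∀ r, ex r ∈ nb0 D := by
      intro r
      rcases hG.adm.exD hm r with h | ⟨z, hz, -, ha⟩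
      · exact mem_nb0_of_mem h
      · exact mem_nb0_of_adj hz ha
    have hdznb : ∀ r, dz r ∈ nb0 D := by
      intro r
      rcases hcases r with h | h
      · rw [h.2]; exact hexnb r
      · exact mem_nb0_of_mem (hR.diff2 _ h.2.1 h.2.2.1)
    have hnotA : ∀ v ∈ nb0 D, ∀ i, v ∉ A' i := fun v hv i hi =>
      (disjoint_left.1 (hR.farD i)) hi hv
    have hset : (V₂ \ (XS x ex ∪ XS y dz)) ∪ XS x ex = W ∪ Bs := by
      ext v
      have hWv : v ∈ W ↔ v ∈ V₂ ∧ ¬ (∃ i r, y i r = v) ∧ ¬ ∃ r, ex r ∈ V₂ ∧ dz r = v := by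
        rw [hW, mem_sdiff, mem_union, mem_image, mem_image, not_or]
        refine and_congr_right fun _ => and_congr (not_congr ?_) (not_congr ?_)
        · constructor
          · rintro ⟨p, -, h⟩; exact ⟨p.1, p.2, h⟩
          · rintro ⟨i, r, h⟩; exact ⟨(i, r), mem_univ _, h⟩
        · constructor
          · rintro ⟨r, h1, h2⟩; exact ⟨r, (mem_filter.1 h1).2, h2⟩
          · rintro ⟨r, h1, h2⟩; exact ⟨r, mem_filter.2 ⟨mem_univ _, h1⟩, h2⟩
      have hBv : v ∈ Bs ↔ ∃ r, ex r ∉ V₂ ∧ ex r = v := by
        rw [hBs, mem_image]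
        constructor
        · rintro ⟨r, h1, h2⟩; exact ⟨r, (hmemR r).1 h1, h2⟩
        · rintro ⟨r, h1, h2⟩; exact ⟨r, (hmemR r).2 h1, h2⟩
      simp only [mem_union (s := W), hWv, hBv, mem_union, mem_sdiff, mem_XS, hm, not_false_eq_true,
        true_and]
      constructor
      · rintro (⟨h1, h2⟩ | h1)
        · left
          refine ⟨h1, fun h => h2 (Or.inr (Or.inl h)), ?_⟩
          rintro ⟨r, h3, h4⟩
          exact h2 (Or.inr (Or.inr ⟨r, h4⟩))
        · rcases h1 with ⟨i, r, rfl⟩ | ⟨r, rfl⟩
          · left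
            refine ⟨hxV i r, ?_, ?_⟩
            · rintro ⟨j, r', h⟩
              exact hxy i r j r' h.symm
            · rintro ⟨r', -, h⟩
              exact hnotA _ (hdznb r') i (h ▸ hxA i r)
          · by_cases h : ex r ∈ V₂
            · left
              refine ⟨h, ?_, ?_⟩
              · rintro ⟨j, r', h'⟩
                exact hnotA _ (hexnb r) j (h' ▸ hyA j r')
              · rintro ⟨r', h1, h2⟩
                have := hdzw r' h1
                rw [h2] at this
                exact (black_iff_not_white.1 (hexc r)) this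
            · exact Or.inr ⟨r, h, rfl⟩
      · rintro (⟨h1, h2, h3⟩ | ⟨r, h1, rfl⟩)
        · by_cases h4 : (∃ i r, x i r = v) ∨ ∃ r, ex r = v
          · exact Or.inr h4
          · left
            refine ⟨h1, ?_⟩
            rintro (h | h | ⟨r, rfl⟩)
            · exact h4 h
            · exact h2 h
            · rcases hcases r with h5 | h5
              · exact h4 (Or.inr ⟨r, h5.2.symm⟩)
              · exact h3 ⟨r, h5.1, rfl⟩
        · exact Or.inr (Or.inr ⟨r, rfl⟩)
    rw [hset]
    have hcard : Bs.card ≤ 2 := by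
      refine card_image_le.trans ((card_filter_le _ _).trans ?_)
      simp
    have hdisj : Disjoint W Bs := by
      rw [disjoint_left]
      intro v hv hvB
      obtain ⟨r, hr, rfl⟩ := mem_image.1 hvB
      exact (hmemR r).1 hr (mem_sdiff.1 hv).1
    refine (Z_union_le Bs W hdisj ?_ B ?_).trans ?_
    · intro b hb
      obtain ⟨r, -, rfl⟩ := mem_image.1 hb
      exact hexc r
    · intro f hf hinj
      -- the labels of the second copy
      set ey : Bool → Pt := fun r => if ex r ∈ V₂ then dz r else f (ex r) with hey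
      have hfW : ∀ r, ex r ∉ V₂ → f (ex r) ∈ W ∧ Adj (ex r) (f (ex r)) := fun r hr =>
        hf _ (mem_image_of_mem _ ((hmemR r).2 hr))
      have hset2 : W \ Bs.image f = V₂ \ XS y ey := by
        ext v
        rw [mem_sdiff, hW, mem_sdiff, mem_union, mem_sdiff, mem_XS]
        constructor
        · rintro ⟨⟨h1, h2⟩, h3⟩
          refine ⟨h1, ?_⟩
          rintro (⟨i, r, rfl⟩ | ⟨-, r, rfl⟩)
          · exact h2 (Or.inl (mem_image.2 ⟨(i, r), mem_univ _, rfl⟩))
          · by_cases hr : ex r ∈ V₂
            · simp only [hey, hr, if_true] at h2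
              exact h2 (Or.inr (mem_image.2 ⟨r, mem_filter.2 ⟨mem_univ _, hr⟩, rfl⟩))
            · simp only [hey, hr, if_false] at h3
              exact h3 (mem_image.2 ⟨ex r, mem_image_of_mem _ ((hmemR r).2 hr), rfl⟩)
        · rintro ⟨h1, h2⟩
          refine ⟨⟨h1, ?_⟩, ?_⟩
          · rintro (h3 | h3)
            · obtain ⟨p, -, rfl⟩ := mem_image.1 h3
              exact h2 (Or.inl ⟨p.1, p.2, rfl⟩)
            · obtain ⟨r, hr, rfl⟩ := mem_image.1 h3
              refine h2 (Or.inr ⟨hm, r, ?_⟩)
              simp only [hey, (mem_filter.1 hr).2, if_true]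
          · intro h3
            obtain ⟨b, hb, rfl⟩ := mem_image.1 h3
            obtain ⟨r, hr, rfl⟩ := mem_image.1 hb
            refine h2 (Or.inr ⟨hm, r, ?_⟩)
            simp only [hey, (hmemR r).1 hr, if_false]
      rw [hset2]
      apply hB
      refine ⟨hyA, hG.yV, hyc, hG.yne, fun _ => ?_, fun _ => ?_, fun _ => ?_, fun _ => ?_⟩
      · intro r
        by_cases hr : ex r ∈ V₂
        · simp only [hey, hr, if_true]
          rcases hcases r with h | h
          · exact absurd hr h.1
          · exact h.2.1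
        · simp only [hey, hr, if_false]
          exact (mem_sdiff.1 (hfW r hr).1).1
      · intro r
        by_cases hr : ex r ∈ V₂
        · simp only [hey, hr, if_true]
          rcases hcases r with h | h
          · exact absurd hr h.1
          · exact Or.inl (hR.diff2 _ h.2.1 h.2.2.1)
        · simp only [hey, hr, if_false]
          exact Or.inr ⟨ex r, hR.diff1 _ (hexV r) hr, hr, (hfW r hr).2⟩
      · intro r
        by_cases hr : ex r ∈ V₂
        · simp only [hey, hr, if_true]
          simpa using hdzw r hr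
        · simp only [hey, hr, if_false]
          rw [white_iff_of_adj (hfW r hr).2]
          simpa using black_iff_not_white.1 (hexc r)
      · have hkey : ∀ r r', r ≠ r' → ex r ∉ V₂ → ex r' ∈ V₂ → f (ex r) ≠ dz r' := by
          intro r r' _ hr hr' he
          have := (mem_sdiff.1 (hfW r hr).1).2
          apply this
          rw [mem_union]
          right
          exact mem_image.2 ⟨r', mem_filter.2 ⟨mem_univ _, hr'⟩, he.symm⟩
        by_cases h0 : ex false ∈ V₂ <;> by_cases h1 : ex true ∈ V₂
        · simp only [hey, h0, h1, if_true]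
          exact hG.dne hm
        · simp only [hey, h0, h1, if_true, if_false]
          exact (hkey true false (by simp) h1 h0).symm
        · simp only [hey, h0, h1, if_true, if_false]
          exact hkey false true (by simp) h0 h1
        · simp only [hey, h0, h1, if_false]
          intro he
          have := hinj (mem_coe.2 (mem_image_of_mem _ ((hmemR _).2 h0)))
            (mem_coe.2 (mem_image_of_mem _ ((hmemR _).2 h1))) he
          exact hG.adm.exne hm this
    · have : 4 ^ Bs.card ≤ 4 ^ 2 := Nat.pow_le_pow_right (by norm_num) hcard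
      calc 4 ^ Bs.card * B ≤ 4 ^ 2 * B := Nat.mul_le_mul_right _ this
        _ = 16 * B := by norm_num

end

end Vale.Agent.P155.SW
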