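import Vale.Agent.P155.F.ChCount

/-!
# P155, TIGHT (chain lemma): the final count
-/

namespace Vale.Agent.P155.SW

open Finset Vale.Agent.P155

variable {m : ℕ}

/-- The event: two disjoint runs, each visiting all regions, run `r` in the order
`σ r 0, σ r 1, …, σ r (m-1)` (at the times `t r i` and `t r i + 1`). -/
def TwoRuns (A : Fin m → Finset Pt) (σ : Bool → Equiv.Perm (Fin m)) (ω : Conf) : Prop :=
  ∃ (v : Bool → Pt) (N : Bool → ℕ) (t : Bool → ℕ → ℕ), (∀ r, Run ω (v r) (N r)) ∧
    (∀ i ≤ N false, ∀ j ≤ N true, (suc ω)^[i] (v false) ≠ (suc ω)^[j] (v true)) ∧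
    (∀ r i, i + 1 < m → t r i + 1 < t r (i + 1)) ∧ (∀ r i, i < m → t r i + 3 ≤ N r) ∧
    (∀ r (i : Fin m), (suc ω)^[t r i] (v r) ∈ A (σ r i) ∧ (suc ω)^[t r i + 1] (v r) ∈ A (σ r i))

/-- actual configurations have good labels -/
theorem exists_labels {V₁ V₂ D : Finset Pt} {A A' : Fin m → Finset Pt}
    (hR : Regions V₁ V₂ D A A') (σ : Bool → Equiv.Perm (Fin m))
    (hσ : ∀ r (i : Fin m), (Even ((σ r i : Fin m) : ℕ) ↔ Even (i : ℕ))) {ω : Conf}
    (h1 : IsPM V₁ ω.1) (h2 : IsPM V₂ ω.2) (hT : TwoRuns A σ ω) :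
    ∃ (x y : Fin m → Bool → Pt) (ex dz : Bool → Pt), GoodLab V₁ V₂ D A A' x y ex dz ∧
      (Even m → ex = (fun _ => (0, 0)) ∧ dz = (fun _ => (0, 0))) ∧
      HasSys V₁ (wl σ x) (bl σ x ex) (wl σ y) (bl σ y dz) ω := by
  classical
  obtain ⟨v, N, t, hrun, hdis, ht, htN, hvis⟩ := hT
  have hav := fun r => (hrun r).arcs_of_visits h1 h2 m (t r) (ht r) (htN r)
  choose a e hae heN hint hw hb hta hte hex using hav
  -- times of the labels
  set tm : Bool → Fin m → ℕ := fun r k =>
    if Even (k : ℕ) then a r ⟨(k : ℕ) / 2, by have := k.2; omega⟩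
    else e r ⟨(k : ℕ) / 2, by have := k.2; omega⟩ with htm
  have htm_a : ∀ r (j : Fin ((m + 1) / 2)), tm r ⟨2 * j, na_lt j⟩ = a r j := by
    intro r j
    have hev : Even (2 * (j : ℕ)) := even_two_mul _
    simp only [htm, hev, if_true]
    congr 1
    apply Fin.ext
    simp
  have htm_e : ∀ r (j : Fin ((m + 1) / 2)) (hj : 2 * (j : ℕ) + 1 < m),
      tm r ⟨2 * j + 1, hj⟩ = e r j := by
    intro r j hj
    have hev : ¬ Even (2 * (j : ℕ) + 1) := by
      rw [Nat.not_even_iff_odd]; exact odd_two_mul_add_one _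
    simp only [htm, hev, if_false]
    congr 1
    apply Fin.ext
    show (2 * (j : ℕ) + 1) / 2 = j
    omega
  -- the run time and the colour and the place of the label of region `σ r k`
  have htm_le : ∀ r (k : Fin m), tm r k ≤ N r := by
    intro r k
    simp only [htm]
    split_ifs
    · exact (hae r _).le.trans (heN r _)
    · exact heN r _
  have htm_col : ∀ r (k : Fin m), White ((suc ω)^[tm r k] (v r)) ↔ Even (k : ℕ) := by
    intro r k
    by_cases hk : Even (k : ℕ)
    · simp only [htm, hk, if_true, iff_true]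
      exact hw r _
    · simp only [htm, hk, if_false, iff_false]
      exact black_iff_not_white.1 (hb r _)
  have htm_mem : ∀ r (k : Fin m), (suc ω)^[tm r k] (v r) ∈ A (σ r k) := by
    intro r k
    by_cases hk : Even (k : ℕ)
    · simp only [htm, hk, if_true]
      have h3 : 2 * ((k : ℕ) / 2) = k := Nat.two_mul_div_two_of_even hk
      rcases hta r ⟨(k : ℕ) / 2, by have := k.2; omega⟩ with h4 | h4
      · rw [h4]; simp only [h3]; exact (hvis r k).1
      · rw [h4]; simp only [h3]; exact (hvis r k).2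
    · simp only [htm, hk, if_false]
      have h3 : 2 * ((k : ℕ) / 2) + 1 = k :=
        Nat.two_mul_div_two_add_one_of_odd (Nat.not_even_iff_odd.1 hk)
      rcases hte r ⟨(k : ℕ) / 2, by have := k.2; omega⟩ (by simp only [h3]; exact k.2) with h4 | h4
      · rw [h4]; simp only [h3]; exact (hvis r k).1
      · rw [h4]; simp only [h3]; exact (hvis r k).2
  -- labels
  set x : Fin m → Bool → Pt := fun i r => (suc ω)^[tm r ((σ r).symm i)] (v r) with hx
  set te : Bool → ℕ := fun r => if h : Even m then 0 else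
    e r ⟨(m + 1) / 2 - 1, by have : m ≠ 0 := by (rintro rfl; exact h (by simp))
                             omega⟩ with hte'
  set ex : Bool → Pt := fun r => if Even m then (0, 0) else (suc ω)^[te r] (v r) with hexd
  set y : Fin m → Bool → Pt := fun i r => ω.2 (x i r) with hy
  set dz : Bool → Pt := fun r => if Even m then (0, 0) else ω.2 (ex r) with hdz
  have hxA : ∀ i r, x i r ∈ A i := by
    intro i r
    have := htm_mem r ((σ r).symm i)
    rw [Equiv.apply_symm_apply] at this
    exact this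
  have hxcol : ∀ i r, White (x i r) ↔ Even (i : ℕ) := by
    intro i r
    have h3 := htm_col r ((σ r).symm i)
    have h4 := hσ r ((σ r).symm i)
    rw [Equiv.apply_symm_apply] at h4
    exact h3.trans h4.symm
  have hte_le : ∀ r, te r ≤ N r := by
    intro r
    by_cases hm : Even m
    · simp only [hte', hm, dif_pos]; exact Nat.zero_le _
    · simp only [hte', hm, dif_neg, not_false_eq_true]; exact heN r _
  have hexit : ¬ Even m → ∀ r, IsExit V₁ V₂ ω (ex r) := by
    intro hm r
    have hm' := Nat.not_even_iff_odd.1 hm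
    obtain ⟨l, hl⟩ := hm'
    simp only [hexd, hte', hm, if_false, dif_neg, not_false_eq_true]
    apply hex
    simp only
    omega
  have hexne : ¬ Even m → ex false ≠ ex true := by
    intro hm
    simp only [hexd, hm, if_false]
    exact hdis _ (hte_le false) _ (hte_le true)
  have hxne : ∀ i, x i false ≠ x i true := by
    intro i
    exact hdis _ (htm_le false _) _ (htm_le true _)
  have hinj2 : ∀ u u', ω.2 u = ω.2 u' → u = u' := by
    intro u u' h
    rw [← h2.invol u, h, h2.invol]
  refine ⟨x, y, ex, dz, ⟨⟨hxA, fun i r => hR.sub1 i (hxA i r), ?_, hxne, ?_, ?_, ?_, hexne⟩,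
    ?_, ?_, ?_, ?_, ?_⟩, ?_, ?_⟩
  · intro i r
    rw [hxcol i r]; simp
  · intro hm r; exact (hexit hm r).mem
  · intro hm r
    have hE := hexit hm r
    rcases hE.cases with h3 | h3
    · exact Or.inl (hR.diff1 _ hE.mem h3.1)
    · right
      refine ⟨ω.2 (ex r), hR.diff2 _ (pm_mem h2 h3.1) h3.2, h3.2, ?_⟩
      exact adj_symm (h2.adj _ h3.1)
  · intro hm r
    have hE := hexit hm r
    have := black_iff_not_white.1 hE.black
    simp [this]
  · intro i r; exact pm_mem h2 (hR.sub2 i (hxA i r))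
  · intro i r; exact h2.adj _ (hR.sub2 i (hxA i r))
  · intro i h
    exact hxne i (hinj2 _ _ h)
  · intro hm r
    have hE := hexit hm r
    simp only [hdz, hm, if_false]
    rcases hE.cases with h3 | h3
    · exact Or.inl h3
    · exact Or.inr ⟨h3.1, pm_mem h2 h3.1, h3.2, h2.adj _ h3.1⟩
  · intro hm h
    simp only [hdz, hm, if_false] at h
    exact hexne hm (hinj2 _ _ h)
  · intro hm
    simp only [hexd, hdz, hm, if_true]
    exact ⟨trivial, trivial⟩
  · -- the arcs
    have hdis' : ∀ r r', r ≠ r' → ∀ i ≤ N r, ∀ j ≤ N r',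
        (suc ω)^[i] (v r) ≠ (suc ω)^[j] (v r') := by
      intro r r' hrr i hi j hj
      cases r <;> cases r'
      · exact absurd rfl hrr
      · exact hdis i hi j hj
      · exact (hdis j hj i hi).symm
      · exact absurd rfl hrr
    obtain ⟨k, hA, hend⟩ := arcSys_of_times (ι := Bool × Fin ((m + 1) / 2)) h1 h2 v N hrun hdis'
      Prod.fst (fun p => a p.1 p.2) (fun p => e p.1 p.2) (fun p => hae p.1 p.2)
      (fun p => heN p.1 p.2) (by
        rintro ⟨r, j⟩ ⟨r', j'⟩ hne hrr
        simp only at hrr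
        subst hrr
        have hjj : j ≠ j' := fun h => hne (by rw [h])
        rcases lt_or_gt_of_ne hjj with h | h
        · exact Or.inl (hint r j j' h)
        · exact Or.inr (hint r j' j h)) (fun p => hw p.1 p.2) (fun p => hb p.1 p.2)
    have hwl : (fun p : Bool × Fin ((m + 1) / 2) => (suc ω)^[a p.1 p.2] (v p.1)) = wl σ x := by
      funext p
      unfold wl
      simp only [hx, Equiv.symm_apply_apply, htm_a]
    have hbl : ∀ p : Bool × Fin ((m + 1) / 2), (suc ω)^[e p.1 p.2] (v p.1) = bl σ x ex p := by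
      intro p
      unfold bl
      split_ifs with hj
      · simp only [hx, Equiv.symm_apply_apply, htm_e _ _ hj]
      · have h3 := na_lt p.2
        have hm : ¬ Even m := by
          rw [Nat.not_even_iff_odd]; exact ⟨p.2, by omega⟩
        simp only [hexd, hte', hm, if_false, dif_neg, not_false_eq_true]
        congr 2
        apply Fin.ext
        simp only
        omega
    refine ⟨k, hwl ▸ hA, ?_⟩
    intro p
    have he : aend ω (wl σ x) k p = bl σ x ex p := by
      rw [← hbl p, ← hend p, ← hwl]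
    refine ⟨he, rfl, ?_⟩
    unfold bl
    split_ifs with hj
    · rfl
    · have h3 := na_lt p.2
      have hm : ¬ Even m := by
        rw [Nat.not_even_iff_odd]; exact ⟨p.2, by omega⟩
      simp only [hdz, hm, if_false]

open Classical in
/-- **The chain count**: number of pairs of matchings with two disjoint runs visiting all regions
in parity-good orders, in terms of the monomer partition functions of the two copies. -/
theorem ch_card_le {V₁ V₂ D : Finset Pt} {A A' : Fin m → Finset Pt}
    (hR : Regions V₁ V₂ D A A') (σ : Bool → Equiv.Perm (Fin m))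
    (hσ : ∀ r (i : Fin m), (Even ((σ r i : Fin m) : ℕ) ↔ Even (i : ℕ))) (B₁ B₂ : ℕ)
    (hB₁ : ∀ (x : Fin m → Bool → Pt) (ex : Bool → Pt), Adm true V₁ A D x ex →
      Z (V₁ \ XS x ex) ≤ B₁)
    (hB₂ : ∀ (y : Fin m → Bool → Pt) (ey : Bool → Pt), Adm false V₂ A' D y ey →
      Z (V₂ \ XS y ey) ≤ B₂) :
    ((PM V₁ ×ˢ PM V₂).filter (fun ω => TwoRuns A σ ω)).card ≤
      ((∏ i, ((A i).card * (A' i).card) ^ 2) * (5 * D.card + 1) ^ 4) * (B₁ * (16 * B₂)) := by
  set Λ0 : Finset ((Fin m → Bool → Pt) × (Fin m → Bool → Pt) × (Bool → Pt) × (Bool → Pt)) :=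
    (Fintype.piFinset fun i => Fintype.piFinset fun _ : Bool => A i) ×ˢ
    (Fintype.piFinset fun i => Fintype.piFinset fun _ : Bool => A' i) ×ˢ
    (Fintype.piFinset fun _ : Bool => nb D) ×ˢ (Fintype.piFinset fun _ : Bool => nb D) with hΛ0
  set Λ1 := Λ0.filter (fun l => GoodLab V₁ V₂ D A A' l.1 l.2.1 l.2.2.1 l.2.2.2) with hΛ1
  set f : ((Fin m → Bool → Pt) × (Fin m → Bool → Pt) × (Bool → Pt) × (Bool → Pt)) →
      ((Bool × Fin ((m + 1) / 2) → Pt) × (Bool × Fin ((m + 1) / 2) → Pt) ×
        (Bool × Fin ((m + 1) / 2) → Pt) × (Bool × Fin ((m + 1) / 2) → Pt)) :=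
    fun l => (wl σ l.1, bl σ l.1 l.2.2.1, wl σ l.2.1, bl σ l.2.1 l.2.2.2) with hf
  have h00 : ((0 : ℤ), (0 : ℤ)) ∈ nb D := mem_insert_self _ _
  have hmem : ∀ ω ∈ (PM V₁ ×ˢ PM V₂).filter (fun ω => TwoRuns A σ ω), ∃ l ∈ Λ1.image f,
      HasSys V₁ l.1 l.2.1 l.2.2.1 l.2.2.2 ω := by
    intro ω hω
    rw [mem_filter, mem_product, mem_PM, mem_PM] at hω
    obtain ⟨x, y, ex, dz, hG, hev, hS⟩ := exists_labels hR σ hσ hω.1.1 hω.1.2 hω.2
    refine ⟨f (x, y, ex, dz), mem_image_of_mem _ ?_, hS⟩
    rw [hΛ1, mem_filter]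
    refine ⟨?_, hG⟩
    rw [hΛ0]
    simp only [mem_product, Fintype.mem_piFinset]
    refine ⟨fun i r => hG.adm.mem i r,
      fun i r => hR.nbr i _ (hG.adm.mem i r) _ (hG.yadj i r), fun r => ?_, fun r => ?_⟩
    · by_cases hm : Even m
      · rw [(hev hm).1]; exact h00
      · rcases hG.adm.exD hm r with h | ⟨z, hz, -, ha⟩
        · exact mem_nb_of_mem h
        · exact mem_nb_of_adj hz ha
    · by_cases hm : Even m
      · rw [(hev hm).2]; exact h00
      · rcases hG.cases hm r with h | h
        · rw [h.2]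
          exact mem_nb_of_mem (hR.diff1 _ (hG.adm.exV hm r) h.1)
        · exact mem_nb_of_mem (hR.diff2 _ h.2.1 h.2.2.1)
  refine (hasSys_union_le V₁ V₂ (Λ1.image f) _ (filter_subset _ _) hmem).trans ?_
  calc _ ≤ ∑ _l ∈ Λ1.image f, B₁ * (16 * B₂) := by
        apply sum_le_sum
        intro l hl
        obtain ⟨l', hl', rfl⟩ := mem_image.1 hl
        have hG := (mem_filter.1 hl').2
        simp only [hf]
        rw [image_wl_bl, image_wl_bl]
        exact Nat.mul_le_mul (hB₁ _ _ hG.adm) (second_le hR hG B₂ hB₂)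
    _ = (Λ1.image f).card * (B₁ * (16 * B₂)) := by rw [sum_const, smul_eq_mul]
    _ ≤ _ := by
        apply Nat.mul_le_mul_right
        refine card_image_le.trans ((card_filter_le _ _).trans ?_)
        rw [hΛ0, card_product, card_product, card_product]
        simp only [Fintype.card_piFinset, prod_const, card_univ, Fintype.card_bool]
        have hnb := card_nb_le D
        have h4 : (nb D).card ^ 2 * (nb D).card ^ 2 ≤ (5 * D.card + 1) ^ 4 := by
          rw [← pow_add]
          exact Nat.pow_le_pow_left hnb 4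
        calc _ = (∏ i, ((A i).card * (A' i).card) ^ 2) * ((nb D).card ^ 2 * (nb D).card ^ 2) := by
              simp only [mul_pow, prod_mul_distrib]
              ring
          _ ≤ _ := Nat.mul_le_mul_left _ h4

end Vale.Agent.P155.SW
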