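import Mathlib

/-!
Gallai's parity theorem: the vertices of every finite graph can be split into two classes which
both induce graphs with all degrees even.  Consequences for two orders on a finite set: there is
a subset with at least half of the elements in which the two ranks of every element have the
same parity.
-/

namespace Vale.Agent.P155.Gal

open Finset

/-- over the field with two elements the diagonal of a symmetric matrix is in its range -/
theorem diag_mem {V : Type*} [Fintype V] [DecidableEq V] (M : Matrix V V (ZMod 2))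
    (hM : M.IsSymm) : ∃ x : V → ZMod 2, M.mulVec x = fun i => M i i := by
  classical
  by_contra hcon
  have hnot : (fun i => M i i) ∉ LinearMap.range M.mulVecLin := by
    rintro ⟨x, hx⟩
    exact hcon ⟨x, by simpa using hx⟩
  obtain ⟨f, hf1, hf2⟩ := Submodule.exists_le_ker_of_notMem hnot
  set z : V → ZMod 2 := fun i => f (Pi.single i 1) with hz
  have hfz : ∀ x : V → ZMod 2, f x = ∑ i, x i * z i := by
    intro x
    conv_lhs => rw [← Finset.univ_sum_single x]
    rw [map_sum]
    refine Finset.sum_congr rfl fun i _ => ?_
    have : (Pi.single i (x i) : V → ZMod 2) = x i • (Pi.single i 1 : V → ZMod 2) := by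
      rw [← Pi.single_smul]; simp
    rw [this, map_smul, smul_eq_mul, hz]
  have hker : ∀ x : V → ZMod 2, f (M.mulVec x) = 0 := by
    intro x
    have : M.mulVecLin x ∈ LinearMap.range M.mulVecLin := ⟨x, rfl⟩
    have h2 := hf2 this
    simpa using h2
  have h0 : ∀ j, ∑ i, M i j * z i = 0 := by
    intro j
    have h1 := hker (Pi.single j 1)
    rw [hfz] at h1
    simpa using h1
  have hsum : ∑ i, ∑ j, z i * M i j * z j = 0 := by
    rw [Finset.sum_comm]
    refine Finset.sum_eq_zero fun j _ => ?_
    have := h0 j
    calc ∑ i, z i * M i j * z j = (∑ i, M i j * z i) * z j := by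
          rw [Finset.sum_mul]
          refine Finset.sum_congr rfl fun i _ => by ring
      _ = 0 := by rw [this, zero_mul]
  have hdiag : ∑ i, ∑ j, z i * M i j * z j = ∑ i, M i i * z i := by
    -- off-diagonal terms cancel in pairs
    have hsplit : ∑ i, ∑ j, z i * M i j * z j
        = ∑ p ∈ (univ : Finset (V × V)), z p.1 * M p.1 p.2 * z p.2 := by
      rw [← Finset.univ_product_univ, Finset.sum_product]
    rw [hsplit]
    rw [← Finset.sum_filter_add_sum_filter_not (univ : Finset (V × V)) (fun p => p.1 = p.2)]
    have hoff : ∑ p ∈ (univ : Finset (V × V)).filter (fun p => ¬ p.1 = p.2),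
        z p.1 * M p.1 p.2 * z p.2 = 0 := by
      refine Finset.sum_involution (fun p _ => (p.2, p.1)) ?_ ?_ ?_ ?_
      · intro p _
        have hs : M p.2 p.1 = M p.1 p.2 := by
          have := congrFun (congrFun hM p.1) p.2
          simpa [Matrix.transpose_apply] using this
        show z p.1 * M p.1 p.2 * z p.2 + z p.2 * M p.2 p.1 * z p.1 = 0
        rw [hs]
        have : z p.1 * M p.1 p.2 * z p.2 + z p.2 * M p.1 p.2 * z p.1
            = z p.1 * M p.1 p.2 * z p.2 + z p.1 * M p.1 p.2 * z p.2 := by ring
        rw [this]
        exact CharTwo.add_self_eq_zero _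
      · intro p hp _ heq
        have h1 := (Finset.mem_filter.1 hp).2
        apply h1
        have := congrArg Prod.snd heq
        simpa using this
      · intro p hp
        have h1 := (Finset.mem_filter.1 hp).2
        exact Finset.mem_filter.2 ⟨Finset.mem_univ _, fun h => h1 h.symm⟩
      · intro p _
        rfl
    rw [hoff, add_zero]
    have himg : (univ : Finset (V × V)).filter (fun p => p.1 = p.2)
        = (univ : Finset V).map ⟨fun i => (i, i), fun a b h => congrArg Prod.fst h⟩ := by
      ext p
      simp only [Finset.mem_filter, Finset.mem_univ, true_and, Finset.mem_map]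
      constructor
      · intro h
        exact ⟨p.1, Prod.ext rfl h⟩
      · rintro ⟨i, rfl⟩
        rfl
    rw [himg, Finset.sum_map]
    refine Finset.sum_congr rfl fun i _ => ?_
    show z i * M i i * z i = M i i * z i
    have hzz : z i * z i = z i := by
      generalize z i = t
      revert t
      decide
    calc z i * M i i * z i = M i i * (z i * z i) := by ring
      _ = M i i * z i := by rw [hzz]
  apply hf1
  rw [hfz]
  rw [← hdiag]
  exact hsum

/-- Gallai: two classes, both with all inner degrees even -/
theorem gallai {V : Type*} [Fintype V] [DecidableEq V] (r : V → V → Prop) [DecidableRel r]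
    (hs : ∀ u v, r u v → r v u) (hi : ∀ u, ¬ r u u) :
    ∃ U : Finset V, (∀ u ∈ U, Even (U.filter (fun v => r u v)).card) ∧
      ∀ u ∈ Uᶜ, Even ((Uᶜ).filter (fun v => r u v)).card := by
  classical
  set deg : V → ZMod 2 := fun u => (((univ : Finset V).filter (fun v => r u v)).card : ZMod 2)
    with hdeg
  obtain ⟨M, hMe⟩ : ∃ M : Matrix V V (ZMod 2), ∀ u v,
      M u v = if u = v then deg u else if r u v then 1 else 0 := ⟨fun u v => _, fun u v => rfl⟩
  have hM : M.IsSymm := by
    ext u v
    rw [Matrix.transpose_apply, hMe, hMe]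
    by_cases h : u = v
    · subst h; rfl
    · rw [if_neg (fun h' => h h'.symm), if_neg h]
      by_cases h2 : r u v
      · rw [if_pos h2, if_pos (hs _ _ h2)]
      · rw [if_neg h2, if_neg (fun h3 => h2 (hs _ _ h3))]
  obtain ⟨x, hx⟩ := diag_mem M hM
  have hx01 : ∀ v, x v = if x v = 1 then 1 else 0 := by
    intro v
    generalize x v = t
    revert t
    decide
  set U : Finset V := univ.filter (fun v => x v = 1) with hU
  have hUc : Uᶜ = univ.filter (fun v => x v ≠ 1) := by
    ext v; simp [hU]
  have hrow : ∀ u, deg u * x u + ∑ v, (if r u v then x v else 0) = deg u := by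
    intro u
    have h := congrFun hx u
    have hMuu : M u u = deg u := by rw [hMe, if_pos rfl]
    have h2 : M.mulVec x u = deg u * x u + ∑ v, (if r u v then x v else 0) := by
      rw [Matrix.mulVec, dotProduct]
      rw [← Finset.add_sum_erase _ _ (Finset.mem_univ u), hMuu]
      congr 1
      rw [← Finset.add_sum_erase (univ : Finset V) (fun v => if r u v then x v else 0)
        (Finset.mem_univ u)]
      rw [if_neg (hi u), zero_add]
      refine Finset.sum_congr rfl fun v hv => ?_
      have hne : u ≠ v := fun h' => (Finset.mem_erase.1 hv).1 h'.symm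
      rw [hMe, if_neg hne]
      by_cases h3 : r u v <;> simp [h3]
    rw [← h2, h, hMuu]
  have hinner : ∀ u, ∑ v, (if r u v then x v else 0)
      = ((U.filter (fun v => r u v)).card : ZMod 2) := by
    intro u
    rw [Finset.card_eq_sum_ones, Nat.cast_sum, Finset.sum_filter, hU, Finset.sum_filter]
    refine Finset.sum_congr rfl fun v _ => ?_
    by_cases h3 : r u v
    · rw [if_pos h3]
      rw [hx01 v]
      by_cases h4 : x v = 1 <;> simp [h3, h4]
    · simp [h3]
  refine ⟨U, ?_, ?_⟩
  · intro u hu
    have hu1 : x u = 1 := (Finset.mem_filter.1 hu).2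
    have h := hrow u
    rw [hu1, mul_one] at h
    have h0 : ∑ v, (if r u v then x v else 0) = 0 := by
      have := congrArg (fun t => t - deg u) h
      simpa using this
    rw [hinner] at h0
    exact (ZMod.natCast_eq_zero_iff_even).1 h0
  · intro u hu
    have hu1 : x u ≠ 1 := by
      rw [hUc] at hu
      exact (Finset.mem_filter.1 hu).2
    have hu0 : x u = 0 := by
      revert hu1
      generalize x u = t
      revert t
      decide
    have h := hrow u
    rw [hu0, mul_zero, zero_add, hinner] at h
    -- degree splits
    have hsplit : ((univ : Finset V).filter (fun v => r u v)).card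
        = (U.filter (fun v => r u v)).card + ((Uᶜ).filter (fun v => r u v)).card := by
      rw [← Finset.card_union_of_disjoint]
      · congr 1
        ext v
        simp only [Finset.mem_filter, Finset.mem_univ, true_and, Finset.mem_union,
          Finset.mem_compl]
        tauto
      · rw [Finset.disjoint_left]
        intro v h1 h2
        exact (Finset.mem_compl.1 (Finset.mem_filter.1 h2).1) (Finset.mem_filter.1 h1).1
    have h3 : (((Uᶜ).filter (fun v => r u v)).card : ZMod 2) = 0 := by
      have h4 : deg u = ((U.filter (fun v => r u v)).card : ZMod 2)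
          + (((Uᶜ).filter (fun v => r u v)).card : ZMod 2) := by
        rw [hdeg]
        simp only
        rw [hsplit]
        push_cast
        ring
      rw [h] at h4
      have := congrArg (fun t => t - deg u) h4
      simp only [sub_self] at this
      rw [add_sub_cancel_left] at this
      exact this.symm
    exact (ZMod.natCast_eq_zero_iff_even).1 h3

/-- a class with at least half of the elements and all inner degrees even -/
theorem gallai_half {V : Type*} [Fintype V] [DecidableEq V] (r : V → V → Prop) [DecidableRel r]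
    (hs : ∀ u v, r u v → r v u) (hi : ∀ u, ¬ r u u) :
    ∃ U : Finset V, Fintype.card V ≤ 2 * U.card ∧
      ∀ u ∈ U, Even (U.filter (fun v => r u v)).card := by
  obtain ⟨U, h1, h2⟩ := gallai r hs hi
  have hc : U.card + Uᶜ.card = Fintype.card V := Finset.card_add_card_compl U
  by_cases h : Uᶜ.card ≤ U.card
  · exact ⟨U, by omega, h1⟩
  · exact ⟨Uᶜ, by omega, h2⟩

/-- the same inside a finite set -/
theorem gallai_finset {α : Type*} [DecidableEq α] (S : Finset α) (r : α → α → Prop)
    [DecidableRel r] (hs : ∀ u v, r u v → r v u) (hi : ∀ u, ¬ r u u) :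
    ∃ U ⊆ S, S.card ≤ 2 * U.card ∧ ∀ u ∈ U, Even (U.filter (fun v => r u v)).card := by
  classical
  obtain ⟨U, h1, h2⟩ := gallai_half (V := {x // x ∈ S}) (fun a b => r a.1 b.1)
    (fun u v h => hs _ _ h) (fun u => hi _)
  refine ⟨U.map ⟨Subtype.val, Subtype.val_injective⟩, ?_, ?_, ?_⟩
  · intro a ha
    obtain ⟨b, _, rfl⟩ := Finset.mem_map.1 ha
    exact b.2
  · rw [Finset.card_map]
    simpa using h1
  · intro a ha
    obtain ⟨b, hb, rfl⟩ := Finset.mem_map.1 ha
    rw [Finset.filter_map, Finset.card_map]
    exact h2 b hb

/-- Two orders: ranks of the same parity on at least half of the elements. -/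
theorem parity_sub {α : Type*} [DecidableEq α] (S : Finset α) (f g : α → ℕ)
    (hf : Set.InjOn f S) (hg : Set.InjOn g S) :
    ∃ U ⊆ S, S.card ≤ 2 * U.card ∧ ∀ u ∈ U,
      Even ((U.filter (fun v => f v < f u)).card + (U.filter (fun v => g v < g u)).card) := by
  classical
  -- the inversion graph
  set r : α → α → Prop := fun u v => u ∈ S ∧ v ∈ S ∧ u ≠ v ∧
    ((f v < f u ∧ ¬ g v < g u) ∨ (¬ f v < f u ∧ g v < g u)) with hr
  have hs : ∀ u v, r u v → r v u := by
    rintro u v ⟨hu, hv, hne, h⟩
    have hfne : f u ≠ f v := fun h' => hne (hf hu hv h')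
    have hgne : g u ≠ g v := fun h' => hne (hg hu hv h')
    refine ⟨hv, hu, hne.symm, ?_⟩
    rcases h with ⟨h1, h2⟩ | ⟨h1, h2⟩
    · right
      constructor
      · omega
      · omega
    · left
      constructor
      · omega
      · omega
  have hi : ∀ u, ¬ r u u := fun u h => h.2.2.1 rfl
  obtain ⟨U, hUS, h1, h2⟩ := gallai_finset S r hs hi
  refine ⟨U, hUS, h1, ?_⟩
  intro u hu
  have h3 := h2 u hu
  set A : Finset α := U.filter (fun v => f v < f u) with hA
  set B : Finset α := U.filter (fun v => g v < g u) with hB
  have hfil : U.filter (fun v => r u v) = (A \ B) ∪ (B \ A) := by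
    ext v
    simp only [hr, hA, hB, Finset.mem_filter, Finset.mem_union, Finset.mem_sdiff]
    constructor
    · rintro ⟨hv, -, -, -, h⟩
      rcases h with ⟨h4, h5⟩ | ⟨h4, h5⟩
      · exact Or.inl ⟨⟨hv, h4⟩, fun h' => h5 h'.2⟩
      · exact Or.inr ⟨⟨hv, h5⟩, fun h' => h4 h'.2⟩
    · rintro (⟨⟨hv, h4⟩, h5⟩ | ⟨⟨hv, h4⟩, h5⟩)
      · refine ⟨hv, hUS hu, hUS hv, ?_, Or.inl ⟨h4, fun h' => h5 ⟨hv, h'⟩⟩⟩
        rintro rfl
        exact lt_irrefl _ h4
      · refine ⟨hv, hUS hu, hUS hv, ?_, Or.inr ⟨fun h' => h5 ⟨hv, h'⟩, h4⟩⟩
        rintro rfl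
        exact lt_irrefl _ h4
  rw [hfil, Finset.card_union_of_disjoint] at h3
  · have e1 : (A \ B).card + (A ∩ B).card = A.card := Finset.card_sdiff_add_card_inter A B
    have e2 : (B \ A).card + (B ∩ A).card = B.card := Finset.card_sdiff_add_card_inter B A
    rw [Finset.inter_comm B A] at e2
    rw [← e1, ← e2]
    have : (A \ B).card + (A ∩ B).card + ((B \ A).card + (A ∩ B).card)
        = ((A \ B).card + (B \ A).card) + 2 * (A ∩ B).card := by ring
    rw [this]
    exact h3.add (even_two_mul _)
  · rw [Finset.disjoint_left]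
    intro v hv1 hv2
    exact (Finset.mem_sdiff.1 hv1).2 (Finset.mem_sdiff.1 hv2).1

end Vale.Agent.P155.Gal
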