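import Vale.Agent.P155.F.Runs

/-!
# P155, TIGHT: an open component of the superposition of two matchings is a run
-/

namespace Vale.Agent.P155.SW

open Finset Vale.Agent.P155

section

variable {V₁ V₂ : Finset Pt} {ω : Conf}

/-- where the successor moves, it stays in `V₁ ∪ V₂` -/
theorem move_mem (h1 : IsPM V₁ ω.1) (h2 : IsPM V₂ ω.2) {u : Pt} (hu : suc ω u ≠ u) :
    u ∈ V₁ ∪ V₂ := by
  rw [mem_union]
  by_cases hw : White u
  · rw [suc_white hw] at hu
    left
    by_contra hc
    exact hu (h1.off _ hc)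
  · have hb : Black u := black_iff_not_white.2 hw
    rw [suc_black hb] at hu
    right
    by_contra hc
    exact hu (h2.off _ hc)

/-- the two partners are the successor and the predecessor -/
theorem partners (ω : Conf) (u : Pt) :
    (ω.1 u = suc ω u ∧ ω.2 u = pre ω u) ∨ (ω.1 u = pre ω u ∧ ω.2 u = suc ω u) := by
  by_cases hw : White u
  · left
    exact ⟨(suc_white hw).symm, (pre_white hw).symm⟩
  · have hb : Black u := black_iff_not_white.2 hw
    right
    exact ⟨(pre_black hb).symm, (suc_black hb).symm⟩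

/-- from an entrance the run reaches an exit -/
theorem exists_exit (h1 : IsPM V₁ ω.1) (h2 : IsPM V₂ ω.2) {z : Pt} (hz : pre ω z = z) :
    ∃ N, Run ω z N := by
  classical
  by_contra hno
  have hmv : ∀ j, suc ω ((suc ω)^[j] z) ≠ (suc ω)^[j] z := by
    intro j hj
    apply hno
    have hex : ∃ N, suc ω ((suc ω)^[N] z) = (suc ω)^[N] z := ⟨j, hj⟩
    exact ⟨Nat.find hex, fun i hi => Nat.find_min hex hi, Nat.find_spec hex⟩
  have hinj : ∀ i j, i < j → (suc ω)^[i] z ≠ (suc ω)^[j] z := by
    intro i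
    induction i with
    | zero =>
      intro j hj he
      obtain ⟨l, rfl⟩ : ∃ l, j = l + 1 := ⟨j - 1, by omega⟩
      rw [Function.iterate_succ_apply'] at he
      have h3 := pre_suc h1 h2 (hmv l)
      rw [← he] at h3
      simp only [Function.iterate_zero, id_eq] at h3 he
      rw [hz] at h3
      exact hmv l (by rw [← he, ← h3])
    | succ i ih =>
      intro j hj he
      obtain ⟨l, rfl⟩ : ∃ l, j = l + 1 := ⟨j - 1, by omega⟩
      rw [Function.iterate_succ_apply', Function.iterate_succ_apply'] at he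
      have h3 := pre_suc h1 h2 (hmv i)
      have h4 := pre_suc h1 h2 (hmv l)
      rw [he, h4] at h3
      exact ih l (by omega) h3.symm
  have hI : Function.Injective (fun j : ℕ => (suc ω)^[j] z) := by
    intro i j hij
    by_contra hne
    rcases Nat.lt_or_gt_of_ne hne with h | h
    · exact hinj i j h hij
    · exact hinj j i h hij.symm
  have hfin : (Set.range (fun j : ℕ => (suc ω)^[j] z)).Finite :=
    (V₁ ∪ V₂).finite_toSet.subset (by
      rintro _ ⟨j, rfl⟩
      exact mem_coe.2 (move_mem h1 h2 (hmv j)))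
  exact Set.infinite_range_of_injective hI hfin

/-- the run from an entrance covers the whole component -/
theorem run_cover (h1 : IsPM V₁ ω.1) (h2 : IsPM V₂ ω.2) {z : Pt} (hz : pre ω z = z) {N : ℕ}
    (hR : Run ω z N) (u : Pt) : Same ω z u ↔ ∃ j ≤ N, (suc ω)^[j] z = u := by
  constructor
  · intro h
    have key : ∀ a b, (∃ j ≤ N, (suc ω)^[j] z = a) → (b = ω.1 a ∨ b = ω.2 a) →
        ∃ j ≤ N, (suc ω)^[j] z = b := by
      rintro a b ⟨j, hj, rfl⟩ hb
      have hs : ∃ i ≤ N, (suc ω)^[i] z = suc ω ((suc ω)^[j] z) := by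
        rcases Nat.lt_or_ge j N with h3 | h3
        · exact ⟨j + 1, h3, Function.iterate_succ_apply' _ _ _⟩
        · have : j = N := by omega
          subst this
          exact ⟨j, le_rfl, hR.exit.symm⟩
      have hp : ∃ i ≤ N, (suc ω)^[i] z = pre ω ((suc ω)^[j] z) := by
        rcases Nat.eq_zero_or_pos j with h3 | h3
        · subst h3
          exact ⟨0, Nat.zero_le _, by simp [hz]⟩
        · obtain ⟨l, rfl⟩ : ∃ l, j = l + 1 := ⟨j - 1, by omega⟩
          refine ⟨l, by omega, ?_⟩
          rw [Function.iterate_succ_apply']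
          exact (pre_suc h1 h2 (hR.move l (by omega))).symm
      rcases partners ω ((suc ω)^[j] z) with ⟨e1, e2⟩ | ⟨e1, e2⟩
      · rcases hb with rfl | rfl
        · rw [e1]; exact hs
        · rw [e2]; exact hp
      · rcases hb with rfl | rfl
        · rw [e1]; exact hp
        · rw [e2]; exact hs
    induction h with
    | refl => exact ⟨0, Nat.zero_le _, rfl⟩
    | tail _ hbc ih => exact key _ _ ih hbc
  · rintro ⟨j, -, rfl⟩
    exact same_iter ω z j

/-- exchanging the two copies -/
theorem suc_swap (ω : Conf) (v : Pt) : suc (ω.2, ω.1) v = pre ω v := rfl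

theorem pre_swap (ω : Conf) (v : Pt) : pre (ω.2, ω.1) v = suc ω v := rfl

theorem same_swap {ω : Conf} {u v : Pt} (h : Same ω u v) : Same (ω.2, ω.1) u v := by
  induction h with
  | refl => exact Relation.ReflTransGen.refl
  | tail _ hbc ih => exact ih.tail hbc.symm

/-- **an open component is a run** -/
theorem run_of_open (h1 : IsPM V₁ ω.1) (h2 : IsPM V₂ ω.2) {z : Pt}
    (hz : suc ω z = z ∨ pre ω z = z) :
    ∃ v N, Run ω v N ∧ Same ω z v ∧ ∀ u, Same ω z u ↔ ∃ j ≤ N, (suc ω)^[j] v = u := by
  rcases hz with hz | hz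
  · obtain ⟨M, hM⟩ := exists_exit (ω := (ω.2, ω.1)) h2 h1 (z := z) hz
    set v : Pt := (suc (ω.2, ω.1))^[M] z with hv
    have hpv : pre ω v = v := hM.exit
    have hzv : Same ω z v := same_swap (same_iter (ω.2, ω.1) z M)
    obtain ⟨N, hN⟩ := exists_exit h1 h2 hpv
    refine ⟨v, N, hN, hzv, fun u => ?_⟩
    rw [← run_cover h1 h2 hpv hN u]
    exact ⟨fun h => same_trans (same_symm ⟨h1.invol, h2.invol⟩ hzv) h, fun h => same_trans hzv h⟩
  · obtain ⟨N, hN⟩ := exists_exit h1 h2 hz
    exact ⟨z, N, hN, same_refl _ _, fun u => run_cover h1 h2 hz hN u⟩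

end

end Vale.Agent.P155.SW
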