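import Vale.Agent.P155.F.ChMain
import Vale.Agent.P155.F.RunOf
import Vale.Agent.P155.F.Gallai

/-!
# P155, TIGHT (chain lemma): from two strands visiting `k` boxes to `TwoRuns` for a good subset
-/

namespace Vale.Agent.P155.SW

open Finset Vale.Agent.P155

/-- enumeration of a finite set in the order of an injective function -/
theorem exists_enum {α : Type*} [DecidableEq α] (U : Finset α) (f : α → ℕ) (hf : Set.InjOn f U) :
    ∃ e : Fin U.card → α, (∀ i, e i ∈ U) ∧ (∀ i j, i < j → f (e i) < f (e j)) ∧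
      (∀ u ∈ U, ∃ i, e i = u) := by
  have hc : (U.image f).card = U.card := card_image_of_injOn hf
  set o : Fin U.card ↪o ℕ := (U.image f).orderEmbOfFin hc with ho
  have h1 : ∀ i, ∃ u ∈ U, f u = o i := by
    intro i
    have := orderEmbOfFin_mem (U.image f) hc i
    rw [mem_image] at this
    exact this
  choose e heU hef using h1
  refine ⟨e, heU, fun i j hij => ?_, fun u hu => ?_⟩
  · rw [hef, hef]
    exact o.strictMono hij
  · have h2 : f u ∈ Set.range o := by
      rw [ho, range_orderEmbOfFin]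
      exact mem_coe.2 (mem_image_of_mem _ hu)
    obtain ⟨i, hi⟩ := h2
    exact ⟨i, hf (heU i) hu (by rw [hef, hi])⟩

/-- the rank of the `i`-th element is `i` -/
theorem rank_enum {α : Type*} [DecidableEq α] {U : Finset α} {f : α → ℕ} {n : ℕ} {e : Fin n → α}
    (he : ∀ i, e i ∈ U) (hm : ∀ i j, i < j → f (e i) < f (e j)) (hs : ∀ u ∈ U, ∃ i, e i = u)
    (i : Fin n) : (U.filter (fun v => f v < f (e i))).card = i := by
  have h1 : U.filter (fun v => f v < f (e i)) = (Iio i).image e := by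
    ext v
    rw [mem_filter, mem_image]
    constructor
    · rintro ⟨hv, hlt⟩
      obtain ⟨j, rfl⟩ := hs v hv
      refine ⟨j, ?_, rfl⟩
      rw [mem_Iio]
      by_contra hc
      rcases eq_or_lt_of_le (not_lt.1 hc) with h | h
      · rw [h] at hlt; exact lt_irrefl _ hlt
      · exact absurd hlt (not_lt.2 (hm i j h).le)
    · rintro ⟨j, hj, rfl⟩
      exact ⟨he j, hm j i (mem_Iio.1 hj)⟩
  have hinj : Function.Injective e := by
    intro a b hab
    by_contra hne
    rcases lt_or_gt_of_ne hne with h | h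
    · exact absurd (hm a b h) (by rw [hab]; exact lt_irrefl _)
    · exact absurd (hm b a h) (by rw [hab]; exact lt_irrefl _)
  rw [h1, card_image_of_injective _ hinj, Fin.card_Iio]

/-- the enumeration in one order and the parity-good permutation giving the other one -/
theorem exists_order {α : Type*} [DecidableEq α] (S : Finset α) (f g : α → ℕ)
    (hf : Set.InjOn f S) (hg : Set.InjOn g S) :
    ∃ (n : ℕ) (e : Fin n → α) (τ : Equiv.Perm (Fin n)), S.card ≤ 2 * n ∧ n ≤ S.card ∧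
      Function.Injective e ∧ (∀ i, e i ∈ S) ∧ (∀ i j, i < j → f (e i) < f (e j)) ∧
      (∀ i j, i < j → g (e (τ i)) < g (e (τ j))) ∧
      (∀ i : Fin n, (Even ((τ i : Fin n) : ℕ) ↔ Even (i : ℕ))) := by
  obtain ⟨U, hUS, hc, hev⟩ := Gal.parity_sub S f g hf hg
  obtain ⟨e, he, hm, hs⟩ := exists_enum U f (hf.mono hUS)
  obtain ⟨e', he', hm', hs'⟩ := exists_enum U g (hg.mono hUS)
  have hinj : Function.Injective e := by
    intro a b hab
    by_contra hne
    rcases lt_or_gt_of_ne hne with h | h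
    · exact absurd (hm a b h) (by rw [hab]; exact lt_irrefl _)
    · exact absurd (hm b a h) (by rw [hab]; exact lt_irrefl _)
  have hinj' : Function.Injective e' := by
    intro a b hab
    by_contra hne
    rcases lt_or_gt_of_ne hne with h | h
    · exact absurd (hm' a b h) (by rw [hab]; exact lt_irrefl _)
    · exact absurd (hm' b a h) (by rw [hab]; exact lt_irrefl _)
  have hτ : ∀ i, ∃ j, e j = e' i := fun i => hs _ (he' i)
  choose t ht using hτ
  have htinj : Function.Injective t := by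
    intro a b hab
    apply hinj'
    rw [← ht a, ← ht b, hab]
  set τ : Equiv.Perm (Fin U.card) := Equiv.ofBijective t (Finite.injective_iff_bijective.1 htinj)
    with hτ'
  have hτt : ∀ i, e (τ i) = e' i := fun i => ht i
  refine ⟨U.card, e, τ, hc, card_le_card hUS, hinj, fun i => hUS (he i), hm, ?_, ?_⟩
  · intro i j hij
    rw [hτt, hτt]
    exact hm' i j hij
  · intro i
    have h1 := hev (e (τ i)) (he _)
    rw [rank_enum he hm hs (τ i)] at h1
    have h2 := rank_enum he' hm' hs' i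
    rw [← hτt i] at h2
    rw [h2, Nat.even_add] at h1
    exact h1

/-- two different strands (open components) visiting all regions `A0` -/
def TwoVisit {k : ℕ} (A0 : Fin k → Finset Pt) (ω : Conf) : Prop :=
  ∃ p q : Pt, (suc ω p = p ∨ pre ω p = p) ∧ (suc ω q = q ∨ pre ω q = q) ∧ ¬ Same ω p q ∧
    ∀ i, (∃ u ∈ A0 i, Same ω p u) ∧ (∃ u ∈ A0 i, Same ω q u)

section

variable {V₁ V₂ D : Finset Pt} {ω : Conf} {k : ℕ} {A0 A A' : Fin k → Finset Pt}

/-- the successor of a point of both vertex sets is a neighbour -/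
theorem adj_suc (h1 : IsPM V₁ ω.1) (h2 : IsPM V₂ ω.2) {u : Pt} (hu1 : u ∈ V₁) (hu2 : u ∈ V₂) :
    Adj u (suc ω u) ∧ (suc ω u ∈ V₁ ∨ suc ω u ∈ V₂) := by
  by_cases hw : White u
  · rw [suc_white hw]
    exact ⟨h1.adj _ hu1, Or.inl (pm_mem h1 hu1)⟩
  · have hb : Black u := black_iff_not_white.2 hw
    rw [suc_black hb]
    exact ⟨h2.adj _ hu2, Or.inr (pm_mem h2 hu2)⟩

theorem ne_of_adj {u v : Pt} (h : Adj u v) : v ≠ u := by
  rintro rfl
  unfold Adj at h
  simp at h

/-- points of the regions are three steps away from the exit -/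
theorem visit_step (hR : Regions V₁ V₂ D A A') (h0 : ∀ i, A0 i ⊆ A i)
    (h0' : ∀ i, ∀ u ∈ A0 i, ∀ v, Adj u v → v ∈ A i) (h1 : IsPM V₁ ω.1) (h2 : IsPM V₂ ω.2)
    {i : Fin k} {u : Pt} (hu : u ∈ A0 i) :
    suc ω u ∈ A i ∧ suc ω u ≠ u ∧ suc ω (suc ω u) ≠ suc ω u ∧
      suc ω (suc ω (suc ω u)) ≠ suc ω (suc ω u) := by
  have a1 := adj_suc h1 h2 (hR.sub1 i (h0 i hu)) (hR.sub2 i (h0 i hu))
  have m1 : suc ω u ∈ A i := h0' i u hu _ a1.1
  have a2 := adj_suc h1 h2 (hR.sub1 i m1) (hR.sub2 i m1)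
  have m2 : suc ω (suc ω u) ∈ A' i := hR.nbr i _ m1 _ a2.1
  have hD : suc ω (suc ω u) ∉ D := fun h =>
    (disjoint_left.1 (hR.farD i)) m2 (mem_nb0_of_mem h)
  have hv : suc ω (suc ω u) ∈ V₁ ∧ suc ω (suc ω u) ∈ V₂ := by
    rcases a2.2 with h | h
    · refine ⟨h, ?_⟩
      by_contra hc
      exact hD (hR.diff1 _ h hc)
    · refine ⟨?_, h⟩
      by_contra hc
      exact hD (hR.diff2 _ h hc)
  have a3 := adj_suc h1 h2 hv.1 hv.2
  exact ⟨m1, ne_of_adj a1.1, ne_of_adj a2.1, ne_of_adj a3.1⟩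

/-- times of the visits of a strand -/
theorem exists_times (hR : Regions V₁ V₂ D A A') (h0 : ∀ i, A0 i ⊆ A i)
    (h0' : ∀ i, ∀ u ∈ A0 i, ∀ v, Adj u v → v ∈ A i) (h1 : IsPM V₁ ω.1) (h2 : IsPM V₂ ω.2)
    {v : Pt} {N : ℕ} (hrun : Run ω v N) (hv : ∀ i, ∃ u ∈ A0 i, ∃ j ≤ N, (suc ω)^[j] v = u) :
    ∃ f : Fin k → ℕ, Function.Injective f ∧ (∀ i j, f i < f j → f i + 1 < f j) ∧
      (∀ i, f i + 3 ≤ N) ∧ (∀ i, (suc ω)^[f i] v ∈ A i ∧ (suc ω)^[f i + 1] v ∈ A i) := by
  have h3 : ∀ i, ∃ j, j ≤ N ∧ (suc ω)^[j] v ∈ A0 i := by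
    intro i
    obtain ⟨u, hu, j, hj, rfl⟩ := hv i
    exact ⟨j, hj, hu⟩
  choose f hfN hfA using h3
  have hmem : ∀ i, (suc ω)^[f i] v ∈ A i ∧ (suc ω)^[f i + 1] v ∈ A i := by
    intro i
    refine ⟨h0 i (hfA i), ?_⟩
    rw [Function.iterate_succ_apply']
    exact (visit_step hR h0 h0' h1 h2 (hfA i)).1
  have hAd : ∀ i j, ∀ x, x ∈ A i → x ∈ A j → i = j := by
    intro i j x hi hj
    by_contra hne
    exact (disjoint_left.1 (hR.disj i j hne)) (hR.sub i hi) (hR.sub j hj)
  refine ⟨f, ?_, ?_, ?_, hmem⟩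
  · intro i j hij
    have := (hmem i).1
    rw [hij] at this
    exact hAd i j _ this (hmem j).1
  · intro i j hij
    by_contra hc
    have he : f i + 1 = f j := by omega
    have := (hmem i).2
    rw [he] at this
    have hh := hAd i j _ this (hmem j).1
    rw [hh] at hij
    exact lt_irrefl _ hij
  · intro i
    obtain ⟨-, s1, s2, s3⟩ := visit_step hR h0 h0' h1 h2 (hfA i)
    by_contra hc
    have h4 := hfN i
    have h5 : f i = N ∨ f i + 1 = N ∨ f i + 2 = N := by omega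
    have e := hrun.exit
    rcases h5 with h5 | h5 | h5
    · rw [← h5] at e
      exact s1 e
    · rw [← h5, Function.iterate_succ_apply'] at e
      exact s2 e
    · rw [← h5, Function.iterate_succ_apply', Function.iterate_succ_apply'] at e
      exact s3 e

/-- **from visits to `TwoRuns`** -/
theorem exists_twoRuns (hR : Regions V₁ V₂ D A A') (h0 : ∀ i, A0 i ⊆ A i)
    (h0' : ∀ i, ∀ u ∈ A0 i, ∀ v, Adj u v → v ∈ A i) (h1 : IsPM V₁ ω.1) (h2 : IsPM V₂ ω.2)
    (hT : TwoVisit A0 ω) :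
    ∃ (n : ℕ) (e : Fin n → Fin k) (τ : Equiv.Perm (Fin n)), k ≤ 2 * n ∧ n ≤ k ∧
      Function.Injective e ∧ (∀ i : Fin n, (Even ((τ i : Fin n) : ℕ) ↔ Even (i : ℕ))) ∧
      TwoRuns (fun i => A (e i)) (fun r => if r then τ else 1) ω := by
  classical
  obtain ⟨p, q, hp, hq, hpq, hvis⟩ := hT
  obtain ⟨v, N, hrun, hpv, hcov⟩ := run_of_open h1 h2 hp
  obtain ⟨v', N', hrun', hqv, hcov'⟩ := run_of_open h1 h2 hq
  obtain ⟨f, hfi, hfg, hfN, hfA⟩ := exists_times hR h0 h0' h1 h2 hrun (fun i => by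
    obtain ⟨u, hu, hs⟩ := (hvis i).1
    exact ⟨u, hu, (hcov u).1 hs⟩)
  obtain ⟨g, hgi, hgg, hgN, hgA⟩ := exists_times hR h0 h0' h1 h2 hrun' (fun i => by
    obtain ⟨u, hu, hs⟩ := (hvis i).2
    exact ⟨u, hu, (hcov' u).1 hs⟩)
  obtain ⟨n, e, τ, hn, hn', hei, -, hef, heg, hev⟩ :=
    exists_order (univ : Finset (Fin k)) f g hfi.injOn hgi.injOn
  rw [card_univ, Fintype.card_fin] at hn hn'
  refine ⟨n, e, τ, hn, hn', hei, hev, ?_⟩
  refine ⟨fun r => if r then v' else v, fun r => if r then N' else N,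
    fun r i => if h : i < n then (if r then g (e (τ ⟨i, h⟩)) else f (e ⟨i, h⟩)) else 0,
    ?_, ?_, ?_, ?_, ?_⟩
  · intro r
    cases r
    · exact hrun
    · exact hrun'
  · intro i hi j hj he
    apply hpq
    have s1 : Same ω p ((suc ω)^[i] v) := (hcov _).2 ⟨i, hi, rfl⟩
    have s2 : Same ω q ((suc ω)^[j] v') := (hcov' _).2 ⟨j, hj, rfl⟩
    have he' : (suc ω)^[i] v = (suc ω)^[j] v' := he
    rw [he'] at s1
    exact same_trans s1 (same_symm ⟨h1.invol, h2.invol⟩ s2)
  · intro r i hi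
    have hi' : i < n := by omega
    have hlt : (⟨i, hi'⟩ : Fin n) < ⟨i + 1, hi⟩ := by
      rw [Fin.lt_def]; simp
    cases r
    · simp only [hi, hi', dif_pos, Bool.false_eq_true, if_false]
      exact hfg _ _ (hef _ _ hlt)
    · simp only [hi, hi', dif_pos, if_true]
      exact hgg _ _ (heg _ _ hlt)
  · intro r i hi
    cases r
    · simp only [hi, dif_pos, Bool.false_eq_true, if_false]
      exact hfN _
    · simp only [hi, dif_pos, if_true]
      exact hgN _
  · intro r i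
    cases r
    · simp only [i.2, dif_pos, Bool.false_eq_true, if_false]
      exact hfA _
    · simp only [i.2, dif_pos, if_true]
      exact hgA _

end

end Vale.Agent.P155.SW
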