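import Vale.Agent.P155.F.ChOrder
import Vale.Agent.P155.E1.Glue
import Vale.Agent.P155.E.Prob

/-!
# P155, TIGHT (chain lemma): probabilistic form
-/

namespace Vale.Agent.P155.SW

open Finset Vale.Agent.P155

/-- the configuration restricted to the vertex set `B`: what remains unexplored when the outside of
`B` has been revealed. Its open components are the sub-arcs (strands) in `B`. -/
noncomputable def res (V B : Finset Pt) (ω : Conf) : Conf :=
  (E1.cutTo (Vin V B ω.1) ω.1, E1.cutTo (Vin V B ω.2) ω.2)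

theorem Vin_glue2 {V B : Finset Pt} {ω p : Conf} (hω : ω ∈ DD V)
    (hp : p ∈ PM (Vin V B ω.1) ×ˢ PM (Vin V B ω.2)) :
    Vin V B (E1.glue2 V B ω p).1 = Vin V B ω.1 ∧ Vin V B (E1.glue2 V B ω p).2 = Vin V B ω.2 := by
  have h1 := mem_PM.1 (mem_product.1 hω).1
  have h2 := mem_PM.1 (mem_product.1 hω).2
  have p1 := mem_PM.1 (mem_product.1 hp).1
  have p2 := mem_PM.1 (mem_product.1 hp).2
  exact ⟨E1.Vin_congr h1 (E1.glue_PM h1 p1) (fun v hv => E1.glue_not hv),
    E1.Vin_congr h2 (E1.glue_PM h2 p2) (fun v hv => E1.glue_not hv)⟩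

theorem cutTo_glue {S : Finset Pt} {m m' : Pt → Pt} (hm' : IsPM S m') :
    E1.cutTo S (E1.glue S m m') = m' := by
  funext v
  unfold E1.cutTo
  by_cases hv : v ∈ S
  · rw [if_pos hv, E1.glue_mem hv]
  · rw [if_neg hv, hm'.off v hv]

theorem res_glue2 {V B : Finset Pt} {ω p : Conf} (hω : ω ∈ DD V)
    (hp : p ∈ PM (Vin V B ω.1) ×ˢ PM (Vin V B ω.2)) : res V B (E1.glue2 V B ω p) = p := by
  obtain ⟨e1, e2⟩ := Vin_glue2 hω hp
  unfold res
  rw [e1, e2]
  exact Prod.ext (cutTo_glue (mem_PM.1 (mem_product.1 hp).1))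
    (cutTo_glue (mem_PM.1 (mem_product.1 hp).2))

open Classical in
/-- a uniform bound of the conditional probabilities given the outside of `B` -/
theorem cond_le (V B : Finset Pt) (p : Finset Pt → Finset Pt → Conf → Prop) (c : ℝ) (hc : 0 ≤ c)
    (h : ∀ ω ∈ DD V, (((PM (Vin V B ω.1) ×ˢ PM (Vin V B ω.2)).filter
      (p (Vin V B ω.1) (Vin V B ω.2))).card : ℝ) ≤
        c * ((Z (Vin V B ω.1) : ℝ) * Z (Vin V B ω.2))) :
    Pr V (fun ω => p (Vin V B ω.1) (Vin V B ω.2) (res V B ω)) ≤ c := by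
  unfold Pr
  rw [← J.Ex_cEx (E.isExpl_out V (B : Set Pt))]
  apply J.Ex_le_const hc
  intro ω hω
  rw [E1.cEx_outside_eq hω]
  have h1 : J.avg (PM (Vin V B ω.1) ×ˢ PM (Vin V B ω.2)) (fun q =>
      Set.indicator {ω | p (Vin V B ω.1) (Vin V B ω.2) (res V B ω)} (fun _ => (1 : ℝ))
        (E1.glue2 V B ω q)) =
      J.avg (PM (Vin V B ω.1) ×ˢ PM (Vin V B ω.2)) (fun q =>
        if p (Vin V B ω.1) (Vin V B ω.2) q then (1 : ℝ) else 0) := by
    apply J.avg_congr
    intro q hq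
    obtain ⟨e1, e2⟩ := Vin_glue2 hω hq
    simp only [Set.indicator_apply, Set.mem_ofPred_eq, e1, e2, res_glue2 hω hq]
  rw [h1, J.avg_real, card_product]
  have hZ1 : 0 < Z (Vin V B ω.1) :=
    card_pos.2 (E1.PM_Vin_nonempty (mem_PM.1 (mem_product.1 hω).1))
  have hZ2 : 0 < Z (Vin V B ω.2) :=
    card_pos.2 (E1.PM_Vin_nonempty (mem_PM.1 (mem_product.1 hω).2))
  have hsum : ∑ q ∈ PM (Vin V B ω.1) ×ˢ PM (Vin V B ω.2),
      (if p (Vin V B ω.1) (Vin V B ω.2) q then (1 : ℝ) else 0) =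
      ((PM (Vin V B ω.1) ×ˢ PM (Vin V B ω.2)).filter
        (p (Vin V B ω.1) (Vin V B ω.2))).card := by
    rw [← sum_filter, sum_const, nsmul_eq_mul, mul_one]
  rw [hsum]
  have hh := h ω hω
  have hpos : (0 : ℝ) < ((PM (Vin V B ω.1)).card * (PM (Vin V B ω.2)).card : ℕ) := by
    have := Nat.mul_pos hZ1 hZ2
    exact_mod_cast this
  rw [inv_mul_le_iff₀ hpos]
  calc _ ≤ c * ((Z (Vin V B ω.1) : ℝ) * Z (Vin V B ω.2)) := hh
    _ = _ := by unfold Z; push_cast; ring

/-- a fixed point of one of the two restricted matchings is an end of its strand -/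
theorem end_of_fixed {ω : Conf} {z : Pt} (h : ω.1 z = z ∨ ω.2 z = z) :
    suc ω z = z ∨ pre ω z = z := by
  rcases partners ω z with ⟨e1, e2⟩ | ⟨e1, e2⟩
  · rcases h with h | h
    · exact Or.inl (e1 ▸ h)
    · exact Or.inr (e2 ▸ h)
  · rcases h with h | h
    · exact Or.inr (e1 ▸ h)
    · exact Or.inl (e2 ▸ h)

/-- the strand in `B` of a point whose loop leaves `B` is open -/
theorem open_of_leaves {V B : Finset Pt} {ω : Conf} {u p : Pt}
    (hs : Same ω u p) (hp : p ∉ B) :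
    ∃ z, Same (res V B ω) u z ∧ (suc (res V B ω) z = z ∨ pre (res V B ω) z = z) := by
  classical
  by_contra hno
  push Not at hno
  have hfix : ∀ z, Same (res V B ω) u z → (res V B ω).1 z ≠ z ∧ (res V B ω).2 z ≠ z := by
    intro z hz
    have h1 := hno z hz
    constructor
    · intro h
      rcases end_of_fixed (Or.inl h) with h2 | h2
      · exact h1.1 h2
      · exact h1.2 h2
    · intro h
      rcases end_of_fixed (Or.inr h) with h2 | h2
      · exact h1.1 h2
      · exact h1.2 h2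
  have hmem : ∀ z, Same (res V B ω) u z → z ∈ Vin V B ω.1 ∧ z ∈ Vin V B ω.2 ∧
      (res V B ω).1 z = ω.1 z ∧ (res V B ω).2 z = ω.2 z := by
    intro z hz
    obtain ⟨h1, h2⟩ := hfix z hz
    have m1 : z ∈ Vin V B ω.1 := by
      by_contra hc
      apply h1
      show E1.cutTo _ _ _ = _
      unfold E1.cutTo
      rw [if_neg hc]
    have m2 : z ∈ Vin V B ω.2 := by
      by_contra hc
      apply h2
      show E1.cutTo _ _ _ = _
      unfold E1.cutTo
      rw [if_neg hc]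
    refine ⟨m1, m2, ?_, ?_⟩
    · show E1.cutTo _ _ _ = _
      unfold E1.cutTo
      rw [if_pos m1]
    · show E1.cutTo _ _ _ = _
      unfold E1.cutTo
      rw [if_pos m2]
  have hall : ∀ z, Same ω u z → Same (res V B ω) u z := by
    intro z hz
    induction hz with
    | refl => exact same_refl _ _
    | @tail b c _ hbc ih =>
      obtain ⟨-, -, e1, e2⟩ := hmem b ih
      rcases hbc with rfl | rfl
      · rw [← e1]; exact same_trans ih (same_fst _ _)
      · rw [← e2]; exact same_trans ih (same_snd _ _)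
  have := (hmem p (hall p hs)).1
  rw [E1.mem_Vin] at this
  exact hp this.2.1

/-- inner boundary of a vertex set -/
def ibd (B : Finset Pt) : Finset Pt := B.filter (fun z => ∃ w ∈ nbrs z, w ∉ B)

theorem mem_ibd {B : Finset Pt} {z : Pt} : z ∈ ibd B ↔ z ∈ B ∧ ∃ w ∈ nbrs z, w ∉ B := by
  unfold ibd; rw [mem_filter]

/-- The geometry: regions `A0 i ⊂ A i ⊂ A' i` (each one containing the neighbours of the previous
one), pairwise disjoint and away from the boundary of `B`. -/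
structure GeoReg {k : ℕ} (V B : Finset Pt) (A0 A A' : Fin k → Finset Pt) : Prop where
  sub0 : ∀ i, A0 i ⊆ A i
  nbr0 : ∀ i, ∀ u ∈ A0 i, ∀ v, Adj u v → v ∈ A i
  sub : ∀ i, A i ⊆ A' i
  nbr : ∀ i, ∀ u ∈ A i, ∀ v, Adj u v → v ∈ A' i
  disj : ∀ i j, i ≠ j → Disjoint (A' i) (A' j)
  inV : ∀ i, A' i ⊆ V
  inB : ∀ i, A' i ⊆ B
  far : ∀ i, Disjoint (A' i) (nb0 (ibd B))

theorem GeoReg.mem_Vin {k : ℕ} {V B : Finset Pt} {A0 A A' : Fin k → Finset Pt}
    (hG : GeoReg V B A0 A A') {m : Pt → Pt} (hm : IsPM V m) {i : Fin k} {u : Pt} (hu : u ∈ A' i) :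
    u ∈ Vin V B m := by
  rw [E1.mem_Vin]
  refine ⟨hG.inV i hu, hG.inB i hu, ?_⟩
  by_contra hc
  have h1 : u ∈ ibd B := mem_ibd.2 ⟨hG.inB i hu, m u, mem_nbrs.2 (hm.adj _ (hG.inV i hu)), hc⟩
  exact (disjoint_left.1 (hG.far i)) hu (mem_nb0_of_mem h1)

theorem GeoReg.regions {k : ℕ} {V B : Finset Pt} {A0 A A' : Fin k → Finset Pt}
    (hG : GeoReg V B A0 A A') {m₁ m₂ : Pt → Pt} (h1 : IsPM V m₁) (h2 : IsPM V m₂) :
    Regions (Vin V B m₁) (Vin V B m₂) (ibd B) A A' where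
  sub1 i u hu := hG.mem_Vin h1 (hG.sub i hu)
  sub2 i u hu := hG.mem_Vin h2 (hG.sub i hu)
  sub := hG.sub
  nbr := hG.nbr
  disj := hG.disj
  farD := hG.far
  diff1 z hz hz' := by
    rw [E1.mem_Vin] at hz hz'
    refine mem_ibd.2 ⟨hz.2.1, m₂ z, mem_nbrs.2 (h2.adj _ hz.1), ?_⟩
    exact fun h => hz' ⟨hz.1, hz.2.1, h⟩
  diff2 z hz hz' := by
    rw [E1.mem_Vin] at hz hz'
    refine mem_ibd.2 ⟨hz.2.1, m₁ z, mem_nbrs.2 (h1.adj _ hz.1), ?_⟩
    exact fun h => hz' ⟨hz.1, hz.2.1, h⟩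

/-- sub-families of regions -/
theorem Regions.comp {k n : ℕ} {V₁ V₂ D : Finset Pt} {A A' : Fin k → Finset Pt}
    (hR : Regions V₁ V₂ D A A') (e : Fin n → Fin k) (he : Function.Injective e) :
    Regions V₁ V₂ D (fun i => A (e i)) (fun i => A' (e i)) where
  sub1 i := hR.sub1 (e i)
  sub2 i := hR.sub2 (e i)
  sub i := hR.sub (e i)
  nbr i := hR.nbr (e i)
  disj i j hij := hR.disj (e i) (e j) (fun h => hij (he h))
  farD i := hR.farD (e i)
  diff1 := hR.diff1
  diff2 := hR.diff2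

/-- probability of `TwoRuns` in a given parity-good order type -/
theorem pr_twoRuns {n : ℕ} {V B : Finset Pt} {A0 A A' : Fin n → Finset Pt}
    (hG : GeoReg V B A0 A A') (Good : Finset Pt → Prop) {β a : ℝ} (hβ0 : 0 ≤ β)
    (ha : ∀ i, ((A i).card : ℝ) * (A' i).card ≤ a)
    (hβ : ∀ W, Good W →
      (∀ x ex, Adm true W A (ibd B) x ex → (Z (W \ XS x ex) : ℝ) ≤ β * Z W) ∧
      (∀ x ex, Adm false W A' (ibd B) x ex → (Z (W \ XS x ex) : ℝ) ≤ β * Z W))
    (τ : Equiv.Perm (Fin n)) (hτ : ∀ j : Fin n, (Even ((τ j : Fin n) : ℕ) ↔ Even (j : ℕ))) :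
    Pr V (fun ω => (Good (Vin V B ω.1) ∧ Good (Vin V B ω.2)) ∧
      TwoRuns A (fun r => if r then τ else 1) (res V B ω)) ≤
      a ^ (2 * n) * (5 * (ibd B).card + 1) ^ 4 * 16 * β ^ 2 := by
  classical
  set M : ℝ := a ^ (2 * n) * (5 * ((ibd B).card : ℝ) + 1) ^ 4 * 16 * β ^ 2 with hM
  have hM0 : 0 ≤ M := by
    have : (0 : ℝ) ≤ a ^ (2 * n) := by rw [pow_mul]; positivity
    rw [hM]; positivity
  obtain ⟨pI, hpI⟩ : ∃ pI : Finset Pt → Finset Pt → Conf → Prop, ∀ V₁ V₂ η, pI V₁ V₂ η ↔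
    (Good V₁ ∧ Good V₂) ∧ TwoRuns A (fun r => if r then τ else 1) η :=
    ⟨_, fun _ _ _ => Iff.rfl⟩
  have hgoal : Pr V (fun ω => pI (Vin V B ω.1) (Vin V B ω.2) (res V B ω)) ≤ M := by
    apply cond_le V B pI M hM0
    intro ω hω
    have h1 := mem_PM.1 (mem_product.1 hω).1
    have h2 := mem_PM.1 (mem_product.1 hω).2
    set V₁ := Vin V B ω.1 with hV₁
    set V₂ := Vin V B ω.2 with hV₂
    by_cases hg : Good V₁ ∧ Good V₂
    · obtain ⟨hg1, hg2⟩ := hg
      refine le_trans (b := (((PM V₁ ×ˢ PM V₂).filter (fun ω => TwoRuns A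
            (fun r => if r then τ else 1) ω)).card : ℝ)) ?_ ?_
      · refine Nat.cast_le.2 (card_le_card ?_)
        intro η hη
        rw [mem_filter, hpI] at hη
        exact mem_filter.2 ⟨hη.1, hη.2.2⟩
      have hb1 := (hβ V₁ hg1).1
      have hb2 := (hβ V₂ hg2).2
      have hZ10 : (0 : ℝ) ≤ β * Z V₁ := by positivity
      have hZ20 : (0 : ℝ) ≤ β * Z V₂ := by positivity
      have key := ch_card_le (hG.regions h1 h2)
        (fun r => if r then τ else 1) (by
          intro r j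
          cases r
          · simp
          · simpa using hτ j) ⌊β * Z V₁⌋₊ ⌊β * Z V₂⌋₊
        (fun x ex hA => Nat.le_floor (hb1 x ex hA)) (fun x ex hA => Nat.le_floor (hb2 x ex hA))
      have key' : (((PM V₁ ×ˢ PM V₂).filter (fun ω => TwoRuns A
            (fun r => if r then τ else 1) ω)).card : ℝ) ≤
          ((∏ j, ((A j).card * (A' j).card : ℝ) ^ 2) *
            (5 * ((ibd B).card : ℝ) + 1) ^ 4) * ((⌊β * Z V₁⌋₊ : ℝ) * (16 * (⌊β * Z V₂⌋₊ : ℝ))) := by
        exact_mod_cast key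
      refine key'.trans ?_
      have hprod : ∏ j, ((A j).card * (A' j).card : ℝ) ^ 2 ≤ a ^ (2 * n) := by
        calc ∏ j, ((A j).card * (A' j).card : ℝ) ^ 2
            ≤ ∏ _j : Fin n, a ^ 2 := by
              apply prod_le_prod
              · intro j _; positivity
              · intro j _
                exact pow_le_pow_left₀ (by positivity) (ha _) 2
          _ = a ^ (2 * n) := by rw [prod_const, card_univ, Fintype.card_fin, ← pow_mul]
      calc _ ≤ (a ^ (2 * n) * (5 * ((ibd B).card : ℝ) + 1) ^ 4) *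
            ((β * Z V₁) * (16 * (β * Z V₂))) := by
            have : (0 : ℝ) ≤ a ^ (2 * n) := by rw [pow_mul]; positivity
            gcongr
            · exact Nat.floor_le hZ10
            · exact Nat.floor_le hZ20
        _ = M * ((Z V₁ : ℝ) * Z V₂) := by rw [hM]; ring
    · refine le_trans (b := 0) (le_of_eq ?_) (by positivity)
      rw [Nat.cast_eq_zero, card_eq_zero]
      apply eq_empty_of_forall_notMem
      intro η hη
      rw [mem_filter, hpI] at hη
      exact hg hη.2.1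
  refine le_trans (E.Pr_mono ?_) hgoal
  intro ω _ h
  exact (hpI _ _ _).2 h

theorem GeoReg.comp {k n : ℕ} {V B : Finset Pt} {A0 A A' : Fin k → Finset Pt}
    (hG : GeoReg V B A0 A A') (e : Fin n → Fin k) (he : Function.Injective e) :
    GeoReg V B (fun i => A0 (e i)) (fun i => A (e i)) (fun i => A' (e i)) where
  sub0 i := hG.sub0 (e i)
  nbr0 i := hG.nbr0 (e i)
  sub i := hG.sub (e i)
  nbr i := hG.nbr (e i)
  disj i j hij := hG.disj (e i) (e j) (fun h => hij (he h))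
  inV i := hG.inV (e i)
  inB i := hG.inB (e i)
  far i := hG.far (e i)

/-- the order types of a configuration with two strands visiting all regions -/
theorem twoVisit_types {k : ℕ} {V B : Finset Pt} {A0 A A' : Fin k → Finset Pt}
    (hG : GeoReg V B A0 A A') {ω : Conf} (hω : ω ∈ DD V) (hT : TwoVisit A0 (res V B ω)) :
    ∃ (n : ℕ) (e : Fin n → Fin k) (τ : Equiv.Perm (Fin n)), k ≤ 2 * n ∧ n ≤ k ∧
      Function.Injective e ∧ (∀ i : Fin n, (Even ((τ i : Fin n) : ℕ) ↔ Even (i : ℕ))) ∧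
      TwoRuns (fun i => A (e i)) (fun r => if r then τ else 1) (res V B ω) := by
  have h1 := mem_PM.1 (mem_product.1 hω).1
  have h2 := mem_PM.1 (mem_product.1 hω).2
  exact exists_twoRuns (hG.regions h1 h2)
    (ω := res V B ω) hG.sub0 hG.nbr0
    (E1.cutTo_PM h1 (fun v hv => (E1.mem_Vin.1 hv).1) (fun _ hv => E1.Vin_closed h1 hv))
    (E1.cutTo_PM h2 (fun v hv => (E1.mem_Vin.1 hv).1) (fun _ hv => E1.Vin_closed h2 hv)) hT

/-- index set of the order types -/
abbrev OT (k : ℕ) := Σ n : Fin (k + 1), (Fin n → Fin k) × Equiv.Perm (Fin n)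

theorem card_OT (k : ℕ) : Fintype.card (OT k) ≤ (k + 1) * k ^ k * k.factorial := by
  classical
  rw [Fintype.card_sigma]
  calc _ ≤ ∑ _n : Fin (k + 1), k ^ k * k.factorial := by
        apply sum_le_sum
        intro n _
        rw [Fintype.card_prod, Fintype.card_fun, Fintype.card_perm, Fintype.card_fin,
          Fintype.card_fin]
        have hn : (n : ℕ) ≤ k := by have := n.2; omega
        refine Nat.mul_le_mul ?_ (Nat.factorial_le hn)
        rcases Nat.eq_zero_or_pos k with hk | hk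
        · have hn0 : (n : ℕ) = 0 := by omega
          rw [hn0, hk]
        · exact Nat.pow_le_pow_right hk hn
    _ = _ := by rw [sum_const, card_univ, Fintype.card_fin, smul_eq_mul, mul_assoc]

/-- good order types -/
def OT.Ok {k : ℕ} (i : OT k) : Prop :=
  k ≤ 2 * (i.1 : ℕ) ∧ Function.Injective i.2.1 ∧
    (∀ j : Fin i.1, (Even ((i.2.2 j : Fin i.1) : ℕ) ↔ Even (j : ℕ)))

/-- **Chain lemma, probabilistic form.** `Good W` is any property of the vertex set `W` (the
unexplored vertices of one copy) implying the bound `β` for the monomer ratios of all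
sub-families of at least half of the regions. -/
theorem pr_twoVisit {k : ℕ} {V B : Finset Pt} {A0 A A' : Fin k → Finset Pt}
    (hG : GeoReg V B A0 A A') (Good : Finset Pt → Prop) {β a : ℝ} (hβ0 : 0 ≤ β) (ha1 : 1 ≤ a)
    (ha : ∀ i, ((A i).card : ℝ) * (A' i).card ≤ a)
    (hβ : ∀ W, Good W → ∀ (n : ℕ) (e : Fin n → Fin k), Function.Injective e → k ≤ 2 * n → n ≤ k →
      (∀ x ex, Adm true W (fun i => A (e i)) (ibd B) x ex → (Z (W \ XS x ex) : ℝ) ≤ β * Z W) ∧
      (∀ x ex, Adm false W (fun i => A' (e i)) (ibd B) x ex →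
        (Z (W \ XS x ex) : ℝ) ≤ β * Z W)) :
    Pr V (fun ω => (Good (Vin V B ω.1) ∧ Good (Vin V B ω.2)) ∧ TwoVisit A0 (res V B ω)) ≤
      ((k + 1 : ℕ) * k ^ k * k.factorial : ℝ) *
        (a ^ (2 * k) * (5 * (ibd B).card + 1) ^ 4 * 16 * β ^ 2) := by
  classical
  set M : ℝ := a ^ (2 * k) * (5 * ((ibd B).card : ℝ) + 1) ^ 4 * 16 * β ^ 2 with hM
  have ha0 : (0 : ℝ) ≤ a := le_trans zero_le_one ha1
  have hM0 : 0 ≤ M := by rw [hM]; positivity
  set I : Finset (OT k) := univ.filter (fun i => i.Ok) with hI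
  have hcard : (I.card : ℝ) ≤ ((k + 1 : ℕ) * k ^ k * k.factorial : ℝ) := by
    have h1 : I.card ≤ (k + 1) * k ^ k * k.factorial :=
      (card_filter_le _ _).trans (by rw [card_univ]; exact card_OT k)
    exact_mod_cast h1
  have hone : ∀ i ∈ I, Pr V (fun ω => (Good (Vin V B ω.1) ∧ Good (Vin V B ω.2)) ∧
      TwoRuns (fun j => A (i.2.1 j)) (fun r => if r then i.2.2 else 1) (res V B ω)) ≤ M := by
    intro i hi
    obtain ⟨hk, hinj, hev⟩ := (mem_filter.1 hi).2
    have hn : (i.1 : ℕ) ≤ k := by have := i.1.2; omega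
    refine (pr_twoRuns (hG.comp i.2.1 hinj) Good hβ0 (fun j => ha _)
      (fun W hW => hβ W hW i.1 i.2.1 hinj hk hn) i.2.2 hev).trans ?_
    rw [hM]
    have : a ^ (2 * (i.1 : ℕ)) ≤ a ^ (2 * k) := pow_le_pow_right₀ ha1 (by omega)
    gcongr
  calc _ ≤ Pr V (fun ω => ∃ i ∈ I, (Good (Vin V B ω.1) ∧ Good (Vin V B ω.2)) ∧
      TwoRuns (fun j => A (i.2.1 j)) (fun r => if r then i.2.2 else 1) (res V B ω)) := by
        apply E.Pr_mono
        rintro ω hω ⟨hg, hT⟩
        obtain ⟨n, e, τ, hk, hn, hinj, hev, hTR⟩ := twoVisit_types hG hω hT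
        exact ⟨⟨⟨n, by omega⟩, e, τ⟩, mem_filter.2 ⟨mem_univ _, hk, hinj, hev⟩, hg, hTR⟩
    _ ≤ I.card * M := E.Pr_exists_le_card V I _ hone
    _ ≤ _ := mul_le_mul_of_nonneg_right hcard hM0

end Vale.Agent.P155.SW
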