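import Vale.Agent.P155.F.Charge

/-!
# P155, TIGHT: the n-arc swap

`V₁`, `V₂` are the vertex sets of the two matchings (they may differ: partially explored
configurations). `As` are the starts (white) and `Bs` the ends (black) of the swapped arcs, `P` the
set of all points at which the second matching is cut, `c` the prescribed values of the second
matching on `P`.
-/

namespace Vale.Agent.P155.SW

open Finset Vale.Agent.P155

/-- the union of the components of the starts -/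
def arcs (As : Finset Pt) (ω : Conf) : Set Pt := {v | ∃ w ∈ As, Same ω w v}

theorem arcs_swapOn (As : Finset Pt) (S : Set Pt) (ω : Conf) : arcs As (swapOn S ω) = arcs As ω := by
  unfold arcs
  rw [same_swapOn]

theorem cl_arcs (As : Finset Pt) (ω : Conf) : Cl ω (arcs As ω) := by
  rintro v ⟨w, hw, h⟩
  exact ⟨⟨w, hw, same_trans h (same_fst ω v)⟩, ⟨w, hw, same_trans h (same_snd ω v)⟩⟩

/-- the data of a system of labels: starts, ends, cut points -/
structure Labels (V₁ As Bs P : Finset Pt) (c : Pt → Pt) : Prop where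
  white : ∀ v ∈ As, White v
  black : ∀ v ∈ Bs, Black v
  subA : As ⊆ V₁
  subB : Bs ⊆ V₁
  card : As.card = Bs.card
  inA : As ⊆ P
  inB : Bs ⊆ P
  clos : ∀ v ∈ P, c v ∈ P

/-- the configurations having arcs with the given labels -/
def HasArcs (As Bs P : Finset Pt) (c : Pt → Pt) (ω : Conf) : Prop :=
  (∀ v ∈ P, ω.2 v = c v) ∧ ∀ w ∈ As, ∃ b ∈ Bs, Same (cut2 P ω) w b

section

variable {V₁ V₂ As Bs P : Finset Pt} {c : Pt → Pt} {ω : Conf}

theorem cut2_pm (h2 : IsPM V₂ ω.2) (hL : Labels V₁ As Bs P c) (hA : HasArcs As Bs P c ω) :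
    IsPM (V₂ \ P) (cut2 P ω).2 := by
  apply pm_cut h2
  intro v hv
  rw [hA.1 v hv]
  exact hL.clos v hv

/-- the component of a start contains exactly one end and no other special point -/
theorem arc_ends (h1 : IsPM V₁ ω.1) (h2 : IsPM V₂ ω.2) (hL : Labels V₁ As Bs P c)
    (hA : HasArcs As Bs P c ω) {w : Pt} (hw : w ∈ As) :
    ∃ b ∈ Bs, Same (cut2 P ω) w b ∧
      ∀ y, Same (cut2 P ω) w y → (y ∉ V₂ \ P ∨ y ∉ V₁) → y = w ∨ y = b := by
  obtain ⟨b, hb, hs⟩ := hA.2 w hw
  refine ⟨b, hb, hs, ?_⟩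
  have h2' := cut2_pm h2 hL hA
  set ω' : Conf := (cut P ω.2, ω.1) with hω'
  have hsame : ∀ u v, Same ω' u v ↔ Same (cut2 P ω) u v := by
    intro u v
    unfold Same
    have : (fun u v => v = ω'.1 u ∨ v = ω'.2 u) =
        (fun u v => v = (cut2 P ω).1 u ∨ v = (cut2 P ω).2 u) := by
      funext u v
      exact propext or_comm
    rw [this]
  obtain ⟨e, he, hex, -, huniq⟩ := endpoint (V₁ := V₂ \ P) (V₂ := V₁) (ω := ω') h2' h1 (x := w)
    (by simp [hL.inA hw]) (hL.subA hw)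
  have hbe : b = e := by
    rcases huniq b ((hsame _ _).2 hs) (Or.inl (by simp [hL.inB hb])) with h | h
    · exact absurd h.symm (ne_of_colours (hL.white w hw) (hL.black b hb))
    · exact h
  subst hbe
  intro y hy hy'
  exact huniq y ((hsame _ _).2 hy) hy'

theorem cut2_inv (h1 : IsPM V₁ ω.1) (h2 : IsPM V₂ ω.2) (hL : Labels V₁ As Bs P c)
    (hA : HasArcs As Bs P c ω) : Inv2 (cut2 P ω) :=
  ⟨h1.invol, (cut2_pm h2 hL hA).invol⟩

/-- the arcs: special points on them are exactly the starts and ends -/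
theorem arcs_special (h1 : IsPM V₁ ω.1) (h2 : IsPM V₂ ω.2) (hL : Labels V₁ As Bs P c)
    (hA : HasArcs As Bs P c ω) :
    (∀ v ∈ As ∪ Bs, v ∈ arcs As (cut2 P ω)) ∧
    ∀ v ∈ arcs As (cut2 P ω), (v ∉ V₂ \ P ∨ v ∉ V₁) → v ∈ As ∪ Bs := by
  classical
  have hI := cut2_inv h1 h2 hL hA
  have hex : ∀ w : Pt, ∃ b, w ∈ As → b ∈ Bs ∧ Same (cut2 P ω) w b ∧
      ∀ y, Same (cut2 P ω) w y → (y ∉ V₂ \ P ∨ y ∉ V₁) → y = w ∨ y = b := by
    intro w
    by_cases hw : w ∈ As
    · obtain ⟨b, hb, h⟩ := arc_ends h1 h2 hL hA hw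
      exact ⟨b, fun _ => ⟨hb, h⟩⟩
    · exact ⟨w, fun h => absurd h hw⟩
  choose f hf using hex
  have hinj : Set.InjOn f As := by
    intro w hw w' hw' hff
    obtain ⟨hb, hs, hu⟩ := hf w hw
    obtain ⟨hb', hs', hu'⟩ := hf w' hw'
    have hww' : Same (cut2 P ω) w w' := by
      rw [← hff] at hs'
      exact same_trans hs (same_symm hI hs')
    rcases hu w' hww' (Or.inl (by simp [hL.inA hw'])) with h | h
    · exact h.symm
    · exact absurd h (ne_of_colours (hL.white w' hw') (hL.black _ hb))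
  have himg : As.image f = Bs := by
    apply eq_of_subset_of_card_le
    · intro b hb
      obtain ⟨w, hw, rfl⟩ := mem_image.1 hb
      exact (hf w hw).1
    · rw [card_image_of_injOn hinj, hL.card]
  constructor
  · intro v hv
    rcases mem_union.1 hv with hv | hv
    · exact ⟨v, hv, same_refl _ _⟩
    · rw [← himg] at hv
      obtain ⟨w, hw, rfl⟩ := mem_image.1 hv
      exact ⟨w, hw, (hf w hw).2.1⟩
  · rintro v ⟨w, hw, hs⟩ hv
    rcases (hf w hw).2.2 v hs hv with rfl | rfl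
    · exact mem_union_left _ hw
    · exact mem_union_right _ (hf w hw).1

theorem chain_mem (h1 : IsPM V₁ ω.1) (h2 : IsPM V₂ ω.2) (hL : Labels V₁ As Bs P c)
    (hA : HasArcs As Bs P c ω) :
    swapOn (arcs As (cut2 P ω)) (cut2 P ω) ∈
      PM (V₁ \ (As ∪ Bs)) ×ˢ PM ((V₂ \ P) ∪ (As ∪ Bs)) := by
  have h2' := cut2_pm h2 hL hA
  have h1' : IsPM V₁ (cut2 P ω).1 := h1
  obtain ⟨hin, hsp⟩ := arcs_special h1 h2 hL hA
  have hAV : ∀ v ∈ As ∪ Bs, v ∈ V₁ := by
    intro v hv
    rcases mem_union.1 hv with h | h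
    exacts [hL.subA h, hL.subB h]
  have hAP : ∀ v ∈ As ∪ Bs, v ∈ P := by
    intro v hv
    rcases mem_union.1 hv with h | h
    exacts [hL.inA h, hL.inB h]
  rw [mem_product, mem_PM, mem_PM]
  constructor
  · apply pm_swapOn_fst (V₁ := V₁) (V₂ := V₂ \ P) h1' h2' (cl_arcs As _)
    intro v
    constructor
    · intro hv
      obtain ⟨hv1, hv2⟩ := mem_sdiff.1 hv
      by_cases hS : v ∈ arcs As (cut2 P ω)
      · refine Or.inl ⟨hS, ?_⟩
        by_contra hc
        exact hv2 (hsp v hS (Or.inl hc))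
      · exact Or.inr ⟨hS, hv1⟩
    · rintro (⟨hS, hv⟩ | ⟨hS, hv⟩)
      · have hv1 : v ∈ V₁ := by
          by_contra hc
          exact hc (hAV v (hsp v hS (Or.inr hc)))
        exact mem_sdiff.2 ⟨hv1, fun h => (mem_sdiff.1 hv).2 (hAP v h)⟩
      · exact mem_sdiff.2 ⟨hv, fun h => hS (hin v h)⟩
  · apply pm_swapOn_snd (V₁ := V₁) (V₂ := V₂ \ P) h1' h2' (cl_arcs As _)
    intro v
    constructor
    · intro hv
      rcases mem_union.1 hv with hv | hv
      · by_cases hS : v ∈ arcs As (cut2 P ω)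
        · refine Or.inl ⟨hS, ?_⟩
          by_contra hc
          exact (mem_sdiff.1 hv).2 (hAP v (hsp v hS (Or.inr hc)))
        · exact Or.inr ⟨hS, hv⟩
      · exact Or.inl ⟨hin v hv, hAV v hv⟩
    · rintro (⟨hS, hv⟩ | ⟨hS, hv⟩)
      · by_cases hv2 : v ∈ V₂ \ P
        · exact mem_union_left _ hv2
        · exact mem_union_right _ (hsp v hS (Or.inl hv2))
      · exact mem_union_left _ hv

open Classical in
/-- **The n-arc swap.** -/
theorem chain_swap (V₂ : Finset Pt) (hL : Labels V₁ As Bs P c) :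
    ((PM V₁ ×ˢ PM V₂).filter (fun ω : Conf => HasArcs As Bs P c ω)).card ≤
      Z (V₁ \ (As ∪ Bs)) * Z ((V₂ \ P) ∪ (As ∪ Bs)) := by
  have hle : ((PM V₁ ×ˢ PM V₂).filter (fun ω : Conf => HasArcs As Bs P c ω)).card ≤
      (PM (V₁ \ (As ∪ Bs)) ×ˢ PM ((V₂ \ P) ∪ (As ∪ Bs))).card := by
    apply card_le_card_of_injOn (fun ω => swapOn (arcs As (cut2 P ω)) (cut2 P ω))
    · intro ω hω
      rw [mem_coe, mem_filter, mem_product, mem_PM, mem_PM] at hω
      obtain ⟨⟨h1, h2⟩, hA⟩ := hω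
      exact mem_coe.2 (chain_mem h1 h2 hL hA)
    · intro ω hω ω' hω' h
      rw [mem_coe, mem_filter, mem_product, mem_PM, mem_PM] at hω hω'
      have hcut := swap_injective (f := fun ω => arcs As ω) (fun S ω => arcs_swapOn As S ω)
        (a₁ := cut2 P ω) (a₂ := cut2 P ω') h
      apply cut2_inj hcut
      intro v hv
      rw [hω.2.1 v hv, hω'.2.1 v hv]
  rw [card_product] at hle
  exact hle

end

end Vale.Agent.P155.SW
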