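import Vale.Agent.P155.F.Kuo

/-!
# P155, block F1: the swap along arcs (charge one and charge two)
-/

namespace Vale.Agent.P155.SW

open Finset Vale.Agent.P155

theorem same_mono {ω ω' : Conf} (h1 : ∀ v, ω'.1 v = ω.1 v ∨ ω'.1 v = v)
    (h2 : ∀ v, ω'.2 v = ω.2 v ∨ ω'.2 v = v) {u v : Pt} (h : Same ω' u v) : Same ω u v := by
  induction h with
  | refl => exact same_refl _ _
  | @tail b c _ hbc ih =>
    rcases hbc with rfl | rfl
    · rcases h1 b with h | h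
      · rw [h]; exact same_trans ih (same_fst ω b)
      · rw [h]; exact ih
    · rcases h2 b with h | h
      · rw [h]; exact same_trans ih (same_snd ω b)
      · rw [h]; exact ih

/-- `ω` with the second matching cut along `P` -/
def cut2 (P : Finset Pt) (ω : Conf) : Conf := (ω.1, cut P ω.2)

theorem same_of_cut2 {P : Finset Pt} {ω : Conf} {u v : Pt} (h : Same (cut2 P ω) u v) :
    Same ω u v := by
  refine same_mono (ω := ω) (ω' := cut2 P ω) (fun v => Or.inl rfl) (fun v => ?_) h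
  show cut P ω.2 v = ω.2 v ∨ cut P ω.2 v = v
  unfold cut
  by_cases hv : v ∈ P <;> simp [hv]

/-- the swapped arc starting at the cut point `x` ends at another cut point of the opposite colour -/
theorem arc_end {V P : Finset Pt} (hPV : P ⊆ V) {ω : Conf} (h1 : IsPM V ω.1) (h2 : IsPM V ω.2)
    (hP : ∀ v ∈ P, ω.2 v ∈ P) {x : Pt} (hx : x ∈ P) :
    ∃ e ∈ P, Same (cut2 P ω) x e ∧ (White e ↔ ¬ White x) ∧
      ∀ y ∈ P, Same (cut2 P ω) x y → y = x ∨ y = e := by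
  -- use the end point lemma with the two matchings exchanged
  set ω' : Conf := (cut P ω.2, ω.1) with hω'
  have hsame : ∀ u v, Same ω' u v ↔ Same (cut2 P ω) u v := by
    intro u v
    unfold Same
    have : (fun u v => v = ω'.1 u ∨ v = ω'.2 u) =
        (fun u v => v = (cut2 P ω).1 u ∨ v = (cut2 P ω).2 u) := by
      funext u v
      exact propext or_comm
    rw [this]
  obtain ⟨e, he, hex, hcase, huniq⟩ := endpoint (V₁ := V \ P) (V₂ := V) (ω := ω')
    (pm_cut h2 hP) h1 (x := x) (by simp [hx]) (hPV hx)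
  rcases hcase with ⟨ha, hb, hc⟩ | ⟨ha, hb, hc⟩
  · have heP : e ∈ P := by
      by_contra hne
      exact ha (mem_sdiff.2 ⟨hb, hne⟩)
    refine ⟨e, heP, (hsame _ _).1 he, hc, fun y hy hs => ?_⟩
    exact huniq y ((hsame _ _).2 hs) (Or.inl (by simp [hy]))
  · exact absurd (mem_sdiff.1 ha).1 hb

theorem cut2_cl {V P : Finset Pt} {ω : Conf} (h1 : IsPM V ω.1) (h2 : IsPM V ω.2)
    (hP : ∀ v ∈ P, ω.2 v ∈ P) : IsPM V (cut2 P ω).1 ∧ IsPM (V \ P) (cut2 P ω).2 :=
  ⟨h1, pm_cut h2 hP⟩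

/-- the arc from `x` ends at `b` if the other cut points of the opposite colour in the same
component are only `b` and the partner of `x`. -/
theorem arc_end_eq {V P : Finset Pt} (hPV : P ⊆ V) {ω : Conf} (h1 : IsPM V ω.1) (h2 : IsPM V ω.2)
    (hP : ∀ v ∈ P, ω.2 v ∈ P) {x b : Pt} (hx : x ∈ P) (hb : b ∈ P) (hs : Same ω x b)
    (hxb : b ≠ x) (hcb : b ≠ ω.2 x)
    (hcand : ∀ e ∈ P, Same ω x e → (White e ↔ ¬ White x) → e = b ∨ e = ω.2 x) :
    Same (cut2 P ω) x b ∧ ∀ y ∈ P, Same (cut2 P ω) x y → y = x ∨ y = b := by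
  obtain ⟨e, heP, he, hcol, huniq⟩ := arc_end hPV h1 h2 hP hx
  rcases hcand e heP (same_of_cut2 he) hcol with rfl | hec
  · exact ⟨he, huniq⟩
  · exfalso
    -- the component of `x` in `cut2` is closed under `ω.2`
    have hclosed : comp ω x ⊆ comp (cut2 P ω) x := by
      apply comp_sub (same_refl _ _)
      · intro v hv
        exact fst_mem_comp (ω := cut2 P ω) hv
      · intro v hv
        by_cases hvP : v ∈ P
        · rcases huniq v hvP hv with rfl | h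
          · rw [← hec]; exact he
          · rw [h, hec, h2.invol]; exact same_refl _ _
        · have : ω.2 v = (cut2 P ω).2 v := by
            show ω.2 v = cut P ω.2 v
            unfold cut; simp [hvP]
          rw [this]
          exact snd_mem_comp (ω := cut2 P ω) hv
    rcases huniq b hb (hclosed hs) with h | h
    · exact hxb h
    · exact hcb (h.trans hec)

theorem ne_of_colours {x y : Pt} (hx : White x) (hy : Black y) : x ≠ y := by
  rintro rfl
  exact (black_iff_not_white.1 hy) hx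

theorem black_partner {V : Finset Pt} {m : Pt → Pt} (h : IsPM V m) {w : Pt} (hw : w ∈ V)
    (hW : White w) : Black (m w) := by
  rw [black_iff_not_white, white_iff_of_adj (h.adj _ hw)]; exact not_not.2 hW

theorem white_partner {V : Finset Pt} {m : Pt → Pt} (h : IsPM V m) {b : Pt} (hb : b ∈ V)
    (hB : Black b) : White (m b) := by
  rw [white_iff_of_adj (h.adj _ hb)]; exact black_iff_not_white.1 hB

/-- Abstract form of the swap: `A` are the ends of the swapped arcs, `C` the other cut points. -/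
theorem swap_maps {V A C : Finset Pt} {ω : Conf} (h1 : IsPM V ω.1) (h2 : IsPM V ω.2)
    (hP : ∀ v ∈ A ∪ C, ω.2 v ∈ A ∪ C) {S : Set Pt} (hS : Cl (cut2 (A ∪ C) ω) S)
    (hA : ∀ v ∈ A, v ∈ S) (hC : ∀ v ∈ C, v ∉ S) :
    swapOn S (cut2 (A ∪ C) ω) ∈ PM (V \ A) ×ˢ PM (V \ C) := by
  have hcut := cut2_cl h1 h2 hP
  rw [mem_product, mem_PM, mem_PM]
  constructor
  · apply pm_swapOn_fst hcut.1 hcut.2 hS
    intro v
    simp only [mem_sdiff, mem_union, not_or]
    constructor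
    · rintro ⟨hv, hv'⟩
      by_cases hvS : v ∈ S
      · exact Or.inl ⟨hvS, hv, hv', fun h => hC v h hvS⟩
      · exact Or.inr ⟨hvS, hv⟩
    · rintro (⟨hvS, hv, hvA, -⟩ | ⟨hvS, hv⟩)
      · exact ⟨hv, hvA⟩
      · exact ⟨hv, fun h => hvS (hA v h)⟩
  · apply pm_swapOn_snd hcut.1 hcut.2 hS
    intro v
    simp only [mem_sdiff, mem_union, not_or]
    constructor
    · rintro ⟨hv, hv'⟩
      by_cases hvS : v ∈ S
      · exact Or.inl ⟨hvS, hv⟩
      · exact Or.inr ⟨hvS, hv, fun h => hvS (hA v h), hv'⟩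
    · rintro (⟨hvS, hv⟩ | ⟨hvS, hv, -, hvC⟩)
      · exact ⟨hv, fun h => hC v h hvS⟩
      · exact ⟨hv, hvC⟩

/-- recovering the second matching from its restriction and the labels -/
theorem cut2_inj {P : Finset Pt} {ω ω' : Conf} (h : cut2 P ω = cut2 P ω')
    (hP : ∀ v ∈ P, ω.2 v = ω'.2 v) : ω = ω' := by
  have e1 : ω.1 = ω'.1 := by have := congrArg Prod.fst h; exact this
  have e2 : cut P ω.2 = cut P ω'.2 := by have := congrArg Prod.snd h; exact this
  apply Prod.ext e1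
  funext v
  by_cases hv : v ∈ P
  · exact hP v hv
  · have := congrFun e2 v
    unfold cut at this
    simpa [hv] using this

theorem labels_eq {V V' : Finset Pt} {m m' : Pt → Pt} (h : IsPM V m) (h' : IsPM V' m') {u v : Pt}
    (hm : m u = v) (hm' : m' u = v) : m u = m' u ∧ m v = m' v := by
  refine ⟨hm.trans hm'.symm, ?_⟩
  rw [← hm, h.invol]
  rw [hm, ← hm', h'.invol]

section one

variable {V : Finset Pt} {w b c d : Pt}

/-- the arcs, charge one -/
theorem one_arc (hw : w ∈ V) (hb : b ∈ V) (hwW : White w) (hbB : Black b) (hcb : c ≠ b)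
    {ω : Conf} (h1 : IsPM V ω.1) (h2 : IsPM V ω.2) (hs : Same ω w b) (hc : ω.2 w = c)
    (hd : ω.2 b = d) :
    swapOn (comp (cut2 ({w, b} ∪ {c, d}) ω) w) (cut2 ({w, b} ∪ {c, d}) ω) ∈
      PM (V \ {w, b}) ×ˢ PM (V \ {c, d}) := by
  set P : Finset Pt := {w, b} ∪ {c, d} with hPdef
  have hcV : c ∈ V := hc ▸ pm_mem h2 hw
  have hdV : d ∈ V := hd ▸ pm_mem h2 hb
  have hmem : ∀ x, x ∈ P ↔ (x = w ∨ x = b) ∨ (x = c ∨ x = d) := by
    intro x; simp only [hPdef, mem_union, mem_insert, mem_singleton]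
  have hPV : P ⊆ V := by
    intro x hx
    rw [hmem] at hx
    rcases hx with (rfl | rfl) | (rfl | rfl) <;> assumption
  have hP : ∀ v ∈ P, ω.2 v ∈ P := by
    intro v hv
    rw [hmem] at hv ⊢
    rcases hv with (rfl | rfl) | (rfl | rfl)
    · rw [hc]; simp
    · rw [hd]; simp
    · rw [← hc, h2.invol]; simp
    · rw [← hd, h2.invol]; simp
  have cc : Black c := hc ▸ black_partner h2 hw hwW
  have cd : White d := hd ▸ white_partner h2 hb hbB
  obtain ⟨hab, hu⟩ := arc_end_eq hPV h1 h2 hP (x := w) (b := b) (by simp [hPdef])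
    (by simp [hPdef]) hs (ne_of_colours hwW hbB).symm (by rw [hc]; exact hcb.symm) (by
      intro e he hse hcol
      rw [hmem] at he
      rw [hc]
      rcases he with (rfl | rfl) | (rfl | rfl)
      · exact absurd hwW (hcol.1 hwW)
      · exact Or.inl rfl
      · exact Or.inr rfl
      · exact absurd hwW (hcol.1 cd))
  have hdw : d ≠ w := by
    intro h
    apply hcb
    rw [← hc, ← h, ← hd, h2.invol]
  apply swap_maps h1 h2 hP (cl_comp _ _)
  · intro v hv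
    simp only [mem_insert, mem_singleton] at hv
    rcases hv with rfl | rfl
    · exact same_refl _ _
    · exact hab
  · intro v hv hvS
    simp only [mem_insert, mem_singleton] at hv
    have := hu v ((hmem v).2 (Or.inr hv)) hvS
    rcases hv with rfl | rfl
    · rcases this with h | h
      · exact ne_of_colours hwW cc h.symm
      · exact hcb h
    · rcases this with h | h
      · exact hdw h
      · exact ne_of_colours cd hbB h

open Classical in
/-- **F1, charge one.** For fixed labels: pairs of matchings of `V` with a component through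
`w` and `b`. -/
theorem charge_one (hw : w ∈ V) (hb : b ∈ V) (hwW : White w) (hbB : Black b) (hcb : c ≠ b) :
    ((DD V).filter (fun ω : Conf => Same ω w b ∧ ω.2 w = c ∧ ω.2 b = d)).card ≤
      Z (V \ {w, b}) * Z (V \ {c, d}) := by
  have hle : ((DD V).filter (fun ω : Conf => Same ω w b ∧ ω.2 w = c ∧ ω.2 b = d)).card ≤
      (PM (V \ {w, b}) ×ˢ PM (V \ {c, d})).card := by
    apply card_le_card_of_injOn (fun ω => swapOn (comp (cut2 ({w, b} ∪ {c, d}) ω) w)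
      (cut2 ({w, b} ∪ {c, d}) ω))
    · intro ω hω
      rw [mem_coe, mem_filter, DD, mem_product, mem_PM, mem_PM] at hω
      obtain ⟨⟨h1, h2⟩, hs, hc, hd⟩ := hω
      exact mem_coe.2 (one_arc hw hb hwW hbB hcb h1 h2 hs hc hd)
    · intro ω hω ω' hω' h
      rw [mem_coe, mem_filter, DD, mem_product, mem_PM, mem_PM] at hω hω'
      obtain ⟨⟨-, h2⟩, -, hc, hd⟩ := hω
      obtain ⟨⟨-, h2'⟩, -, hc', hd'⟩ := hω'
      have hcut := swap_injective_comp w (a₁ := cut2 ({w, b} ∪ {c, d}) ω)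
        (a₂ := cut2 ({w, b} ∪ {c, d}) ω') h
      apply cut2_inj hcut
      intro v hv
      obtain ⟨l1, l2⟩ := labels_eq h2 h2' hc hc'
      obtain ⟨l3, l4⟩ := labels_eq h2 h2' hd hd'
      simp only [mem_union, mem_insert, mem_singleton] at hv
      rcases hv with (rfl | rfl) | (rfl | rfl)
      exacts [l1, l3, l2, l4]
  rw [card_product] at hle
  exact hle

end one

section two

variable {V : Finset Pt} {w₁ w₂ b₁ b₂ c₁ c₂ d₁ d₂ : Pt}

/-- one of the two arcs -/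
theorem two_arc_aux (P : Finset Pt) (hmem : ∀ x, x ∈ P ↔ (x = w₁ ∨ x = w₂ ∨ x = b₁ ∨ x = b₂) ∨
      (x = c₁ ∨ x = c₂ ∨ x = d₁ ∨ x = d₂))
    (hw₁W : White w₁) (hw₂W : White w₂) (hb₁B : Black b₁) (cd1 : White d₁) (cd2 : White d₂)
    (hcb₁ : c₁ ≠ b₁) {ω : Conf} (h1 : IsPM V ω.1) (h2 : IsPM V ω.2)
    (hs1 : Same ω w₁ b₁) (hc1 : ω.2 w₁ = c₁)
    (hPV : P ⊆ V) (hP : ∀ v ∈ P, ω.2 v ∈ P)
    (hb2 : ¬ Same ω w₁ b₂) (hc2' : ¬ Same ω w₁ c₂) :
    Same (cut2 P ω) w₁ b₁ ∧ ∀ y ∈ P, Same (cut2 P ω) w₁ y → y = w₁ ∨ y = b₁ := by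
  apply arc_end_eq hPV h1 h2 hP ((hmem _).2 (by simp)) ((hmem _).2 (by simp)) hs1
    (ne_of_colours hw₁W hb₁B).symm (by rw [hc1]; exact hcb₁.symm)
  intro e he hse hcol
  rw [hmem] at he
  rw [hc1]
  rcases he with (h | h | h | h) | (h | h | h | h)
  · rw [h] at hcol; exact absurd hw₁W (hcol.1 hw₁W)
  · rw [h] at hcol; exact absurd hw₁W (hcol.1 hw₂W)
  · exact Or.inl h
  · rw [h] at hse; exact absurd hse hb2
  · exact Or.inr h
  · rw [h] at hse; exact absurd hse hc2'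
  · rw [h] at hcol; exact absurd hw₁W (hcol.1 cd1)
  · rw [h] at hcol; exact absurd hw₁W (hcol.1 cd2)

theorem two_arc (hw₁ : w₁ ∈ V) (hw₂ : w₂ ∈ V) (hb₁ : b₁ ∈ V) (hb₂ : b₂ ∈ V)
    (hw₁W : White w₁) (hw₂W : White w₂) (hb₁B : Black b₁) (hb₂B : Black b₂)
    (hcb₁ : c₁ ≠ b₁) (hcb₂ : c₂ ≠ b₂) {ω : Conf} (h1 : IsPM V ω.1) (h2 : IsPM V ω.2)
    (hs1 : Same ω w₁ b₁) (hs2 : Same ω w₂ b₂) (hn : ¬ Same ω w₁ w₂)
    (hc1 : ω.2 w₁ = c₁) (hc2 : ω.2 w₂ = c₂) (hd1 : ω.2 b₁ = d₁) (hd2 : ω.2 b₂ = d₂)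
    (P : Finset Pt) (hPdef : P = {w₁, w₂, b₁, b₂} ∪ {c₁, c₂, d₁, d₂}) :
    swapOn (comp (cut2 P ω) w₁ ∪ comp (cut2 P ω) w₂) (cut2 P ω) ∈
      PM (V \ {w₁, w₂, b₁, b₂}) ×ˢ PM (V \ {c₁, c₂, d₁, d₂}) := by
  have hI : Inv2 ω := ⟨h1.invol, h2.invol⟩
  have hcV1 : c₁ ∈ V := hc1 ▸ pm_mem h2 hw₁
  have hcV2 : c₂ ∈ V := hc2 ▸ pm_mem h2 hw₂
  have hdV1 : d₁ ∈ V := hd1 ▸ pm_mem h2 hb₁
  have hdV2 : d₂ ∈ V := hd2 ▸ pm_mem h2 hb₂
  have hmem : ∀ x, x ∈ P ↔ (x = w₁ ∨ x = w₂ ∨ x = b₁ ∨ x = b₂) ∨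
      (x = c₁ ∨ x = c₂ ∨ x = d₁ ∨ x = d₂) := by
    intro x; simp only [hPdef, mem_union, mem_insert, mem_singleton]
  have hPV : P ⊆ V := by
    intro x hx
    rw [hmem] at hx
    rcases hx with (rfl | rfl | rfl | rfl) | (rfl | rfl | rfl | rfl) <;> assumption
  have hP : ∀ v ∈ P, ω.2 v ∈ P := by
    intro v hv
    rw [hmem] at hv ⊢
    rcases hv with (rfl | rfl | rfl | rfl) | (rfl | rfl | rfl | rfl)
    · rw [hc1]; simp
    · rw [hc2]; simp
    · rw [hd1]; simp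
    · rw [hd2]; simp
    · rw [← hc1, h2.invol]; simp
    · rw [← hc2, h2.invol]; simp
    · rw [← hd1, h2.invol]; simp
    · rw [← hd2, h2.invol]; simp
  have cc1 : Black c₁ := hc1 ▸ black_partner h2 hw₁ hw₁W
  have cc2 : Black c₂ := hc2 ▸ black_partner h2 hw₂ hw₂W
  have cd1 : White d₁ := hd1 ▸ white_partner h2 hb₁ hb₁B
  have cd2 : White d₂ := hd2 ▸ white_partner h2 hb₂ hb₂B
  have sc1 : Same ω w₁ c₁ := hc1 ▸ same_snd ω w₁
  have sc2 : Same ω w₂ c₂ := hc2 ▸ same_snd ω w₂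
  have sd1 : Same ω w₁ d₁ := same_trans hs1 (hd1 ▸ same_snd ω b₁)
  have sd2 : Same ω w₂ d₂ := same_trans hs2 (hd2 ▸ same_snd ω b₂)
  have hsep : ∀ x, Same ω w₁ x → Same ω w₂ x → False := fun x hx hy =>
    hn (same_trans hx (same_symm hI hy))
  have A1 := two_arc_aux P hmem hw₁W hw₂W hb₁B cd1 cd2 hcb₁ h1 h2 hs1 hc1 hPV hP
    (fun h => hsep _ h hs2) (fun h => hsep _ h sc2)
  have A2 := two_arc_aux (w₁ := w₂) (w₂ := w₁) (b₁ := b₂) (b₂ := b₁) (c₁ := c₂) (c₂ := c₁)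
    (d₁ := d₂) (d₂ := d₁) P (by intro x; rw [hmem]; tauto)
    hw₂W hw₁W hb₂B cd2 cd1 hcb₂ h1 h2 hs2 hc2 hPV hP
    (fun h => hsep _ hs1 h) (fun h => hsep _ sc1 h)
  obtain ⟨hab1, hu1⟩ := A1
  obtain ⟨hab2, hu2⟩ := A2
  have hdw1 : d₁ ≠ w₁ := by
    intro h
    apply hcb₁
    rw [← hc1, ← h, ← hd1, h2.invol]
  have hdw2 : d₂ ≠ w₂ := by
    intro h
    apply hcb₂
    rw [← hc2, ← h, ← hd2, h2.invol]
  subst hPdef
  apply swap_maps h1 h2 hP ((cl_comp _ _).union (cl_comp _ _))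
  · intro v hv
    simp only [mem_insert, mem_singleton] at hv
    rcases hv with rfl | rfl | rfl | rfl
    · exact Or.inl (same_refl _ _)
    · exact Or.inr (same_refl _ _)
    · exact Or.inl hab1
    · exact Or.inr hab2
  · intro v hv hvS
    simp only [mem_insert, mem_singleton] at hv
    have hvP := (hmem v).2 (Or.inr hv)
    have key : (v = w₁ ∨ v = b₁) ∨ (v = w₂ ∨ v = b₂) := by
      rcases hvS with h | h
      · exact Or.inl (hu1 v hvP h)
      · exact Or.inr (hu2 v hvP h)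
    have mono : Same ω w₁ v ∨ Same ω w₂ v := by
      rcases hvS with h | h
      · exact Or.inl (same_of_cut2 h)
      · exact Or.inr (same_of_cut2 h)
    rcases hv with h | h | h | h
    · -- v = c₁
      rcases key with (h' | h') | (h' | h')
      · exact ne_of_colours hw₁W cc1 (h'.symm.trans h)
      · exact hcb₁ (h.symm.trans h')
      · exact ne_of_colours hw₂W cc1 (h'.symm.trans h)
      · exact hsep v (h ▸ sc1) (h' ▸ hs2)
    · rcases key with (h' | h') | (h' | h')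
      · exact ne_of_colours hw₁W cc2 (h'.symm.trans h)
      · exact hsep v (h' ▸ hs1) (h ▸ sc2)
      · exact ne_of_colours hw₂W cc2 (h'.symm.trans h)
      · exact hcb₂ (h.symm.trans h')
    · rcases key with (h' | h') | (h' | h')
      · exact hdw1 (h.symm.trans h')
      · exact ne_of_colours cd1 hb₁B (h.symm.trans h')
      · exact hsep v (h ▸ sd1) (h' ▸ same_refl _ _)
      · exact ne_of_colours cd1 hb₂B (h.symm.trans h')
    · rcases key with (h' | h') | (h' | h')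
      · exact hsep v (h' ▸ same_refl _ _) (h ▸ sd2)
      · exact ne_of_colours cd2 hb₁B (h.symm.trans h')
      · exact hdw2 (h.symm.trans h')
      · exact ne_of_colours cd2 hb₂B (h.symm.trans h')

open Classical in
/-- **F1, charge two.** For fixed labels: pairs of matchings of `V` with two distinct components,
one through `w₁, b₁`, the other through `w₂, b₂`. -/
theorem charge_two (hw₁ : w₁ ∈ V) (hw₂ : w₂ ∈ V) (hb₁ : b₁ ∈ V) (hb₂ : b₂ ∈ V)
    (hw₁W : White w₁) (hw₂W : White w₂) (hb₁B : Black b₁) (hb₂B : Black b₂)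
    (hcb₁ : c₁ ≠ b₁) (hcb₂ : c₂ ≠ b₂) :
    ((DD V).filter (fun ω : Conf => Same ω w₁ b₁ ∧ Same ω w₂ b₂ ∧ ¬ Same ω w₁ w₂ ∧
      ω.2 w₁ = c₁ ∧ ω.2 w₂ = c₂ ∧ ω.2 b₁ = d₁ ∧ ω.2 b₂ = d₂)).card ≤
      Z (V \ {w₁, w₂, b₁, b₂}) * Z (V \ {c₁, c₂, d₁, d₂}) := by
  set P : Finset Pt := {w₁, w₂, b₁, b₂} ∪ {c₁, c₂, d₁, d₂} with hPdef
  have hle : ((DD V).filter (fun ω : Conf => Same ω w₁ b₁ ∧ Same ω w₂ b₂ ∧ ¬ Same ω w₁ w₂ ∧
      ω.2 w₁ = c₁ ∧ ω.2 w₂ = c₂ ∧ ω.2 b₁ = d₁ ∧ ω.2 b₂ = d₂)).card ≤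
      (PM (V \ {w₁, w₂, b₁, b₂}) ×ˢ PM (V \ {c₁, c₂, d₁, d₂})).card := by
    apply card_le_card_of_injOn
      (fun ω => swapOn (comp (cut2 P ω) w₁ ∪ comp (cut2 P ω) w₂) (cut2 P ω))
    · intro ω hω
      rw [mem_coe, mem_filter, DD, mem_product, mem_PM, mem_PM] at hω
      obtain ⟨⟨h1, h2⟩, hs1, hs2, hn, hc1, hc2, hd1, hd2⟩ := hω
      exact mem_coe.2 (two_arc hw₁ hw₂ hb₁ hb₂ hw₁W hw₂W hb₁B hb₂B hcb₁ hcb₂ h1 h2 hs1 hs2 hn
        hc1 hc2 hd1 hd2 P hPdef)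
    · intro ω hω ω' hω' h
      rw [mem_coe, mem_filter, DD, mem_product, mem_PM, mem_PM] at hω hω'
      obtain ⟨⟨-, h2⟩, -, -, -, hc1, hc2, hd1, hd2⟩ := hω
      obtain ⟨⟨-, h2'⟩, -, -, -, hc1', hc2', hd1', hd2'⟩ := hω'
      have hcut := swap_injective_comp2 w₁ w₂ (a₁ := cut2 P ω) (a₂ := cut2 P ω') h
      apply cut2_inj hcut
      intro v hv
      obtain ⟨l1, l2⟩ := labels_eq h2 h2' hc1 hc1'
      obtain ⟨l3, l4⟩ := labels_eq h2 h2' hc2 hc2'
      obtain ⟨l5, l6⟩ := labels_eq h2 h2' hd1 hd1'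
      obtain ⟨l7, l8⟩ := labels_eq h2 h2' hd2 hd2'
      simp only [hPdef, mem_union, mem_insert, mem_singleton] at hv
      rcases hv with (rfl | rfl | rfl | rfl) | (rfl | rfl | rfl | rfl)
      exacts [l1, l3, l5, l7, l2, l4, l6, l8]
  rw [card_product] at hle
  exact hle

end two

end Vale.Agent.P155.SW
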