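import Vale.Agent.P155.F.CwLeg
import Vale.Agent.P155.HT426.ChDet
import Vale.Agent.P155.E.Closed
import Vale.Agent.P155.B.MonoGood

/-!
# P155, TIGHT: contact weight in one ball, with the GOOD event
-/

namespace Vale.Agent.P155.SW

open Finset Vale.Agent.P155 Skel

/-- linear growth of the monomer ratios where the inverse Kasteleyn matrix is close to the plane
one -/
def MonoGood (A : Pt → ℝ) (CM : ℝ) : Prop := ∀ (T : Temp) (W : Finset Pt), Sub T W →
  ∀ (x : Pt) (r : ℕ) (δ : ℝ), CM ≤ r → box x r ⊆ W →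
  (∀ b w, Black b → White w → b ∈ box x r → w ∈ box x r → |Kinv W b w - Kp A b w| ≤ δ) →
  ∀ w b, White w → Black b → w ∈ box x (r / 2) → b ∈ box x (r / 2) →
  CM * (1 + dn b w) * δ ≤ 1 → (Z (W \ {w, b}) : ℝ) ≤ CM * (1 + dn b w) * Z W

theorem exists_monoGood {A : Pt → ℝ} (hA : IsPlane A) : ∃ CM : ℝ, 1 ≤ CM ∧ MonoGood A CM := by
  obtain ⟨C, hC0, hC⟩ := B3.mono_good hA
  refine ⟨max C 1, le_max_right _ _, ?_⟩
  intro T W hW x r δ hr hb hg w b hw hbl hwx hbx hδ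
  have h1 : C ≤ max C 1 := le_max_left _ _
  have hd : (0 : ℝ) ≤ 1 + dn b w := by positivity
  have h2 : C * (1 + dn b w) * δ ≤ 1 := by
    rcases le_or_gt 0 δ with h | h
    · refine le_trans ?_ hδ
      gcongr
    · have : C * (1 + dn b w) * δ ≤ 0 := mul_nonpos_of_nonneg_of_nonpos (by positivity) h.le
      linarith
  refine (hC T W hW x r δ (h1.trans hr) hb hg w b hw hbl hwx hbx h2).trans ?_
  gcongr

/-- the good properties of the unexplored vertex set of one copy -/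
structure CwGood (T : Temp) (A : Pt → ℝ) (y : Pt) (L r0 : ℕ) (k1 δ : ℝ) (W : Finset Pt) :
    Prop where
  sub : Sub T W
  inB : W ⊆ box y L
  mid : ∀ v, dinf y v + 1 ≤ L → v ∈ W
  ap : T211.AP W k1
  good : ∀ b w, Black b → White w → b ∈ box y r0 → w ∈ box y r0 →
    |Kinv W b w - Kp A b w| ≤ δ

/-- all entries of the inverse, of any colours -/
theorem abs_Kinv_all {T : Temp} {V : Finset Pt} (hV : Sub T V) {Mx : ℝ} (hMx : 0 ≤ Mx)
    (hM : T211.AP V Mx) (u v : Pt) : |Kinv V u v| ≤ Mx := by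
  by_cases hu : u ∈ V
  · by_cases hv : v ∈ V
    · obtain ⟨m0, h0⟩ := A4.Sub.exists_pm hV
      have hpos := A4.Sub.Z_pos hV
      have hdet : (F.MR V m0 K).det ≠ 0 := by
        rw [← abs_pos, ← F.detR_def, A4.abs_detR_K A4.signLoop F.insideLoop hV h0]
        exact_mod_cast hpos
      have e : Kinv V u v = A4.GM h0 ⟨u, hu⟩ ⟨v, hv⟩ := by
        unfold Kinv
        rw [dif_pos hu, dif_pos hv, A4.KM_inv h0 hdet, Matrix.of_apply]
      rcases em (White u) with hwu | hwu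
      · rcases em (White v) with hwv | hwv
        · rw [e, A4.GM_ww h0 hwu hwv, abs_zero]; exact hMx
        · have hbv : Black v := F.black_iff_nw.2 hwv
          have e2 : Kinv V v u = A4.GM h0 ⟨v, hv⟩ ⟨u, hu⟩ := by
            unfold Kinv
            rw [dif_pos hv, dif_pos hu, A4.KM_inv h0 hdet, Matrix.of_apply]
          have e3 : Kinv V u v = Kinv V v u := by
            rw [e, e2, A4.GM_wb h0 hwu hbv, A4.GM_bw h0 hbv hwu]
          rw [e3]
          exact T211.abs_Kinv_le hV hMx hM hbv hwu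
      · have hbu : Black u := F.black_iff_nw.2 hwu
        rcases em (White v) with hwv | hwv
        · exact T211.abs_Kinv_le hV hMx hM hbu hwv
        · rw [e, A4.GM_bb h0 hbu (F.black_iff_nw.2 hwv), abs_zero]; exact hMx
    · unfold Kinv
      rw [dif_pos hu, dif_neg hv, abs_zero]; exact hMx
  · unfold Kinv
    rw [dif_neg hu, abs_zero]; exact hMx

/-- separation of two points -/
def sepP (ρ1 : ℕ) (x x' : Pt) : Prop := (ρ1 : ℤ) ≤ dinf x x'

theorem sepP_symm {ρ1 : ℕ} {x x' : Pt} (h : sepP ρ1 x x') : sepP ρ1 x' x := by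
  unfold sepP at *
  rwa [F.dinf_symm]

theorem dn_cast' (u v : Pt) : ((dn u v : ℕ) : ℤ) = dinf u v := Dom.dn_cast u v

/-- the geometry of boxes -/
theorem geo_box {V : Finset Pt} {y : Pt} {L r s ρ1 : ℕ} (hV : ∀ v, dinf y v ≤ L → v ∈ V)
    (hL : r + s + 5 ≤ L) (hρ : 2 * s + 5 ≤ ρ1) {n : ℕ} {z : Fin n → Pt}
    (hz : z ∈ tup (box y r) (sepP ρ1) n) :
    GeoReg V (box y L) (fun i => box (z i) s) (fun i => box (z i) (s + 1))
      (fun i => box (z i) (s + 2)) := by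
  rw [mem_tup] at hz
  have hstep : ∀ (x u v : Pt) (a : ℕ), u ∈ box x a → Adj u v → v ∈ box x (a + 1) := by
    intro x u v a hu ha
    rw [mem_box_dinf] at hu ⊢
    have := adj_dinf (y := x) ha
    rw [abs_le] at this
    push_cast
    omega
  have hin : ∀ i, ∀ u ∈ box (z i) (s + 2), dinf y u ≤ (r : ℤ) + s + 2 := by
    intro i u hu
    have h1 := hz.1 i
    rw [mem_box_dinf] at h1 hu
    have := F.dinf_tri y (z i) u
    push_cast at hu
    omega
  refine ⟨?_, ?_, ?_, ?_, ?_, ?_, ?_, ?_⟩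
  · intro i u hu
    rw [mem_box_dinf] at hu ⊢
    push_cast
    omega
  · intro i u hu v ha
    exact hstep _ _ _ _ hu ha
  · intro i u hu
    rw [mem_box_dinf] at hu ⊢
    push_cast at hu ⊢
    omega
  · intro i u hu v ha
    exact hstep _ _ _ _ hu ha
  · intro i j hij
    rw [disjoint_left]
    intro u hu hu'
    rw [mem_box_dinf] at hu hu'
    have h1 := hz.2 i j hij
    unfold sepP at h1
    have h2 := F.dinf_tri (z i) u (z j)
    rw [F.dinf_symm u (z j)] at h2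
    push_cast at hu hu'
    omega
  · intro i u hu
    exact hV u (by have := hin i u hu; omega)
  · intro i u hu
    rw [mem_box_dinf]
    have := hin i u hu
    omega
  · intro i
    rw [disjoint_left]
    intro u hu hu'
    have h1 := hin i u hu
    have hb : ∀ z' ∈ ibd (box y L), (L : ℤ) ≤ dinf y z' := by
      intro z' hz'
      rw [mem_ibd] at hz'
      obtain ⟨-, w, hw, hw'⟩ := hz'
      rw [mem_box_dinf] at hw'
      have := adj_dinf (y := y) (mem_nbrs.1 hw)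
      rw [abs_le] at this
      omega
    unfold nb0 at hu'
    rw [mem_union] at hu'
    rcases hu' with h | h
    · have := hb u h
      omega
    · obtain ⟨z', hz', hu'⟩ := mem_biUnion.1 h
      have h2 := hb z' hz'
      have := adj_dinf (y := y) (mem_nbrs.1 hu')
      rw [abs_le] at this
      omega

theorem ibd_far {y : Pt} {L : ℕ} {v : Pt} (hv : v ∈ ibd (box y L)) : (L : ℤ) ≤ dinf y v := by
  rw [mem_ibd] at hv
  obtain ⟨-, w, hw, hw'⟩ := hv
  rw [mem_box_dinf] at hw'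
  have := adj_dinf (y := y) (mem_nbrs.1 hw)
  rw [abs_le] at this
  omega

/-- number of boundary points -/
theorem card_ibd (y : Pt) (L : ℕ) : (ibd (box y L)).card ≤ 4 * (2 * L + 1) := by
  classical
  set S1 : Finset Pt := (Finset.Icc (y.2 - L) (y.2 + L)).image (fun b => (y.1 - (L : ℤ), b))
  set S2 : Finset Pt := (Finset.Icc (y.2 - L) (y.2 + L)).image (fun b => (y.1 + (L : ℤ), b))
  set S3 : Finset Pt := (Finset.Icc (y.1 - L) (y.1 + L)).image (fun a => (a, y.2 - (L : ℤ)))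
  set S4 : Finset Pt := (Finset.Icc (y.1 - L) (y.1 + L)).image (fun a => (a, y.2 + (L : ℤ)))
  have hsub : ibd (box y L) ⊆ (S1 ∪ S2) ∪ (S3 ∪ S4) := by
    intro v hv
    have h1 := ibd_far hv
    have h2 : v ∈ box y L := (mem_ibd.1 hv).1
    rw [mem_box_dinf] at h2
    unfold dinf at h1 h2
    obtain ⟨a, b⟩ := v
    simp only [S1, S2, S3, S4, mem_union, mem_image, mem_Icc, Prod.mk.injEq]
    simp only at h1 h2
    rw [max_le_iff, abs_le, abs_le] at h2
    rcases max_cases |y.1 - a| |y.2 - b| with ⟨h3, _⟩ | ⟨h3, _⟩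
    · rw [h3] at h1
      left
      rcases abs_cases (y.1 - a) with ⟨h4, _⟩ | ⟨h4, _⟩
      · left; exact ⟨b, by omega, by omega, rfl⟩
      · right; exact ⟨b, by omega, by omega, rfl⟩
    · rw [h3] at h1
      right
      rcases abs_cases (y.2 - b) with ⟨h4, _⟩ | ⟨h4, _⟩
      · left; exact ⟨a, by omega, rfl, by omega⟩
      · right; exact ⟨a, by omega, rfl, by omega⟩
  have hc : ∀ (c : ℤ) (f : ℤ → Pt), ((Finset.Icc (c - L) (c + L)).image f).card ≤ 2 * L + 1 := by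
    intro c f
    refine card_image_le.trans ?_
    rw [Int.card_Icc]
    omega
  refine (card_le_card hsub).trans ((card_union_le _ _).trans ?_)
  have h1 := card_union_le S1 S2
  have h2 := card_union_le S3 S4
  have c1 : S1.card ≤ 2 * L + 1 := hc _ _
  have c2 : S2.card ≤ 2 * L + 1 := hc _ _
  have c3 : S3.card ≤ 2 * L + 1 := hc _ _
  have c4 : S4.card ≤ 2 * L + 1 := hc _ _
  omega

/-- **the determinantal bound under the good event** -/
theorem adm_bound {T : Temp} {A : Pt → ℝ} {CA CM : ℝ} (hCA : 1 ≤ CA)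
    (hKp : ∀ b w, Black b → White w → |Kp A b w| ≤ CA / (dinf w b : ℤ)) (hCM1 : 1 ≤ CM)
    (hCM : MonoGood A CM) {y : Pt} {L r0 r s ρ1 : ℕ} {k0 k1 δ : ℝ} {W : Finset Pt}
    (hW : CwGood T A y L r0 k1 δ W) (hδ0 : 0 ≤ δ) (hCMr : CM ≤ r0) (hr0 : r0 + 9 ≤ L) (hr : r + s + 4 ≤ r0 / 2)
    (hρ : 2 * s + 10 ≤ ρ1) (hδ : CM * (2 * s + 9) * δ ≤ 1)
    (hk0 : CA / ((ρ1 : ℝ) - (2 * s + 8)) + δ ≤ k0) (hk1 : 0 ≤ k1) {n : ℕ} (hn : 36 ≤ n)
    (hx : 4 * (((n + 1) * (8 * (s + 2) + 17) : ℕ) : ℝ) ^ 3 * (CM * (2 * s + 9)) * (4 * k0) ≤ 1 / 2)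
    {z : Fin n → Pt} (hz : z ∈ tup (box y r) (sepP ρ1) n) {c : Bool} {Ar : Fin n → Finset Pt}
    (hAr : ∀ i, Ar i ⊆ box (z i) (s + 2)) (x : Fin n → Bool → Pt) (ex : Bool → Pt)
    (had : Adm c W Ar (ibd (box y L)) x ex) :
    (Z (W \ XS x ex) : ℝ) ≤ HT.chC n (s + 2) (CM * (2 * s + 9)) k0 k1 * Z W := by
  have hz' := mem_tup.1 hz
  have hzd : ∀ i, dinf y (z i) ≤ r := fun i => mem_box_dinf.1 (hz'.1 i)
  have hr0' : 2 * (r + s + 4) ≤ r0 := by omega
  have hin : ∀ i, ∀ u ∈ box (z i) (s + 4), dinf y u ≤ (r : ℤ) + s + 4 := by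
    intro i u hu
    rw [mem_box_dinf] at hu
    have := F.dinf_tri y (z i) u
    have := hzd i
    push_cast at hu
    omega
  have hρr : (0 : ℝ) < (ρ1 : ℝ) - (2 * s + 8) := by
    have : ((2 * s + 10 : ℕ) : ℝ) ≤ ρ1 := by exact_mod_cast hρ
    push_cast at this
    linarith
  have hB : HT.Boxes y L (s + 2) z := by
    constructor
    · intro i
      have := hzd i
      push_cast
      omega
    · intro i j hij
      have := hz'.2 i j hij
      unfold sepP at this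
      push_cast
      omega
  refine HT.ch_adm hW.sub hB hW.inB (fun i => hAr i) (D := ibd (box y L)) (fun v hv => ?_) had hn
    ?_ ?_ ?_ ?_ hk1 ?_ hx
  · have := ibd_far hv
    omega
  · have : (1 : ℝ) ≤ 2 * s + 9 := by
      have : (0 : ℝ) ≤ s := by positivity
      linarith
    nlinarith
  · intro i w b hw hb _ _ hwb hbb
    have hw4 : w ∈ box (z i) (s + 4) := by
      rw [mem_box_dinf] at hwb ⊢
      push_cast at hwb ⊢
      omega
    have hd : dn b w ≤ 2 * s + 8 := by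
      rw [mem_box_dinf] at hwb hbb
      have h1 := F.dinf_tri b (z i) w
      rw [F.dinf_symm b (z i)] at h1
      have h2 := dn_cast' b w
      push_cast at hwb hbb
      omega
    have hd' : (1 : ℝ) + dn b w ≤ 2 * s + 9 := by
      have : (dn b w : ℝ) ≤ (2 * s + 8 : ℕ) := by exact_mod_cast hd
      push_cast at this
      linarith
    have h3 := hCM T W hW.sub y r0 δ hCMr (fun v hv => hW.mid v (by
        rw [mem_box_dinf] at hv
        omega)) hW.good w b hw hb (by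
        rw [mem_box_dinf]
        have := hin i w hw4
        omega) (by
        rw [mem_box_dinf]
        have := hin i b hbb
        omega) (by
        refine le_trans ?_ hδ
        gcongr)
    refine h3.trans ?_
    gcongr
  · have h1 : 0 ≤ CA / ((ρ1 : ℝ) - (2 * s + 8)) := by positivity
    linarith
  · intro i j w b hij hw hb _ _ hbb hwb
    have hwr : w ∈ box y r0 := by
      rw [mem_box_dinf]
      have := hin j w hwb
      omega
    have hbr : b ∈ box y r0 := by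
      rw [mem_box_dinf]
      have := hin i b hbb
      omega
    have h1 := hW.good b w hb hw hbr hwr
    have h2 := hKp b w hb hw
    have hd : (ρ1 : ℤ) - (2 * s + 8) ≤ dinf w b := by
      have h3 := hz'.2 i j hij
      unfold sepP at h3
      rw [mem_box_dinf] at hbb hwb
      have h4 := F.dinf_tri (z i) b (z j)
      have h5 := F.dinf_tri b w (z j)
      rw [F.dinf_symm w (z j), F.dinf_symm b w] at h5
      push_cast at hbb hwb
      omega
    have hd' : (ρ1 : ℝ) - (2 * s + 8) ≤ ((dinf w b : ℤ) : ℝ) := by exact_mod_cast hd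
    have h6 : CA / ((dinf w b : ℤ) : ℝ) ≤ CA / ((ρ1 : ℝ) - (2 * s + 8)) :=
      div_le_div_of_nonneg_left (by linarith) hρr hd'
    have h7 : |Kinv W b w| ≤ |Kinv W b w - Kp A b w| + |Kp A b w| := by
      have := abs_add_le (Kinv W b w - Kp A b w) (Kp A b w)
      rwa [sub_add_cancel] at this
    linarith
  · intro w b
    exact abs_Kinv_all hW.sub hk1 hW.ap b w

/-! ### elementary inequalities -/

theorem chC_bound {n s : ℕ} {Mx k0 k1 t L E : ℝ} (ht : 1 ≤ t) (hL : 0 < L) (hMx : 1 ≤ Mx)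
    (hk1 : 0 ≤ k1) (hE : 1 + 4 * k1 ≤ E) (hk0 : 4 * k0 = t ^ 8 / L)
    (hN : 4 * (((n + 1) * (8 * s + 17) : ℕ) : ℝ) ^ 3 * Mx ≤ t ^ 8) :
    HT.chC n s Mx k0 k1 ≤
      2 * (E ^ 36 * (t ^ 8) ^ (n + 1) * (t ^ 8) ^ 36 * (t ^ 16 / L) ^ (n - 36)) := by
  unfold HT.chC
  have hN1 : (1 : ℝ) ≤ (((n + 1) * (8 * s + 17) : ℕ) : ℝ) := by
    exact_mod_cast Nat.one_le_iff_ne_zero.2 (by positivity)
  set N : ℝ := (((n + 1) * (8 * s + 17) : ℕ) : ℝ) with hNd
  have h1 : 4 * N * Mx ≤ t ^ 8 := by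
    refine le_trans ?_ hN
    have : N ≤ N ^ 3 := by nlinarith [sq_nonneg N, mul_nonneg (by linarith : (0:ℝ) ≤ N) (by linarith : (0:ℝ) ≤ N - 1)]
    gcongr
  have h2 : 4 * N ^ 3 * Mx * (4 * k0) ≤ t ^ 16 / L := by
    rw [hk0]
    calc 4 * N ^ 3 * Mx * (t ^ 8 / L) ≤ t ^ 8 * (t ^ 8 / L) := by gcongr
      _ = t ^ 16 / L := by ring
  have h0 : 0 ≤ 4 * k0 := by rw [hk0]; positivity
  gcongr

theorem term_bound {n : ℕ} (hn : 36 ≤ n) {t L E : ℝ} (ht : 1 ≤ t) (hL : 0 < L) :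
    ((t ^ 128)⁻¹) ^ n * (L ^ 2) ^ n * ((t ^ 8) ^ (2 * n) * (L ^ 2) ^ 4 * 16 *
      (2 * (E ^ 36 * (t ^ 8) ^ (n + 1) * (t ^ 8) ^ 36 * (t ^ 16 / L) ^ (n - 36))) ^ 2) ≤
      64 * E ^ 72 * L ^ 80 * (t ^ (64 * n))⁻¹ := by
  obtain ⟨m, rfl⟩ : ∃ m, n = m + 36 := ⟨n - 36, by omega⟩
  have ht0 : 0 < t := by linarith
  have e1 : m + 36 - 36 = m := by omega
  rw [e1]
  have e2 : ((t ^ 128)⁻¹) ^ (m + 36) * (L ^ 2) ^ (m + 36) * ((t ^ 8) ^ (2 * (m + 36)) *
      (L ^ 2) ^ 4 * 16 * (2 * (E ^ 36 * (t ^ 8) ^ (m + 36 + 1) * (t ^ 8) ^ 36 *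
        (t ^ 16 / L) ^ m)) ^ 2) =
      64 * E ^ 72 * L ^ 80 * (t ^ (64 * (m + 36)))⁻¹ * (t ^ 560)⁻¹ := by
    rw [div_pow, inv_pow, ← pow_mul]
    field_simp
    ring
  rw [e2]
  have h3 : (t ^ 560)⁻¹ ≤ 1 := inv_le_one_of_one_le₀ (one_le_pow₀ ht)
  have h4 : 0 ≤ 64 * E ^ 72 * L ^ 80 * (t ^ (64 * (m + 36)))⁻¹ := by positivity
  nlinarith


/-- all elementary inequalities used for large scales -/
theorem num_conds {CA CM t L X : ℝ} {k r s ρ1 r0 : ℕ} (hCA : 1 ≤ CA) (hCM : 1 ≤ CM)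
    (hc1 : 1000 ≤ t) (hc2 : 1000 * CM ≤ t) (hc3 : 100 * CA ≤ t)
    (hc4 : 4 * ((k : ℝ) + 1) ^ 3 * 41 ^ 3 * 11 * CM ≤ t) (hL : t ^ 20 ≤ L) (hs : (s : ℝ) ≤ t)
    (hX : L / t ≤ X) (hXL : X ≤ L) (hr : (r : ℝ) ≤ X / 100) (hρ : L / t ^ 4 ≤ ρ1)
    (hr0 : X / 20 - 1 ≤ r0) (hr0' : (r0 : ℝ) ≤ X / 20) :
    CM ≤ r0 ∧ (r0 : ℝ) + 9 ≤ L ∧ 2 * ((r : ℝ) + s + 4) ≤ r0 ∧ 2 * (s : ℝ) + 10 ≤ ρ1 ∧
    CM * (2 * s + 9) * (t ^ 2 / L) ≤ 1 ∧ CA / ((ρ1 : ℝ) - (2 * s + 8)) + t ^ 2 / L ≤ t ^ 8 / (4 * L) ∧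
    (∀ n : ℕ, n ≤ k → 4 * (((n + 1) * (8 * (s + 2) + 17) : ℕ) : ℝ) ^ 3 * (CM * (2 * s + 9)) ≤ t ^ 8) ∧
    t ^ 16 / L ≤ 1 / 2 ∧ (2 * (s : ℝ) + 3) ^ 2 * (2 * s + 5) ^ 2 ≤ t ^ 8 ∧ 40 * L + 21 ≤ L ^ 2 ∧
    (2 * (r : ℝ) + 1) ≤ L := by
  have ht0 : 0 < t := by linarith
  have ht1 : 1 ≤ t := by linarith
  have hp : ∀ {a b : ℕ}, a ≤ b → t ^ a ≤ t ^ b := fun h => pow_le_pow_right₀ ht1 h
  have hL0 : 0 < L := lt_of_lt_of_le (by positivity) hL
  have hs0 : (0 : ℝ) ≤ s := by positivity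
  have hr00 : (0 : ℝ) ≤ r := by positivity
  -- `L` in terms of `t`
  have hL19 : t ^ 19 * t ≤ L := by rw [← pow_succ]; exact hL
  have hLt : t ^ 19 ≤ L / t := by rw [le_div_iff₀ ht0]; exact hL19
  have h2 : t ^ 2 ≤ t ^ 19 := hp (by norm_num)
  have hLt0 : 0 < L / t := by positivity
  have hbig : 1000000 * t ≤ L / t := by
    have h3 : t ^ 3 ≤ t ^ 19 := hp (by norm_num)
    have : 1000000 * t ≤ t ^ 3 := by nlinarith [sq_nonneg t, mul_le_mul hc1 hc1 (by norm_num) ht0.le]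
    linarith
  have hLtL : L / t ≤ L / 1000 := by gcongr
  refine ⟨?_, ?_, ?_, ?_, ?_, ?_, ?_, ?_, ?_, ?_, ?_⟩
  · linarith
  · linarith
  · linarith
  · refine le_trans ?_ hρ
    rw [le_div_iff₀ (by positivity)]
    calc (2 * (s : ℝ) + 10) * t ^ 4 ≤ (t * t) * t ^ 4 := by
          apply mul_le_mul_of_nonneg_right _ (by positivity)
          nlinarith
      _ = t ^ 6 := by ring
      _ ≤ t ^ 20 := hp (by norm_num)
      _ ≤ L := hL
  · rw [← mul_div_assoc, div_le_one hL0]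
    calc CM * (2 * (s : ℝ) + 9) * t ^ 2 ≤ t * t * t ^ 2 := by
          have h3 : CM * (2 * (s : ℝ) + 9) ≤ t * t := by
            have h4 : 2 * (s : ℝ) + 9 ≤ 11 * t := by linarith
            calc CM * (2 * (s : ℝ) + 9) ≤ (t / 1000) * (11 * t) := by
                  apply mul_le_mul (by linarith) h4 (by positivity) (by positivity)
              _ ≤ t * t := by nlinarith
          gcongr
      _ = t ^ 4 := by ring
      _ ≤ t ^ 20 := hp (by norm_num)
      _ ≤ L := hL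
  · have h3 : L / (2 * t ^ 4) ≤ (ρ1 : ℝ) - (2 * s + 8) := by
      have h4 : L / (2 * t ^ 4) = L / t ^ 4 / 2 := by field_simp
      rw [h4]
      have h5 : 2 * (2 * (s : ℝ) + 8) ≤ L / t ^ 4 := by
        rw [le_div_iff₀ (by positivity)]
        calc 2 * (2 * (s : ℝ) + 8) * t ^ 4 ≤ (t * t) * t ^ 4 := by
              apply mul_le_mul_of_nonneg_right _ (by positivity)
              nlinarith
          _ = t ^ 6 := by ring
          _ ≤ t ^ 20 := hp (by norm_num)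
          _ ≤ L := hL
      linarith
    have h4 : CA / ((ρ1 : ℝ) - (2 * s + 8)) ≤ CA / (L / (2 * t ^ 4)) :=
      div_le_div_of_nonneg_left (by linarith) (by positivity) h3
    have h5 : CA / (L / (2 * t ^ 4)) = (2 * CA * t ^ 4) / L := by field_simp
    rw [h5] at h4
    have h6 : (2 * CA * t ^ 4) / L + t ^ 2 / L ≤ t ^ 8 / (4 * L) := by
      rw [← add_div, div_le_div_iff₀ hL0 (by positivity)]
      have h7 : (2 * CA * t ^ 4 + t ^ 2) * 4 ≤ t ^ 8 := by
        have h8 : t ^ 2 ≤ t ^ 4 := hp (by norm_num)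
        have h9 : (2 * CA * t ^ 4 + t ^ 2) * 4 ≤ (8 * CA + 4) * t ^ 4 := by nlinarith
        have h10 : (8 * CA + 4) * t ^ 4 ≤ t * t ^ 4 := by
          apply mul_le_mul_of_nonneg_right (by linarith) (by positivity)
        have h11 : t * t ^ 4 = t ^ 5 := by ring
        have h12 : t ^ 5 ≤ t ^ 8 := hp (by norm_num)
        linarith
      calc (2 * CA * t ^ 4 + t ^ 2) * (4 * L) = ((2 * CA * t ^ 4 + t ^ 2) * 4) * L := by ring
        _ ≤ t ^ 8 * L := by gcongr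
    linarith
  · intro n hn
    have h3 : (((n + 1) * (8 * (s + 2) + 17) : ℕ) : ℝ) ≤ ((k : ℝ) + 1) * (41 * t) := by
      push_cast
      have h4 : (n : ℝ) + 1 ≤ k + 1 := by
        have : (n : ℝ) ≤ k := by exact_mod_cast hn
        linarith
      have h5 : 8 * ((s : ℝ) + 2) + 17 ≤ 41 * t := by linarith
      exact mul_le_mul h4 h5 (by positivity) (by positivity)
    have h4 : CM * (2 * (s : ℝ) + 9) ≤ CM * (11 * t) := by
      gcongr
      linarith
    calc 4 * (((n + 1) * (8 * (s + 2) + 17) : ℕ) : ℝ) ^ 3 * (CM * (2 * s + 9))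
        ≤ 4 * (((k : ℝ) + 1) * (41 * t)) ^ 3 * (CM * (11 * t)) := by gcongr
      _ = (4 * ((k : ℝ) + 1) ^ 3 * 41 ^ 3 * 11 * CM) * t ^ 4 := by ring
      _ ≤ t * t ^ 4 := by gcongr
      _ = t ^ 5 := by ring
      _ ≤ t ^ 8 := hp (by norm_num)
  · rw [div_le_iff₀ hL0]
    have h3 : t ^ 16 * t ≤ t ^ 20 := by rw [← pow_succ]; exact hp (by norm_num)
    have h4 : 2 * t ^ 16 ≤ t ^ 16 * t := by nlinarith [pow_pos ht0 16]
    linarith
  · calc (2 * (s : ℝ) + 3) ^ 2 * (2 * s + 5) ^ 2 ≤ (5 * t) ^ 2 * (7 * t) ^ 2 := by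
          have : 2 * (s : ℝ) + 3 ≤ 5 * t := by linarith
          have : 2 * (s : ℝ) + 5 ≤ 7 * t := by linarith
          gcongr
      _ = 1225 * t ^ 4 := by ring
      _ ≤ t ^ 2 * t ^ 4 := by
          apply mul_le_mul_of_nonneg_right _ (by positivity)
          nlinarith
      _ = t ^ 6 := by ring
      _ ≤ t ^ 8 := hp (by norm_num)
  · have : 1000 ≤ L / t := by nlinarith
    have : 100 ≤ L := by linarith
    nlinarith
  · have : 1000 ≤ L / t := by nlinarith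
    linarith


/-! ### the probability of the good event -/

open Classical in
theorem pr_bad {A : Pt → ℝ} (hA : IsPlane A) {γ a0 p : ℝ} (hγ : 0 < γ) (hγ1 : γ < 1 / 10)
    (ha0 : 0 < a0) (hp : 0 < p) (m : ℕ) (hm : p + 5 ≤ m) : ∃ C : ℝ, 0 < C ∧
    ∀ (R : ℕ) (T : Temp), 1 ≤ R → Fits T R → ∀ (y : Pt) (L : ℕ), (R : ℝ) ^ a0 ≤ L →
      C * L ≤ dF T.faceSet y →
      Pr T.V (fun ω => ¬ (CwGood T A y L ⌊(L : ℝ) ^ (1 - γ) / 20⌋₊ ((R : ℝ) ^ m)
        ((L : ℝ) ^ (-1 + γ + γ)) (Vin T.V (box y L) ω.1) ∧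
        CwGood T A y L ⌊(L : ℝ) ^ (1 - γ) / 20⌋₊ ((R : ℝ) ^ m)
        ((L : ℝ) ^ (-1 + γ + γ)) (Vin T.V (box y L) ω.2))) ≤ C * (R : ℝ) ^ (-p) := by
  obtain ⟨C1, hC1, hap⟩ := T211.apriori E.b_mono'
  obtain ⟨C2, hC2⟩ := E.d_good' A hA γ γ a0 p hγ hγ1 hγ ha0 hp
  refine ⟨3 + 2 * C1 + (486 * C1 + 2 * |C2|), by positivity, ?_⟩
  intro R T hR hfit y L hL hd
  have hR' : (1 : ℝ) ≤ R := by exact_mod_cast hR
  have hR0 : (0 : ℝ) < R := by linarith
  have hL1 : (1 : ℝ) ≤ L := (Real.one_le_rpow hR' ha0.le).trans hL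
  set C := 3 + 2 * C1 + (486 * C1 + 2 * |C2|) with hC
  have hC3 : 3 ≤ C := by rw [hC]; linarith [abs_nonneg C2]
  have hCC1 : 2 * C1 ≤ C := by rw [hC]; linarith [abs_nonneg C2]
  have hdR : (dF T.faceSet y : ℝ) ≤ R + 1 := by exact_mod_cast E.dF_le_of_fits hfit y
  have h3L : 3 * (L : ℝ) ≤ C * L := by gcongr
  have hLR : (L : ℝ) ≤ R := by linarith
  have hT : ∀ v, dinf y v ≤ L → v ∈ T.V := by
    intro v hv
    apply E1.mem_V_of_dF (n := L) _ (F.mem_box_iff.2 hv)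
    have : (L : ℝ) + 1 < dF T.faceSet y := by linarith
    exact_mod_cast this
  have hbad := hap T y L (by
    have h3 : 2 * C1 * (L : ℝ) ≤ C * L := by gcongr
    have h4 : C1 * (1 + L) ≤ 2 * C1 * L := by nlinarith
    linarith) ((R : ℝ) ^ m) (by positivity)
  have hb1 : C1 * (1 + (L : ℝ)) ^ 5 / (R : ℝ) ^ m ≤ 243 * C1 * (R : ℝ) ^ (-p) := by
    have h1 : (1 + (L : ℝ)) ^ 5 ≤ (3 * (R : ℝ)) ^ 5 := by
      gcongr
      linarith
    have h2 : (R : ℝ) ^ 5 / (R : ℝ) ^ m ≤ (R : ℝ) ^ (-p) := by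
      rw [← Real.rpow_natCast, ← Real.rpow_natCast, ← Real.rpow_sub hR0]
      apply Real.rpow_le_rpow_of_exponent_le hR'
      push_cast
      linarith
    calc C1 * (1 + (L : ℝ)) ^ 5 / (R : ℝ) ^ m ≤ C1 * (3 * (R : ℝ)) ^ 5 / (R : ℝ) ^ m := by
          gcongr
      _ = 243 * C1 * ((R : ℝ) ^ 5 / (R : ℝ) ^ m) := by ring
      _ ≤ 243 * C1 * (R : ℝ) ^ (-p) := by gcongr
  have hgood := hC2 R T hR hfit y L hL (by
    have : 2 * (L : ℝ) ≤ dF T.faceSet y := by linarith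
    exact_mod_cast this)
  set bad1 : (Pt → Pt) → ℝ := fun m' =>
    if T211.AP (Vin T.V (box y L) m') ((R : ℝ) ^ m) then (0 : ℝ) else 1 with hb1d
  set bad2 : (Pt → Pt) → ℝ := fun m' =>
    if GoodM A T γ γ y L m' then (0 : ℝ) else 1 with hb2d
  have hpt : ∀ m' ∈ PM T.V, ¬ CwGood T A y L ⌊(L : ℝ) ^ (1 - γ) / 20⌋₊ ((R : ℝ) ^ m)
        ((L : ℝ) ^ (-1 + γ + γ)) (Vin T.V (box y L) m') → (1 : ℝ) ≤ bad1 m' + bad2 m' := by
    intro m' hm' hng
    by_contra hlt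
    push Not at hlt
    apply hng
    have n1 : T211.AP (Vin T.V (box y L) m') ((R : ℝ) ^ m) := by
      by_contra hc
      simp only [hb1d, hb2d, hc, if_false] at hlt
      split_ifs at hlt <;> linarith
    have n2 : GoodM A T γ γ y L m' := by
      by_contra hc
      simp only [hb1d, hb2d, hc, if_false] at hlt
      split_ifs at hlt <;> linarith
    refine ⟨T211.sub_Vin' hm', fun v hv => (E1.mem_Vin.1 hv).2.1, ?_, n1, n2⟩
    intro v hv
    have hvV : v ∈ T.V := hT v (by omega)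
    rw [E1.mem_Vin, mem_box_dinf, mem_box_dinf]
    refine ⟨hvV, by omega, ?_⟩
    have := adj_dinf (y := y) ((mem_PM.1 hm').adj v hvV)
    rw [abs_le] at this
    omega
  have hb0 : ∀ m', 0 ≤ bad1 m' ∧ 0 ≤ bad2 m' := by
    intro m'
    simp only [hb1d, hb2d]
    constructor <;> split_ifs <;> norm_num
  calc _ ≤ J.avg (DD T.V) (fun ω => (bad1 ω.1 + bad2 ω.1) + (bad1 ω.2 + bad2 ω.2)) := by
        rw [E.Pr_eq_avg]
        apply J.avg_mono
        intro ω hω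
        have h1 := (mem_product.1 hω).1
        have h2 := (mem_product.1 hω).2
        have p1 := hb0 ω.1
        have p2 := hb0 ω.2
        split_ifs with h
        · linarith [p1.1, p1.2, p2.1, p2.2]
        · rw [not_and_or] at h
          rcases h with h | h
          · have := hpt _ h1 h
            linarith [p2.1, p2.2]
          · have := hpt _ h2 h
            linarith [p1.1, p1.2]
    _ = 2 * (Ex1 T.V bad1 + Ex1 T.V bad2) := by
        rw [J.avg_add, ← J.Ex_eq_avg, ← J.Ex_eq_avg,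
          E.Ex_fst T.V (fun m' => bad1 m' + bad2 m'), E.Ex_snd T.V (fun m' => bad1 m' + bad2 m')]
        have : Ex1 T.V (fun m' => bad1 m' + bad2 m') = Ex1 T.V bad1 + Ex1 T.V bad2 := by
          rw [E1.Ex1_eq_avg, E1.Ex1_eq_avg, E1.Ex1_eq_avg, J.avg_add]
        rw [this]
        ring
    _ ≤ 2 * (243 * C1 * (R : ℝ) ^ (-p) + |C2| * (R : ℝ) ^ (-p)) := by
        have h1 := hbad.trans hb1
        have h2 : Ex1 T.V bad2 ≤ |C2| * (R : ℝ) ^ (-p) := by
          refine hgood.trans ?_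
          apply mul_le_mul_of_nonneg_right (le_abs_self _)
          exact Real.rpow_nonneg hR0.le _
        linarith
    _ = (486 * C1 + 2 * |C2|) * (R : ℝ) ^ (-p) := by ring
    _ ≤ C * (R : ℝ) ^ (-p) := by
        apply mul_le_mul_of_nonneg_right _ (Real.rpow_nonneg hR0.le _)
        rw [hC]; linarith

end Vale.Agent.P155.SW
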