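import Vale.Agent.P155.F.CwGlob

/-!
# P155, TIGHT (S6): contact weight, final form
-/

namespace Vale.Agent.P155.SW

open Finset Vale.Agent.P155 Skel

theorem twoStr_iff {V B : Finset Pt} {ω : Conf} {x : Pt} {s : ℕ} :
    TwoStr V B ω x s ↔ TwoVisit (fun _ : Fin 1 => box x s) (res V B ω) := by
  constructor
  · rintro ⟨p, q, ⟨h1, h2, h3⟩, h4, h5⟩
    exact ⟨p, q, h1, h2, h3, fun _ => ⟨h4, h5⟩⟩
  · rintro ⟨p, q, h1, h2, h3, h4⟩
    exact ⟨p, q, ⟨h1, h2, h3⟩, (h4 0).1, (h4 0).2⟩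

/-- the weights `w` have local masses at most `M (r/n)^β` at all scales `r ≥ r0` -/
structure LocMass (w : Pt → ℝ) (M β : ℝ) (n : ℕ) (r0 : ℝ) : Prop where
  nonneg : ∀ x, 0 ≤ w x
  mass : ∀ (x : Pt) (r : ℕ), r0 ≤ r → r ≤ n → ∑ x' ∈ box x r, w x' ≤ M * ((r : ℝ) / n) ^ β

theorem LocMass.M_nonneg {w : Pt → ℝ} {M β : ℝ} {n : ℕ} {r0 : ℝ} (h : LocMass w M β n r0)
    (hn : 1 ≤ n) (hr : r0 ≤ n) : 0 ≤ M := by
  have h1 := h.mass (0, 0) n hr le_rfl
  have hn' : (0 : ℝ) < n := by exact_mod_cast hn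
  rw [div_self hn'.ne', Real.one_rpow, mul_one] at h1
  exact (sum_nonneg fun x _ => h.nonneg x).trans h1

open Classical in
/-- **(S6) contact weight.** Off an event of probability `C R^{-p}`, all weights `w ≥ 0` with local
masses at most `M (r/n)^β` at the scales `r ≥ n^{β/512}` give mass at most `C M n^{-β²/128}` to the
points `x` of `box p0 n`, at distance at least `C ρ0` from the complement, such that two different
strands of `box x ρ0` visit `box x s`. -/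
theorem cw_final {A : Pt → ℝ} (hA : IsPlane A) {β p a0 : ℝ} (hβ : 0 < β) (hβ1 : β ≤ 1)
    (hp : 0 < p) (ha0 : 0 < a0) : ∃ C : ℝ, 0 < C ∧
    ∀ (R : ℕ) (T : Temp), 1 ≤ R → Fits T R → ∀ (p0 : Pt) (n ρ0 s : ℕ), (R : ℝ) ^ a0 ≤ n → n ≤ R →
      (n : ℝ) ^ (1 - β ^ 2 / 1024) ≤ ρ0 → (s : ℝ) ≤ (n : ℝ) ^ (β / 512) →
      Pr T.V (fun ω => ∃ (w : Pt → ℝ) (M : ℝ), LocMass w M β n ((n : ℝ) ^ (β / 512)) ∧
        C * (M * (n : ℝ) ^ (-(β ^ 2 / 128))) <
          ∑ x ∈ (box p0 n).filter (fun x => C * ρ0 ≤ dF T.faceSet x ∧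
            TwoStr T.V (box x ρ0) ω x s), w x) ≤ C * (R : ℝ) ^ (-p) := by
  obtain ⟨C1, hC1, hcw⟩ := cw_points_unif hA (βm := β / 2) (κ := β ^ 2 / 1024) (p := p + 1)
    (a0 := a0 / 2) (by positivity) (by linarith) (by positivity) (by nlinarith) (by positivity)
    (by positivity)
  obtain ⟨C, hC⟩ : ∃ C : ℝ, C = 1000 + 32000000 * C1 := ⟨_, rfl⟩
  have hCpos : 0 < C := by rw [hC]; positivity
  refine ⟨C, hCpos, ?_⟩
  intro R T hR hfit p0 n ρ0 s hn hnR hρ0 hs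
  have hR' : (1 : ℝ) ≤ R := by exact_mod_cast hR
  have hR0 : (0 : ℝ) < R := by linarith
  have hn1 : (1 : ℝ) ≤ n := (Real.one_le_rpow hR' ha0.le).trans hn
  have hn0 : (0 : ℝ) < n := by linarith
  have hn1' : 1 ≤ n := by exact_mod_cast hn1
  have hββ : β ^ 2 ≤ β := by nlinarith
  have hb2 : 0 < β ^ 2 := by positivity
  have hrn : (n : ℝ) ^ (β / 512) ≤ n := by
    calc (n : ℝ) ^ (β / 512) ≤ (n : ℝ) ^ (1 : ℝ) :=
          Real.rpow_le_rpow_of_exponent_le hn1 (by linarith)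
      _ = n := Real.rpow_one _
  have hRp : (0 : ℝ) < (R : ℝ) ^ (-p) := Real.rpow_pos_of_pos hR0 _
  by_cases hbig : 1000 ≤ (n : ℝ) ^ (β / 64)
  swap
  · -- small scales: the event is empty
    push Not at hbig
    have h0 : Pr T.V (fun ω => ∃ (w : Pt → ℝ) (M : ℝ), LocMass w M β n ((n : ℝ) ^ (β / 512)) ∧
        C * (M * (n : ℝ) ^ (-(β ^ 2 / 128))) <
          ∑ x ∈ (box p0 n).filter (fun x => C * ρ0 ≤ dF T.faceSet x ∧
            TwoStr T.V (box x ρ0) ω x s), w x) ≤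
        Pr T.V (fun ω => ∃ i ∈ (∅ : Finset ℕ), (fun _ _ => False) i ω) := by
      apply E.Pr_mono
      rintro ω - ⟨w, M, hw, hlt⟩
      exfalso
      have hM := hw.M_nonneg hn1' hrn
      have h1 := hw.mass p0 n hrn le_rfl
      rw [div_self hn0.ne', Real.one_rpow, mul_one] at h1
      have h2 : ∑ x ∈ (box p0 n).filter (fun x => C * ρ0 ≤ dF T.faceSet x ∧
            TwoStr T.V (box x ρ0) ω x s), w x ≤ ∑ x ∈ box p0 n, w x :=
        sum_le_sum_of_subset_of_nonneg (filter_subset _ _) (fun x _ _ => hw.nonneg x)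
      have h3 : (n : ℝ) ^ (β ^ 2 / 128) ≤ 1000 := by
        calc (n : ℝ) ^ (β ^ 2 / 128) ≤ (n : ℝ) ^ (β / 64) :=
              Real.rpow_le_rpow_of_exponent_le hn1 (by linarith)
          _ ≤ 1000 := hbig.le
      have h4 : 1 ≤ C * (n : ℝ) ^ (-(β ^ 2 / 128)) := by
        have h5 : (n : ℝ) ^ (β ^ 2 / 128) * (n : ℝ) ^ (-(β ^ 2 / 128)) = 1 := by
          rw [← Real.rpow_add hn0]; simp
        rw [← h5]
        apply mul_le_mul_of_nonneg_right _ (Real.rpow_nonneg hn0.le _)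
        rw [hC]
        linarith
      have h6 : M ≤ C * (M * (n : ℝ) ^ (-(β ^ 2 / 128))) := by
        calc M = M * 1 := (mul_one M).symm
          _ ≤ M * (C * (n : ℝ) ^ (-(β ^ 2 / 128))) := mul_le_mul_of_nonneg_left h4 hM
          _ = _ := by ring
      linarith
    have h1 := E.Pr_exists_le_card T.V (∅ : Finset ℕ) (fun _ _ => False) (b := 0)
      (by simp)
    have h2 : ((∅ : Finset ℕ).card : ℝ) * 0 = 0 := by simp
    rw [h2] at h1
    have : 0 ≤ C * (R : ℝ) ^ (-p) := by positivity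
    exact (h0.trans h1).trans this
  -- large scales
  obtain ⟨L, r, ρ1, r1, a1, a2, a3, a4, a5, a6, a7, a8, a9, a10, a11, a12, a13, a14, a15, a16⟩ :=
    glob_numbers hβ hβ1 hn1' hbig
  have hL1 : (1 : ℝ) ≤ L := (Real.one_le_rpow hn1 (by norm_num)).trans a1
  have hLR : (R : ℝ) ^ (a0 / 2) ≤ L := by
    refine le_trans ?_ a1
    calc (R : ℝ) ^ (a0 / 2) = ((R : ℝ) ^ a0) ^ (1 / 2 : ℝ) := by
          rw [← Real.rpow_mul hR0.le]; congr 1; ring
      _ ≤ (n : ℝ) ^ (1 / 2 : ℝ) := Real.rpow_le_rpow (by positivity) hn (by norm_num)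
  have hr1 : 1 ≤ r := by
    have h1 : (1 : ℝ) ≤ (n : ℝ) ^ (β / 512) := Real.one_le_rpow hn1 (by linarith)
    have : (1 : ℝ) ≤ r := h1.trans a8
    exact_mod_cast this
  have hLr : (L : ℝ) + r ≤ ρ0 := a3.trans hρ0
  have hLr' : L + r ≤ ρ0 := by exact_mod_cast hLr
  obtain ⟨μ, hμ⟩ : ∃ μ : ℝ, μ = 2 * (n : ℝ) ^ (-(β ^ 2 / 64)) := ⟨_, rfl⟩
  have hμ0 : 0 < μ := by rw [hμ]; positivity
  -- the bad event
  obtain ⟨G, hG⟩ : ∃ G : Finset Pt, G = (grid p0 n r).filter (fun y => C1 * L ≤ dF T.faceSet y) :=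
    ⟨_, rfl⟩
  have hGcard : (G.card : ℝ) ≤ 16000000 * (n : ℝ) ^ (β ^ 2 / 256) := by
    have h1 : (G.card : ℝ) ≤ (grid p0 n r).card := by
      rw [hG]; exact_mod_cast card_filter_le _ _
    exact h1.trans ((card_grid_le hr1 a9).trans a16)
  obtain ⟨Bd, hBd⟩ : ∃ Bd : Pt → Conf → Prop, Bd = fun y ω => ∃ (w : Pt → ℝ) (M : ℝ), 0 ≤ M ∧
        (∀ x ∈ box y r, 0 ≤ w x ∧ w x ≤ M * (L : ℝ) ^ (-(β / 2))) ∧ ∑ x ∈ box y r, w x ≤ M ∧
        (∀ x ∈ box y r, ∑ x' ∈ (box y r).filter (fun x' => ¬ sepP ρ1 x x'), w x' ≤ M * μ) ∧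
        C1 * (M * μ) < ∑ x ∈ (box y r).filter (fun x => TwoStr T.V (box y L) ω x s), w x :=
    ⟨_, rfl⟩
  have hs' : (s : ℝ) ≤ (L : ℝ) ^ (β / 2 / 128) := hs.trans a4
  have hBad : ∀ y ∈ G, Pr T.V (Bd y) ≤ C1 * (R : ℝ) ^ (-(p + 1)) := by
    intro y hy
    rw [hG, mem_filter] at hy
    rw [hBd]
    exact hcw R T hR hfit y L s ρ1 r hLR hy.2 hs' a5 a6 μ (by rw [hμ]; exact a7)
  have hsub : ∀ ω ∈ DD T.V, (∃ (w : Pt → ℝ) (M : ℝ), LocMass w M β n ((n : ℝ) ^ (β / 512)) ∧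
        C * (M * (n : ℝ) ^ (-(β ^ 2 / 128))) <
          ∑ x ∈ (box p0 n).filter (fun x => C * ρ0 ≤ dF T.faceSet x ∧
            TwoStr T.V (box x ρ0) ω x s), w x) → ∃ y ∈ G, Bd y ω := by
    rintro ω hω ⟨w, M, hw, hlt⟩
    have hM := hw.M_nonneg hn1' hrn
    by_contra hno
    push Not at hno
    apply absurd hlt
    push Not
    have hcov := sum_cover hω (p0 := p0) (n := n) (s := s) hr1 hLr'
      (fun x => C * ρ0 ≤ dF T.faceSet x) (fun y => C1 * L ≤ dF T.faceSet y) (by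
        intro x y hxy hx
        have hex : ∃ q, q ∉ T.faceSet := G45.exists_notMem T.faceSet_finite
        have h1 := G45.dF_lip hex x y
        have h2 : dn x y ≤ r := by
          rw [mem_box_dinf] at hxy
          rw [F.dinf_symm] at hxy
          unfold dn
          omega
        have h3 : (dF T.faceSet x : ℝ) ≤ dF T.faceSet y + r := by
          have : dF T.faceSet x ≤ dF T.faceSet y + r := by omega
          exact_mod_cast this
        have h4 : C1 * ρ0 + ρ0 ≤ C * ρ0 := by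
          rw [hC]
          have : (0 : ℝ) ≤ ρ0 := Nat.cast_nonneg _
          nlinarith
        have hL0 : (0 : ℝ) ≤ L := Nat.cast_nonneg _
        have hr0 : (0 : ℝ) ≤ r := Nat.cast_nonneg _
        have h5 : C1 * L ≤ C1 * ρ0 := mul_le_mul_of_nonneg_left (by linarith) hC1.le
        linarith) hw.nonneg
    refine hcov.trans ?_
    rw [← hG]
    have hone : ∀ y ∈ G, ∑ x ∈ (box y r).filter (fun x => TwoStr T.V (box y L) ω x s), w x ≤
        C1 * (M * μ) := by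
      intro y hy
      have h1 := hno y hy
      rw [hBd] at h1
      by_contra hlt2
      push Not at hlt2
      apply h1
      refine ⟨w, M, hM, ?_, ?_, ?_, hlt2⟩
      · intro x _
        refine ⟨hw.nonneg x, ?_⟩
        have h2 : w x ≤ ∑ x' ∈ box x r1, w x' := by
          apply single_le_sum (f := w) (fun x' _ => hw.nonneg x')
          rw [mem_box_dinf]
          unfold dinf
          simp
        exact (h2.trans (hw.mass x r1 a13 a14)).trans (mul_le_mul_of_nonneg_left a15 hM)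
      · have h2 := hw.mass y r a8 a9
        refine h2.trans ?_
        have h3 : ((r : ℝ) / n) ^ β ≤ 1 := by
          apply Real.rpow_le_one (by positivity) _ hβ.le
          rw [div_le_one hn0]
          exact_mod_cast a9
        calc M * ((r : ℝ) / n) ^ β ≤ M * 1 := mul_le_mul_of_nonneg_left h3 hM
          _ = M := mul_one M
      · intro x _
        have h2 : ∑ x' ∈ (box y r).filter (fun x' => ¬ sepP ρ1 x x'), w x' ≤
            ∑ x' ∈ box x ρ1, w x' := by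
          apply sum_le_sum_of_subset_of_nonneg
          · intro x' hx'
            rw [mem_filter] at hx'
            rw [mem_box_dinf]
            have h3 := hx'.2
            unfold sepP at h3
            omega
          · intro x' _ _
            exact hw.nonneg x'
        refine (h2.trans (hw.mass x ρ1 a10 a11)).trans (mul_le_mul_of_nonneg_left ?_ hM)
        rw [hμ]
        exact a12
    calc ∑ y ∈ G, ∑ x ∈ (box y r).filter (fun x => TwoStr T.V (box y L) ω x s), w x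
        ≤ ∑ _y ∈ G, C1 * (M * μ) := sum_le_sum hone
      _ = G.card * (C1 * (M * μ)) := by rw [sum_const, nsmul_eq_mul]
      _ ≤ (16000000 * (n : ℝ) ^ (β ^ 2 / 256)) * (C1 * (M * μ)) := by
          apply mul_le_mul_of_nonneg_right hGcard
          positivity
      _ = 32000000 * C1 * (M * ((n : ℝ) ^ (β ^ 2 / 256) * (n : ℝ) ^ (-(β ^ 2 / 64)))) := by
          rw [hμ]; ring
      _ ≤ C * (M * (n : ℝ) ^ (-(β ^ 2 / 128))) := by
          have h1 : (n : ℝ) ^ (β ^ 2 / 256) * (n : ℝ) ^ (-(β ^ 2 / 64)) ≤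
              (n : ℝ) ^ (-(β ^ 2 / 128)) := by
            rw [← Real.rpow_add hn0]
            apply Real.rpow_le_rpow_of_exponent_le hn1
            linarith
          have h2 : 0 ≤ (n : ℝ) ^ (β ^ 2 / 256) * (n : ℝ) ^ (-(β ^ 2 / 64)) := by positivity
          apply mul_le_mul _ (mul_le_mul_of_nonneg_left h1 hM) (by positivity) hCpos.le
          rw [hC]
          linarith
  calc _ ≤ Pr T.V (fun ω => ∃ y ∈ G, Bd y ω) := E.Pr_mono hsub
    _ ≤ G.card * (C1 * (R : ℝ) ^ (-(p + 1))) := E.Pr_exists_le_card T.V G Bd hBad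
    _ ≤ (16000000 * (n : ℝ) ^ (β ^ 2 / 256)) * (C1 * (R : ℝ) ^ (-(p + 1))) := by
        apply mul_le_mul_of_nonneg_right hGcard
        positivity
    _ ≤ (16000000 * R) * (C1 * (R : ℝ) ^ (-(p + 1))) := by
        apply mul_le_mul_of_nonneg_right _ (by positivity)
        have h1 : (n : ℝ) ^ (β ^ 2 / 256) ≤ R := by
          calc (n : ℝ) ^ (β ^ 2 / 256) ≤ (n : ℝ) ^ (1 : ℝ) :=
                Real.rpow_le_rpow_of_exponent_le hn1 (by linarith)
            _ = n := Real.rpow_one _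
            _ ≤ R := by exact_mod_cast hnR
        linarith
    _ = 16000000 * C1 * (R : ℝ) ^ (-p) := by
        have h1 : (R : ℝ) * (R : ℝ) ^ (-(p + 1)) = (R : ℝ) ^ (-p) := by
          nth_rewrite 1 [← Real.rpow_one (R : ℝ)]
          rw [← Real.rpow_add hR0]
          congr 1
          ring
        rw [← h1]
        ring
    _ ≤ C * (R : ℝ) ^ (-p) := by
        apply mul_le_mul_of_nonneg_right _ hRp.le
        rw [hC]
        linarith

open Classical in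
/-- **(S6) contact weight, in expectation.** -/
theorem cw_final_ex {A : Pt → ℝ} (hA : IsPlane A) {β a0 : ℝ} (hβ : 0 < β) (hβ1 : β ≤ 1)
    (ha0 : 0 < a0) : ∃ C : ℝ, 0 < C ∧
    ∀ (R : ℕ) (T : Temp), 1 ≤ R → Fits T R → ∀ (p0 : Pt) (n ρ0 s : ℕ), (R : ℝ) ^ a0 ≤ n → n ≤ R →
      (n : ℝ) ^ (1 - β ^ 2 / 1024) ≤ ρ0 → (s : ℝ) ≤ (n : ℝ) ^ (β / 512) →
      ∀ (w : Conf → Pt → ℝ) (M : ℝ),
      (∀ ω ∈ DD T.V, LocMass (w ω) M β n ((n : ℝ) ^ (β / 512))) →
      Ex T.V (fun ω => ∑ x ∈ (box p0 n).filter (fun x => C * ρ0 ≤ dF T.faceSet x ∧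
            TwoStr T.V (box x ρ0) ω x s), w ω x) ≤ C * (|M| * (n : ℝ) ^ (-(β ^ 2 / 128))) := by
  obtain ⟨C1, hC1, hcw⟩ := cw_final hA hβ hβ1 (p := 1) one_pos ha0
  refine ⟨2 * C1, by positivity, ?_⟩
  intro R T hR hfit p0 n ρ0 s hn hnR hρ0 hs w M hw
  have hR' : (1 : ℝ) ≤ R := by exact_mod_cast hR
  have hR0 : (0 : ℝ) < R := by linarith
  have hn1 : (1 : ℝ) ≤ n := (Real.one_le_rpow hR' ha0.le).trans hn
  have hn0 : (0 : ℝ) < n := by linarith
  have hn1' : 1 ≤ n := by exact_mod_cast hn1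
  have hββ : β ^ 2 ≤ β := by nlinarith
  have hrn : (n : ℝ) ^ (β / 512) ≤ n := by
    calc (n : ℝ) ^ (β / 512) ≤ (n : ℝ) ^ (1 : ℝ) :=
          Real.rpow_le_rpow_of_exponent_le hn1 (by linarith)
      _ = n := Real.rpow_one _
  obtain ⟨Bad, hBad⟩ : ∃ Bad : Conf → Prop, Bad = fun ω => ∃ (w : Pt → ℝ) (M : ℝ),
        LocMass w M β n ((n : ℝ) ^ (β / 512)) ∧
        C1 * (M * (n : ℝ) ^ (-(β ^ 2 / 128))) <
          ∑ x ∈ (box p0 n).filter (fun x => C1 * ρ0 ≤ dF T.faceSet x ∧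
            TwoStr T.V (box x ρ0) ω x s), w x := ⟨_, rfl⟩
  have hPr : Pr T.V Bad ≤ C1 * (R : ℝ) ^ (-(1 : ℝ)) := by
    rw [hBad]
    exact hcw R T hR hfit p0 n ρ0 s hn hnR hρ0 hs
  have hc0 : 0 ≤ |M| * (n : ℝ) ^ (-(β ^ 2 / 128)) := by positivity
  have hpt : ∀ ω ∈ DD T.V, ∑ x ∈ (box p0 n).filter (fun x => 2 * C1 * ρ0 ≤ dF T.faceSet x ∧
            TwoStr T.V (box x ρ0) ω x s), w ω x ≤
        C1 * (|M| * (n : ℝ) ^ (-(β ^ 2 / 128))) + |M| * (if Bad ω then 1 else 0) := by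
    intro ω hω
    have hM := (hw ω hω).M_nonneg hn1' hrn
    have h1 : ∑ x ∈ (box p0 n).filter (fun x => 2 * C1 * ρ0 ≤ dF T.faceSet x ∧
            TwoStr T.V (box x ρ0) ω x s), w ω x ≤
        ∑ x ∈ (box p0 n).filter (fun x => C1 * ρ0 ≤ dF T.faceSet x ∧
            TwoStr T.V (box x ρ0) ω x s), w ω x := by
      apply sum_le_sum_of_subset_of_nonneg
      · intro x hx
        rw [mem_filter] at hx ⊢
        refine ⟨hx.1, le_trans ?_ hx.2.1, hx.2.2⟩
        have : 0 ≤ C1 * (ρ0 : ℝ) := by positivity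
        linarith
      · intro x _ _
        exact (hw ω hω).nonneg x
    have h2 : ∑ x ∈ (box p0 n).filter (fun x => C1 * ρ0 ≤ dF T.faceSet x ∧
            TwoStr T.V (box x ρ0) ω x s), w ω x ≤ |M| := by
      calc _ ≤ ∑ x ∈ box p0 n, w ω x :=
            sum_le_sum_of_subset_of_nonneg (filter_subset _ _) (fun x _ _ => (hw ω hω).nonneg x)
        _ ≤ M * ((n : ℝ) / n) ^ β := (hw ω hω).mass p0 n hrn le_rfl
        _ = M := by rw [div_self hn0.ne', Real.one_rpow, mul_one]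
        _ ≤ |M| := le_abs_self M
    by_cases hb : Bad ω
    · rw [if_pos hb, mul_one]
      have : 0 ≤ C1 * (|M| * (n : ℝ) ^ (-(β ^ 2 / 128))) := by positivity
      linarith
    · rw [if_neg hb, mul_zero, add_zero]
      refine h1.trans ?_
      by_contra hlt
      push Not at hlt
      apply hb
      rw [hBad]
      refine ⟨w ω, M, hw ω hω, ?_⟩
      rw [abs_of_nonneg hM] at hlt
      exact hlt
  have hex : Ex T.V (fun ω => ∑ x ∈ (box p0 n).filter (fun x => 2 * C1 * ρ0 ≤ dF T.faceSet x ∧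
            TwoStr T.V (box x ρ0) ω x s), w ω x) ≤
      C1 * (|M| * (n : ℝ) ^ (-(β ^ 2 / 128))) + |M| * Pr T.V Bad := by
    refine (J.Ex_mono hpt).trans ?_
    rw [E.Pr_eq_avg, J.Ex_eq_avg, J.avg_add]
    have h1 : J.avg (DD T.V) (fun _ => C1 * (|M| * (n : ℝ) ^ (-(β ^ 2 / 128)))) ≤
        C1 * (|M| * (n : ℝ) ^ (-(β ^ 2 / 128))) :=
      J.avg_le_const (by positivity) (fun _ _ => le_rfl)
    have h2 := J.avg_mul_left (DD T.V) |M| (fun ω => if Bad ω then (1 : ℝ) else 0)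
    linarith
  refine hex.trans ?_
  have h3 : (R : ℝ) ^ (-(1 : ℝ)) ≤ (n : ℝ) ^ (-(β ^ 2 / 128)) := by
    calc (R : ℝ) ^ (-(1 : ℝ)) ≤ (n : ℝ) ^ (-(1 : ℝ)) := by
          rw [Real.rpow_neg hR0.le, Real.rpow_neg hn0.le, Real.rpow_one, Real.rpow_one]
          exact inv_anti₀ hn0 (by exact_mod_cast hnR)
      _ ≤ (n : ℝ) ^ (-(β ^ 2 / 128)) :=
          Real.rpow_le_rpow_of_exponent_le hn1 (by linarith)
  calc C1 * (|M| * (n : ℝ) ^ (-(β ^ 2 / 128))) + |M| * Pr T.V Bad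
      ≤ C1 * (|M| * (n : ℝ) ^ (-(β ^ 2 / 128))) + |M| * (C1 * (n : ℝ) ^ (-(β ^ 2 / 128))) := by
        have h4 : Pr T.V Bad ≤ C1 * (n : ℝ) ^ (-(β ^ 2 / 128)) :=
          hPr.trans (mul_le_mul_of_nonneg_left h3 hC1.le)
        have h5 := mul_le_mul_of_nonneg_left h4 (abs_nonneg M)
        linarith
    _ = _ := by ring

end Vale.Agent.P155.SW
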