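import Vale.Agent.P155.F.CwMono

/-!
# P155, TIGHT: contact weight, global form
-/

namespace Vale.Agent.P155.SW

open Finset Vale.Agent.P155 Skel

/-- grid of centres -/
noncomputable def grid (p0 : Pt) (n r : ℕ) : Finset Pt :=
  (Finset.Icc (-((n / r : ℕ) : ℤ) - 1) ((n / r : ℕ) + 1) ×ˢ
    Finset.Icc (-((n / r : ℕ) : ℤ) - 1) ((n / r : ℕ) + 1)).image
    (fun ij => (p0.1 + ij.1 * r, p0.2 + ij.2 * r))

theorem card_grid (p0 : Pt) (n r : ℕ) : (grid p0 n r).card ≤ (2 * (n / r) + 3) ^ 2 := by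
  unfold grid
  refine card_image_le.trans ?_
  rw [card_product, Int.card_Icc, sq]
  have : (((n / r : ℕ) : ℤ) + 1 + 1 - (-((n / r : ℕ) : ℤ) - 1)).toNat = 2 * (n / r) + 3 := by
    omega
  rw [this]

theorem card_grid_le {p0 : Pt} {n r : ℕ} (hr : 1 ≤ r) (hrn : r ≤ n) :
    ((grid p0 n r).card : ℝ) ≤ (5 * ((n : ℝ) / r)) ^ 2 := by
  have h1 : ((grid p0 n r).card : ℝ) ≤ (2 * ((n / r : ℕ) : ℝ) + 3) ^ 2 := by
    exact_mod_cast card_grid p0 n r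
  refine h1.trans ?_
  have h2 : ((n / r : ℕ) : ℝ) ≤ (n : ℝ) / r := Nat.cast_div_le
  have hr' : (0 : ℝ) < r := by exact_mod_cast hr
  have h3 : (1 : ℝ) ≤ (n : ℝ) / r := by
    rw [le_div_iff₀ hr', one_mul]; exact_mod_cast hrn
  have h4 : (0 : ℝ) ≤ ((n / r : ℕ) : ℝ) := by positivity
  apply pow_le_pow_left₀ (by positivity)
  linarith

/-- the grid boxes cover -/
theorem grid_cover {p0 : Pt} {n r : ℕ} (hr : 1 ≤ r) {x : Pt} (hx : x ∈ box p0 n) :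
    ∃ y ∈ grid p0 n r, x ∈ box y r := by
  have hr' : (0 : ℤ) < r := by exact_mod_cast hr
  have key : ∀ a b : ℤ, |a - b| ≤ n → ∃ i : ℤ, -((n / r : ℕ) : ℤ) - 1 ≤ i ∧
      i ≤ ((n / r : ℕ) : ℤ) + 1 ∧ |(a + i * r) - b| ≤ r := by
    intro a b hab
    rw [abs_le] at hab
    refine ⟨(b - a) / r, ?_, ?_, ?_⟩
    · rw [Int.le_ediv_iff_mul_le hr']
      have h1 : ((n / r : ℕ) : ℤ) = (n : ℤ) / r := by push_cast; rfl
      rw [h1]
      have h2 := Int.lt_ediv_add_one_mul_self (n : ℤ) hr'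
      nlinarith
    · have h1 : ((n / r : ℕ) : ℤ) = (n : ℤ) / r := by push_cast; rfl
      rw [h1]
      have : (b - a) / (r : ℤ) ≤ (n : ℤ) / r := Int.ediv_le_ediv hr' (by omega)
      omega
    · have h2 := Int.lt_ediv_add_one_mul_self (b - a) hr'
      have h3 := Int.ediv_mul_le (b - a) hr'.ne'
      rw [abs_le]
      constructor
      · linarith
      · linarith
  rw [mem_box_dinf] at hx
  unfold dinf at hx
  rw [max_le_iff] at hx
  obtain ⟨i, i1, i2, i3⟩ := key _ _ hx.1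
  obtain ⟨j, j1, j2, j3⟩ := key _ _ hx.2
  refine ⟨(p0.1 + i * r, p0.2 + j * r), ?_, ?_⟩
  · unfold grid
    refine mem_image.2 ⟨(i, j), ?_, rfl⟩
    rw [mem_product, mem_Icc, mem_Icc]
    exact ⟨⟨i1, i2⟩, ⟨j1, j2⟩⟩
  · rw [mem_box_dinf]
    unfold dinf
    rw [max_le_iff]
    exact ⟨i3, j3⟩

open Classical in
/-- pointwise covering bound -/
theorem sum_cover {V : Finset Pt} {ω : Conf} (hω : ω ∈ DD V) {p0 : Pt} {n r L ρ0 s : ℕ}
    (hr : 1 ≤ r) (hρ : L + r ≤ ρ0) (P Q : Pt → Prop) (hPQ : ∀ x y, x ∈ box y r → P x → Q y)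
    {g : Pt → ℝ} (hg : ∀ x, 0 ≤ g x) :
    ∑ x ∈ (box p0 n).filter (fun x => P x ∧ TwoStr V (box x ρ0) ω x s), g x ≤
      ∑ y ∈ (grid p0 n r).filter Q,
        ∑ x ∈ (box y r).filter (fun x => TwoStr V (box y L) ω x s), g x := by
  have hsub : ∀ x ∈ (box p0 n).filter (fun x => P x ∧ TwoStr V (box x ρ0) ω x s),
      ∃ y ∈ (grid p0 n r).filter Q,
        x ∈ (box y r).filter (fun x => TwoStr V (box y L) ω x s) := by
    intro x hx
    rw [mem_filter] at hx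
    obtain ⟨hxn, hPx, hTx⟩ := hx
    obtain ⟨y, hy, hxy⟩ := grid_cover hr hxn
    refine ⟨y, mem_filter.2 ⟨hy, hPQ x y hxy hPx⟩, mem_filter.2 ⟨hxy, hTx.mono hω ?_⟩⟩
    intro v hv
    rw [mem_box_dinf] at hv hxy ⊢
    have h1 := F.dinf_tri x y v
    rw [F.dinf_symm x y] at h1
    have : ((L + r : ℕ) : ℤ) ≤ ρ0 := by exact_mod_cast hρ
    push_cast at this
    omega
  calc ∑ x ∈ (box p0 n).filter (fun x => P x ∧ TwoStr V (box x ρ0) ω x s), g x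
      ≤ ∑ x ∈ (box p0 n).filter (fun x => P x ∧ TwoStr V (box x ρ0) ω x s),
        ∑ y ∈ (grid p0 n r).filter Q,
          (if x ∈ (box y r).filter (fun x => TwoStr V (box y L) ω x s) then g x else 0) := by
        apply sum_le_sum
        intro x hx
        obtain ⟨y, hy, hxy⟩ := hsub x hx
        have h4 := single_le_sum (f := fun y =>
          if x ∈ (box y r).filter (fun x => TwoStr V (box y L) ω x s) then g x else 0)
          (fun y _ => by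
            split_ifs
            · exact hg x
            · exact le_rfl) hy
        simpa only [hxy, if_true] using h4
    _ = ∑ y ∈ (grid p0 n r).filter Q,
        ∑ x ∈ (box p0 n).filter (fun x => P x ∧ TwoStr V (box x ρ0) ω x s),
          (if x ∈ (box y r).filter (fun x => TwoStr V (box y L) ω x s) then g x else 0) :=
        sum_comm
    _ ≤ _ := by
        apply sum_le_sum
        intro y _
        rw [← sum_filter]
        apply sum_le_sum_of_subset_of_nonneg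
        · intro x hx
          exact (mem_filter.1 hx).2
        · intro x _ _
          exact hg x

open Classical in
/-- `cw_points`, uniform in the weights -/
theorem cw_points_unif {A : Pt → ℝ} (hA : IsPlane A) {βm κ p a0 : ℝ} (hβ : 0 < βm) (hβ1 : βm ≤ 1)
    (hκ : 0 < κ) (hκβ : κ ≤ βm / 128) (hp : 0 < p) (ha0 : 0 < a0) : ∃ C : ℝ, 0 < C ∧
    ∀ (R : ℕ) (T : Temp), 1 ≤ R → Fits T R → ∀ (y : Pt) (L s ρ1 r : ℕ), (R : ℝ) ^ a0 ≤ L →
      C * L ≤ dF T.faceSet y → (s : ℝ) ≤ (L : ℝ) ^ (βm / 128) → (L : ℝ) ^ (1 - βm / 32) ≤ ρ1 →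
      (r : ℝ) ≤ (L : ℝ) ^ (1 - κ) / 100 → ∀ μ : ℝ, (L : ℝ) ^ (-(βm / 8)) ≤ μ →
      Pr T.V (fun ω => ∃ (w : Pt → ℝ) (M : ℝ), 0 ≤ M ∧
        (∀ x ∈ box y r, 0 ≤ w x ∧ w x ≤ M * (L : ℝ) ^ (-βm)) ∧ ∑ x ∈ box y r, w x ≤ M ∧
        (∀ x ∈ box y r, ∑ x' ∈ (box y r).filter (fun x' => ¬ sepP ρ1 x x'), w x' ≤ M * μ) ∧
        C * (M * μ) < ∑ x ∈ (box y r).filter (fun x => TwoStr T.V (box y L) ω x s), w x) ≤
        C * (R : ℝ) ^ (-p) := by
  obtain ⟨C, hC, hcw⟩ := cw_points hA hβ hβ1 hκ hκβ hp ha0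
  refine ⟨C, hC, ?_⟩
  intro R T hR hfit y L s ρ1 r hL hd hs hρ hr μ hμ
  have hμ0 : 0 ≤ μ := le_trans (Real.rpow_nonneg (Nat.cast_nonneg _) _) hμ
  obtain ⟨Ev, hE⟩ : ∃ Ev : Conf → (Pt → ℝ) × ℝ → Prop, Ev = fun ω wM => 0 ≤ wM.2 ∧
        (∀ x ∈ box y r, 0 ≤ wM.1 x ∧ wM.1 x ≤ wM.2 * (L : ℝ) ^ (-βm)) ∧
        ∑ x ∈ box y r, wM.1 x ≤ wM.2 ∧
        (∀ x ∈ box y r, ∑ x' ∈ (box y r).filter (fun x' => ¬ sepP ρ1 x x'), wM.1 x' ≤ wM.2 * μ) ∧
        C * (wM.2 * μ) < ∑ x ∈ (box y r).filter (fun x => TwoStr T.V (box y L) ω x s), wM.1 x :=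
    ⟨_, rfl⟩
  have hsel : ∀ ω : Conf, ∃ wM : (Pt → ℝ) × ℝ, (∃ wM', Ev ω wM') → Ev ω wM := by
    intro ω
    by_cases h : ∃ wM', Ev ω wM'
    · obtain ⟨wM', h'⟩ := h
      exact ⟨wM', fun _ => h'⟩
    · exact ⟨(fun _ => 0, 0), fun h' => absurd h' h⟩
  choose wM hwM using hsel
  obtain ⟨g, hg⟩ : ∃ g : Conf → Pt → ℝ, g = fun ω x => if ∃ wM', Ev ω wM' then (wM ω).1 x else 0 :=
    ⟨_, rfl⟩
  obtain ⟨M, hM⟩ : ∃ M : Conf → ℝ, M = fun ω => if ∃ wM', Ev ω wM' then (wM ω).2 else 0 := ⟨_, rfl⟩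
  refine le_trans (E.Pr_mono ?_) (hcw R T hR hfit y L s ρ1 r hL hd hs hρ hr g M μ hμ ?_ ?_ ?_)
  · rintro ω - ⟨w, M', h1, h2, h3, h4, h5⟩
    have hex : ∃ wM', Ev ω wM' := ⟨(w, M'), by rw [hE]; exact ⟨h1, h2, h3, h4, h5⟩⟩
    have h6 := hwM ω hex
    rw [hE] at h6
    have hgω : ∀ x, g ω x = (wM ω).1 x := fun x => by rw [hg]; simp only [hex, if_true]
    have hMω : M ω = (wM ω).2 := by rw [hM]; simp only [hex, if_true]
    simp only [hgω, hMω]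
    exact h6.2.2.2.2
  · intro ω _ x hx
    by_cases hex : ∃ wM', Ev ω wM'
    · have h6 := hwM ω hex
      rw [hE] at h6
      have hgω : ∀ x, g ω x = (wM ω).1 x := fun x => by rw [hg]; simp only [hex, if_true]
      have hMω : M ω = (wM ω).2 := by rw [hM]; simp only [hex, if_true]
      rw [hgω, hMω]
      exact h6.2.1 x hx
    · have hgω : g ω x = 0 := by rw [hg]; simp only [hex, if_false]
      have hMω : M ω = 0 := by rw [hM]; simp only [hex, if_false]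
      rw [hgω, hMω, zero_mul]
      exact ⟨le_rfl, le_rfl⟩
  · intro ω _
    by_cases hex : ∃ wM', Ev ω wM'
    · have h6 := hwM ω hex
      rw [hE] at h6
      have hgω : ∀ x, g ω x = (wM ω).1 x := fun x => by rw [hg]; simp only [hex, if_true]
      have hMω : M ω = (wM ω).2 := by rw [hM]; simp only [hex, if_true]
      simp only [hgω, hMω]
      exact ⟨h6.1, h6.2.2.1⟩
    · have hgω : ∀ x, g ω x = 0 := fun x => by rw [hg]; simp only [hex, if_false]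
      have hMω : M ω = 0 := by rw [hM]; simp only [hex, if_false]
      simp only [hgω, hMω, sum_const_zero]
      exact ⟨le_rfl, le_rfl⟩
  · intro ω _ x hx
    by_cases hex : ∃ wM', Ev ω wM'
    · have h6 := hwM ω hex
      rw [hE] at h6
      have hgω : ∀ x, g ω x = (wM ω).1 x := fun x => by rw [hg]; simp only [hex, if_true]
      have hMω : M ω = (wM ω).2 := by rw [hM]; simp only [hex, if_true]
      simp only [hgω, hMω]
      exact h6.2.2.2.1 x hx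
    · have hgω : ∀ x, g ω x = 0 := fun x => by rw [hg]; simp only [hex, if_false]
      have hMω : M ω = 0 := by rw [hM]; simp only [hex, if_false]
      simp only [hgω, hMω, sum_const_zero, zero_mul]
      exact le_rfl

theorem rpow_ge_floor {a : ℝ} (ha : 2 ≤ a) : a / 2 ≤ (⌊a⌋₊ : ℝ) := by
  have h := Nat.lt_floor_add_one a
  have : (1 : ℝ) ≤ a / 2 := by linarith
  linarith

theorem half_floor {a : ℝ} (ha : 4 ≤ a) : a / 4 ≤ (⌊a / 2⌋₊ : ℝ) := by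
  have h := rpow_ge_floor (a := a / 2) (by linarith)
  linarith

theorem sq_aux {a z : ℝ} (h0 : 0 ≤ a) (h : a ≤ 800 * z) : (5 * a) ^ 2 ≤ 16000000 * (z * z) := by
  have h1 : a * a ≤ (800 * z) * (800 * z) := mul_le_mul h h h0 (h0.trans h)
  nlinarith

/-- the numbers of the global estimate -/
theorem glob_numbers {β : ℝ} (hβ : 0 < β) (hβ1 : β ≤ 1) {n : ℕ} (hn : 1 ≤ n)
    (hbig : 1000 ≤ (n : ℝ) ^ (β / 64)) :
    ∃ L r ρ1 r1 : ℕ, (n : ℝ) ^ (1 / 2 : ℝ) ≤ L ∧ (L : ℝ) ≤ n ∧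
      (L : ℝ) + r ≤ (n : ℝ) ^ (1 - β ^ 2 / 1024) ∧
      (n : ℝ) ^ (β / 512) ≤ (L : ℝ) ^ (β / 2 / 128) ∧
      (L : ℝ) ^ (1 - β / 2 / 32) ≤ ρ1 ∧ (r : ℝ) ≤ (L : ℝ) ^ (1 - β ^ 2 / 1024) / 100 ∧
      (L : ℝ) ^ (-(β / 2 / 8)) ≤ 2 * (n : ℝ) ^ (-(β ^ 2 / 64)) ∧
      (n : ℝ) ^ (β / 512) ≤ r ∧ r ≤ n ∧
      (n : ℝ) ^ (β / 512) ≤ ρ1 ∧ ρ1 ≤ n ∧ ((ρ1 : ℝ) / n) ^ β ≤ 2 * (n : ℝ) ^ (-(β ^ 2 / 64)) ∧
      (n : ℝ) ^ (β / 512) ≤ r1 ∧ r1 ≤ n ∧ ((r1 : ℝ) / n) ^ β ≤ (L : ℝ) ^ (-(β / 2)) ∧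
      (5 * ((n : ℝ) / r)) ^ 2 ≤ 16000000 * (n : ℝ) ^ (β ^ 2 / 256) := by
  obtain ⟨x, hx⟩ : ∃ x : ℝ, x = (n : ℝ) := ⟨_, rfl⟩
  rw [← hx] at hbig ⊢
  have hx1 : 1 ≤ x := by rw [hx]; exact_mod_cast hn
  have hx0 : 0 < x := by linarith
  have hββ : β ^ 2 ≤ β := by nlinarith
  have hb2 : 0 < β ^ 2 := by positivity
  have mono : ∀ {a b : ℝ}, a ≤ b → x ^ a ≤ x ^ b := fun h =>
    Real.rpow_le_rpow_of_exponent_le hx1 h
  have hge : ∀ {a : ℝ}, β / 64 ≤ a → 1000 ≤ x ^ a := fun h => hbig.trans (mono h)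
  -- L
  have hL4 : 4 ≤ x ^ (1 - β ^ 2 / 1024) := by
    have := hge (a := 1 - β ^ 2 / 1024) (by linarith)
    linarith
  obtain ⟨L, hL⟩ : ∃ L : ℕ, L = ⌊x ^ (1 - β ^ 2 / 1024) / 2⌋₊ := ⟨_, rfl⟩
  have hLlo : x ^ (1 - β ^ 2 / 1024) / 4 ≤ L := by rw [hL]; exact half_floor hL4
  have hLhi : (L : ℝ) ≤ x ^ (1 - β ^ 2 / 1024) / 2 := by
    rw [hL]; exact Nat.floor_le (by positivity)
  have hLhalf : x ^ (1 / 2 : ℝ) ≤ L := by
    refine le_trans ?_ hLlo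
    have h1 : x ^ (1 - β ^ 2 / 1024) = x ^ (1 / 2 : ℝ) * x ^ (1 / 2 - β ^ 2 / 1024) := by
      rw [← Real.rpow_add hx0]; congr 1; ring
    have h2 := hge (a := 1 / 2 - β ^ 2 / 1024) (by linarith)
    have h3 : 0 < x ^ (1 / 2 : ℝ) := Real.rpow_pos_of_pos hx0 _
    rw [h1]
    nlinarith
  have hLx : (L : ℝ) ≤ x := by
    have : x ^ (1 - β ^ 2 / 1024) ≤ x := by
      calc x ^ (1 - β ^ 2 / 1024) ≤ x ^ (1 : ℝ) := mono (by linarith)
        _ = x := Real.rpow_one _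
    have h0 : 0 < x ^ (1 - β ^ 2 / 1024) := Real.rpow_pos_of_pos hx0 _
    linarith
  have hL1 : (1 : ℝ) ≤ L := (Real.one_le_rpow hx1 (by norm_num)).trans hLhalf
  have hL0 : (0 : ℝ) < L := by linarith
  have Lpow : ∀ {a : ℝ}, 0 ≤ a → x ^ (a / 2) ≤ (L : ℝ) ^ a := by
    intro a ha
    calc x ^ (a / 2) = (x ^ (1 / 2 : ℝ)) ^ a := by
          rw [← Real.rpow_mul hx0.le]; congr 1; ring
      _ ≤ (L : ℝ) ^ a := Real.rpow_le_rpow (by positivity) hLhalf ha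
  have Lpown : ∀ {a : ℝ}, 0 ≤ a → (L : ℝ) ^ (-a) ≤ x ^ (-(a / 2)) := by
    intro a ha
    rw [Real.rpow_neg hL0.le, Real.rpow_neg hx0.le]
    exact inv_anti₀ (Real.rpow_pos_of_pos hx0 _) (Lpow ha)
  -- r
  have hLκ : x ^ (1 / 4 : ℝ) ≤ (L : ℝ) ^ (1 - β ^ 2 / 1024) := by
    refine le_trans ?_ (Lpow (by linarith))
    exact mono (by linarith)
  have hx4 : 1000 ≤ x ^ (1 / 4 : ℝ) := hge (by linarith)
  obtain ⟨r, hr⟩ : ∃ r : ℕ, r = ⌊(L : ℝ) ^ (1 - β ^ 2 / 1024) / 100⌋₊ := ⟨_, rfl⟩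
  have hrhi : (r : ℝ) ≤ (L : ℝ) ^ (1 - β ^ 2 / 1024) / 100 := by
    rw [hr]; exact Nat.floor_le (by positivity)
  have hrlo : (L : ℝ) ^ (1 - β ^ 2 / 1024) / 200 ≤ r := by
    rw [hr]
    have := rpow_ge_floor (a := (L : ℝ) ^ (1 - β ^ 2 / 1024) / 100) (by linarith)
    linarith
  have hLκL : (L : ℝ) ^ (1 - β ^ 2 / 1024) ≤ L := by
    calc (L : ℝ) ^ (1 - β ^ 2 / 1024) ≤ (L : ℝ) ^ (1 : ℝ) :=
          Real.rpow_le_rpow_of_exponent_le hL1 (by linarith)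
      _ = L := Real.rpow_one _
  -- ρ1
  obtain ⟨ρ1, hρ⟩ : ∃ ρ1 : ℕ, ρ1 = ⌈(L : ℝ) ^ (1 - β / 2 / 32)⌉₊ := ⟨_, rfl⟩
  have hρlo : (L : ℝ) ^ (1 - β / 2 / 32) ≤ ρ1 := by rw [hρ]; exact Nat.le_ceil _
  have hρ11 : (1 : ℝ) ≤ (L : ℝ) ^ (1 - β / 2 / 32) := Real.one_le_rpow hL1 (by linarith)
  have hρhi : (ρ1 : ℝ) ≤ 2 * (L : ℝ) ^ (1 - β / 2 / 32) := by
    rw [hρ]
    have := (Nat.ceil_lt_add_one (a := (L : ℝ) ^ (1 - β / 2 / 32)) (by positivity)).le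
    linarith
  have hρL : (L : ℝ) ^ (1 - β / 2 / 32) ≤ L := by
    calc (L : ℝ) ^ (1 - β / 2 / 32) ≤ (L : ℝ) ^ (1 : ℝ) :=
          Real.rpow_le_rpow_of_exponent_le hL1 (by linarith)
      _ = L := Real.rpow_one _
  have hρn : (ρ1 : ℝ) ≤ x := by
    have : x ^ (1 - β ^ 2 / 1024) ≤ x := by
      calc x ^ (1 - β ^ 2 / 1024) ≤ x ^ (1 : ℝ) := mono (by linarith)
        _ = x := Real.rpow_one _
    linarith
  -- r1
  obtain ⟨r1, hr1⟩ : ∃ r1 : ℕ, r1 = ⌈x ^ (β / 512)⌉₊ := ⟨_, rfl⟩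
  have hr1lo : x ^ (β / 512) ≤ r1 := by rw [hr1]; exact Nat.le_ceil _
  have hr1one : (1 : ℝ) ≤ x ^ (β / 512) := Real.one_le_rpow hx1 (by linarith)
  have hr1hi : (r1 : ℝ) ≤ 2 * x ^ (β / 512) := by
    rw [hr1]
    have := (Nat.ceil_lt_add_one (a := x ^ (β / 512)) (by positivity)).le
    linarith
  have hsq : x ^ (β / 512) * x ^ (β / 64) ≤ x ^ (1 / 4 : ℝ) := by
    rw [← Real.rpow_add hx0]
    exact mono (by linarith)
  have hs4 : x ^ (β / 512) * 1000 ≤ x ^ (1 / 4 : ℝ) :=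
    le_trans (mul_le_mul_of_nonneg_left hbig (by positivity)) hsq
  have hx41 : x ^ (1 / 4 : ℝ) ≤ x := by
    calc x ^ (1 / 4 : ℝ) ≤ x ^ (1 : ℝ) := mono (by norm_num)
      _ = x := Real.rpow_one _
  refine ⟨L, r, ρ1, r1, hLhalf, hLx, ?_, ?_, hρlo, hrhi, ?_, ?_, ?_, ?_, ?_, ?_, hr1lo, ?_, ?_, ?_⟩
  · linarith
  · have := Lpow (a := β / 2 / 128) (by positivity)
    refine le_trans (le_of_eq ?_) this
    congr 1
    ring
  · have h1 := Lpown (a := β / 2 / 8) (by positivity)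
    have h2 : x ^ (-(β / 2 / 8 / 2)) ≤ x ^ (-(β ^ 2 / 64)) := mono (by linarith)
    have h3 : 0 < x ^ (-(β ^ 2 / 64)) := Real.rpow_pos_of_pos hx0 _
    linarith
  · linarith
  · have : (r : ℝ) ≤ x := by linarith
    rw [hx] at this
    exact_mod_cast this
  · have h1 : x ^ (1 / 4 : ℝ) ≤ (L : ℝ) ^ (1 - β / 2 / 32) := by
      refine le_trans ?_ (Lpow (by linarith))
      exact mono (by linarith)
    linarith
  · rw [hx] at hρn
    exact_mod_cast hρn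
  · have h1 : (L : ℝ) ^ (1 - β / 2 / 32) ≤ x ^ (1 - β / 2 / 32) :=
      Real.rpow_le_rpow hL0.le hLx (by linarith)
    have h2 : (ρ1 : ℝ) / x ≤ 2 * x ^ (-(β / 64)) := by
      rw [div_le_iff₀ hx0]
      have h3 : 2 * x ^ (-(β / 64)) * x = 2 * x ^ (1 - β / 2 / 32) := by
        have h4 : x ^ (-(β / 64)) * x = x ^ (1 - β / 2 / 32) := by
          nth_rewrite 2 [← Real.rpow_one x]
          rw [← Real.rpow_add hx0]
          congr 1
          ring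
        rw [mul_assoc, h4]
      rw [h3]
      linarith
    calc ((ρ1 : ℝ) / x) ^ β ≤ (2 * x ^ (-(β / 64))) ^ β :=
          Real.rpow_le_rpow (by positivity) h2 hβ.le
      _ = 2 ^ β * x ^ (-(β ^ 2 / 64)) := by
          rw [Real.mul_rpow (by norm_num) (by positivity), ← Real.rpow_mul hx0.le]
          congr 2
          ring
      _ ≤ 2 * x ^ (-(β ^ 2 / 64)) := by
          apply mul_le_mul_of_nonneg_right _ (by positivity)
          calc (2 : ℝ) ^ β ≤ 2 ^ (1 : ℝ) := Real.rpow_le_rpow_of_exponent_le (by norm_num) hβ1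
            _ = 2 := Real.rpow_one _
  · have : (r1 : ℝ) ≤ x := by linarith
    rw [hx] at this
    exact_mod_cast this
  · have h2 : (r1 : ℝ) / x ≤ 2 * x ^ (-(1 - β / 512)) := by
      rw [div_le_iff₀ hx0]
      have h4 : x ^ (-(1 - β / 512)) * x = x ^ (β / 512) := by
        nth_rewrite 2 [← Real.rpow_one x]
        rw [← Real.rpow_add hx0]
        congr 1
        ring
      rw [mul_assoc, h4]
      exact hr1hi
    have h5 : ((r1 : ℝ) / x) ^ β ≤ 2 * x ^ (-(β * (1 - β / 512))) := by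
      calc ((r1 : ℝ) / x) ^ β ≤ (2 * x ^ (-(1 - β / 512))) ^ β :=
            Real.rpow_le_rpow (by positivity) h2 hβ.le
        _ = 2 ^ β * x ^ (-(β * (1 - β / 512))) := by
            rw [Real.mul_rpow (by norm_num) (by positivity), ← Real.rpow_mul hx0.le]
            congr 2
            ring
        _ ≤ _ := by
            apply mul_le_mul_of_nonneg_right _ (by positivity)
            calc (2 : ℝ) ^ β ≤ 2 ^ (1 : ℝ) := Real.rpow_le_rpow_of_exponent_le (by norm_num) hβ1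
              _ = 2 := Real.rpow_one _
    have h6 : x ^ (-(β / 2)) ≤ (L : ℝ) ^ (-(β / 2)) := by
      rw [Real.rpow_neg hL0.le, Real.rpow_neg hx0.le]
      exact inv_anti₀ (Real.rpow_pos_of_pos hL0 _) (Real.rpow_le_rpow hL0.le hLx (by positivity))
    have h7 : x ^ (-(β / 2)) = x ^ (-(β * (1 - β / 512))) * x ^ (β / 2 - β ^ 2 / 512) := by
      rw [← Real.rpow_add hx0]
      congr 1
      ring
    have h8 := hge (a := β / 2 - β ^ 2 / 512) (by linarith)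
    have h9 : 0 < x ^ (-(β * (1 - β / 512))) := Real.rpow_pos_of_pos hx0 _
    refine h5.trans (le_trans ?_ h6)
    rw [h7, mul_comm]
    exact mul_le_mul_of_nonneg_left (by linarith) h9.le
  · -- number of boxes
    have h1 : x ^ (1 - β ^ 2 / 512) / 800 ≤ r := by
      refine le_trans ?_ hrlo
      have h2 : (x ^ (1 - β ^ 2 / 1024) / 4) ^ (1 - β ^ 2 / 1024) ≤ (L : ℝ) ^ (1 - β ^ 2 / 1024) :=
        Real.rpow_le_rpow (by positivity) hLlo (by linarith)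
      have h3 : x ^ (1 - β ^ 2 / 512) / 4 ≤ (x ^ (1 - β ^ 2 / 1024) / 4) ^ (1 - β ^ 2 / 1024) := by
        rw [Real.div_rpow (by positivity) (by norm_num), ← Real.rpow_mul hx0.le]
        have h4 : x ^ (1 - β ^ 2 / 512) ≤ x ^ ((1 - β ^ 2 / 1024) * (1 - β ^ 2 / 1024)) :=
          mono (by nlinarith)
        have h5 : (4 : ℝ) ^ (1 - β ^ 2 / 1024) ≤ 4 := by
          calc (4 : ℝ) ^ (1 - β ^ 2 / 1024) ≤ 4 ^ (1 : ℝ) :=
                Real.rpow_le_rpow_of_exponent_le (by norm_num) (by linarith)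
            _ = 4 := Real.rpow_one _
        apply div_le_div₀ (by positivity) h4 (Real.rpow_pos_of_pos (by norm_num) _) h5
      linarith
    have hr0 : (0 : ℝ) < r := by
      have : 0 < x ^ (1 - β ^ 2 / 512) / 800 := by positivity
      linarith
    have h2 : x / r ≤ 800 * x ^ (β ^ 2 / 512) := by
      rw [div_le_iff₀ hr0]
      have h3 : x ^ (β ^ 2 / 512) * x ^ (1 - β ^ 2 / 512) = x := by
        rw [← Real.rpow_add hx0]
        have : β ^ 2 / 512 + (1 - β ^ 2 / 512) = 1 := by ring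
        rw [this, Real.rpow_one]
      have h4 : 0 < x ^ (β ^ 2 / 512) := Real.rpow_pos_of_pos hx0 _
      calc x = 800 * x ^ (β ^ 2 / 512) * (x ^ (1 - β ^ 2 / 512) / 800) := by linarith
        _ ≤ 800 * x ^ (β ^ 2 / 512) * r := by
            apply mul_le_mul_of_nonneg_left h1 (by positivity)
    have h3 : x ^ (β ^ 2 / 256) = x ^ (β ^ 2 / 512) * x ^ (β ^ 2 / 512) := by
      rw [← Real.rpow_add hx0]
      congr 1
      ring
    have h0 : 0 ≤ x / r := by positivity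
    have h4 : 0 ≤ x ^ (β ^ 2 / 512) := by positivity
    rw [h3]
    exact sq_aux h0 h2

end Vale.Agent.P155.SW
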