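import Vale.Agent.P155.F.ChCW
import Vale.Agent.P155.T211.LegFin

/-!
# P155, TIGHT: the number of strands of a ball visiting its middle part
-/

namespace Vale.Agent.P155.SW

open Finset Vale.Agent.P155

/-! ### transfer of runs from the restricted to the full configuration -/

theorem suc_res {V B : Finset Pt} {ω : Conf} {v : Pt} (h : suc (res V B ω) v ≠ v) :
    suc (res V B ω) v = suc ω v := by
  by_cases hw : White v
  · rw [suc_white hw] at h ⊢
    rw [suc_white hw]
    have h' : E1.cutTo (Vin V B ω.1) ω.1 v ≠ v := h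
    show E1.cutTo (Vin V B ω.1) ω.1 v = ω.1 v
    unfold E1.cutTo at h' ⊢
    split_ifs at h' ⊢ with h1
    · rfl
    · exact absurd rfl h'
  · have hb : Black v := black_iff_not_white.2 hw
    rw [suc_black hb] at h ⊢
    rw [suc_black hb]
    have h' : E1.cutTo (Vin V B ω.2) ω.2 v ≠ v := h
    show E1.cutTo (Vin V B ω.2) ω.2 v = ω.2 v
    unfold E1.cutTo at h' ⊢
    split_ifs at h' ⊢ with h1
    · rfl
    · exact absurd rfl h'

theorem iter_res {V B : Finset Pt} {ω : Conf} {v : Pt} {n : ℕ}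
    (h : ∀ j < n, suc (res V B ω) ((suc (res V B ω))^[j] v) ≠ (suc (res V B ω))^[j] v) :
    ∀ j ≤ n, (suc (res V B ω))^[j] v = (suc ω)^[j] v := by
  intro j
  induction j with
  | zero => intro _; rfl
  | succ j ih =>
    intro hj
    rw [Function.iterate_succ_apply', suc_res (h j (by omega)), ih (by omega),
      Function.iterate_succ_apply']

/-- arcs of the restricted configuration are arcs of the full one -/
theorem arcSys_res {ι : Type*} {V B V₁ : Finset Pt} (hV₁ : V₁ ⊆ V) {ω : Conf} {w : ι → Pt}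
    {k : ι → ℕ} (hA : ArcSys V₁ (res V B ω) w k) :
    ArcSys V ω w k ∧ ∀ i, aend ω w k i = aend (res V B ω) w k i := by
  have hit : ∀ i, ∀ j ≤ 2 * k i + 1, (suc (res V B ω))^[j] (w i) = (suc ω)^[j] (w i) := by
    intro i
    apply iter_res
    intro j hj
    exact hA.move i j (by omega)
  refine ⟨⟨hA.white, fun i => hV₁ (hA.mem i), ?_, ?_, ?_⟩, ?_⟩
  · intro i j hj
    have h1 := hA.move i j hj
    rw [suc_res h1, hit i j (by omega)] at h1
    exact h1
  · intro i j h1 h2
    rw [← hit i j h2]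
    exact hA.noret i j h1 h2
  · intro i i' hii j hj j' hj'
    rw [← hit i j hj, ← hit i' j' hj']
    exact hA.disj i i' hii j hj j' hj'
  · intro i
    unfold aend
    exact (hit i _ le_rfl).symm

/-! ### exits -/

open Classical in
/-- the exits of the open strands of `B` visiting `box y r` -/
noncomputable def exits (V B : Finset Pt) (ω : Conf) (y : Pt) (r : ℕ) : Finset Pt :=
  (V ∩ B).filter (fun z => suc (res V B ω) z = z ∧ ∃ u ∈ box y r, Same (res V B ω) z u)

theorem res_PM {V B : Finset Pt} {ω : Conf} (hω : ω ∈ DD V) :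
    IsPM (Vin V B ω.1) (res V B ω).1 ∧ IsPM (Vin V B ω.2) (res V B ω).2 := by
  have h1 := mem_PM.1 (mem_product.1 hω).1
  have h2 := mem_PM.1 (mem_product.1 hω).2
  exact ⟨E1.cutTo_PM h1 (fun v hv => (E1.mem_Vin.1 hv).1) (fun _ hv => E1.Vin_closed h1 hv),
    E1.cutTo_PM h2 (fun v hv => (E1.mem_Vin.1 hv).1) (fun _ hv => E1.Vin_closed h2 hv)⟩

/-- a run with a given last point -/
theorem run_to {V₁ V₂ : Finset Pt} {ω : Conf} (h1 : IsPM V₁ ω.1) (h2 : IsPM V₂ ω.2) {z : Pt}
    (hz : suc ω z = z) :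
    ∃ v N, Run ω v N ∧ (suc ω)^[N] v = z ∧ ∀ u, Same ω z u ↔ ∃ j ≤ N, (suc ω)^[j] v = u := by
  obtain ⟨v, N, hR, -, hcov⟩ := run_of_open h1 h2 (Or.inl hz)
  obtain ⟨j, hj, he⟩ := (hcov z).1 (same_refl _ _)
  have hjN : j = N := by
    by_contra hne
    have := hR.move j (by omega)
    rw [he] at this
    exact this hz
  rw [hjN] at he
  exact ⟨v, N, hR, he, hcov⟩

/-- two exits of the same component coincide -/
theorem exit_unique {V₁ V₂ : Finset Pt} {ω : Conf} (h1 : IsPM V₁ ω.1) (h2 : IsPM V₂ ω.2)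
    {z z' : Pt} (hz : suc ω z = z) (hz' : suc ω z' = z') (hs : Same ω z z') : z = z' := by
  obtain ⟨v, N, hR, he, hcov⟩ := run_to h1 h2 hz
  obtain ⟨j, hj, he'⟩ := (hcov z').1 hs
  have hjN : j = N := by
    by_contra hne
    have := hR.move j (by omega)
    rw [he'] at this
    exact this hz'
  rw [hjN] at he'
  rw [← he, ← he']

section

variable {V : Finset Pt} {y : Pt} {r L : ℕ} {ω : Conf}

theorem adj_dinf {u v y : Pt} (h : Adj u v) : |dinf y u - dinf y v| ≤ 1 := by
  unfold Adj at h
  unfold dinf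
  rcases abs_cases (u.1 - v.1) with ⟨h1, _⟩ | ⟨h1, _⟩ <;>
  rcases abs_cases (u.2 - v.2) with ⟨h2, _⟩ | ⟨h2, _⟩ <;>
  rcases abs_cases (y.1 - u.1) with ⟨h3, _⟩ | ⟨h3, _⟩ <;>
  rcases abs_cases (y.2 - u.2) with ⟨h4, _⟩ | ⟨h4, _⟩ <;>
  rcases abs_cases (y.1 - v.1) with ⟨h5, _⟩ | ⟨h5, _⟩ <;>
  rcases abs_cases (y.2 - v.2) with ⟨h6, _⟩ | ⟨h6, _⟩ <;>
  rcases max_cases |y.1 - u.1| |y.2 - u.2| with ⟨h7, _⟩ | ⟨h7, _⟩ <;>
  rcases max_cases |y.1 - v.1| |y.2 - v.2| with ⟨h8, _⟩ | ⟨h8, _⟩ <;>
  (rw [h7, h8, abs_le]; omega)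

theorem mem_box_dinf {x v : Pt} {r : ℕ} : v ∈ box x r ↔ dinf x v ≤ r := by
  unfold box dinf
  rw [mem_product, mem_Icc, mem_Icc, max_le_iff, abs_le, abs_le]
  omega

/-- in the middle of the box everything moves -/
theorem move_mid (hω : ω ∈ DD V) (hV : ∀ v, dinf y v ≤ L → v ∈ V) {u : Pt}
    (hu : dinf y u + 1 ≤ L) :
    Adj u (suc (res V (box y L) ω) u) ∧ suc (res V (box y L) ω) u ≠ u := by
  have h1 := mem_PM.1 (mem_product.1 hω).1
  have h2 := mem_PM.1 (mem_product.1 hω).2
  have huV : u ∈ V := hV u (by omega)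
  have hmem : ∀ m, IsPM V m → u ∈ Vin V (box y L) m := by
    intro m hm
    rw [E1.mem_Vin, mem_box_dinf, mem_box_dinf]
    refine ⟨huV, by omega, ?_⟩
    have := adj_dinf (y := y) (hm.adj u huV)
    rw [abs_le] at this
    omega
  obtain ⟨p1, p2⟩ := res_PM (B := box y L) hω
  have h3 := (adj_suc p1 p2 (hmem _ h1) (hmem _ h2)).1
  exact ⟨h3, ne_of_adj h3⟩

/-- exits are near the boundary of the box -/
theorem exit_far (hω : ω ∈ DD V) {b : Pt}
    (hb : IsExit (Vin V (box y L) ω.1) (Vin V (box y L) ω.2) (res V (box y L) ω) b) :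
    (L : ℤ) - 1 ≤ dinf y b := by
  have h1 := mem_PM.1 (mem_product.1 hω).1
  have h2 := mem_PM.1 (mem_product.1 hω).2
  have hbV := E1.mem_Vin.1 hb.mem
  rcases hb.cases with ⟨h3, -⟩ | ⟨h3, h4⟩
  · rw [E1.mem_Vin] at h3
    have h5 : ω.2 b ∉ box y L := fun h => h3 ⟨hbV.1, hbV.2.1, h⟩
    rw [mem_box_dinf] at h5
    have := adj_dinf (y := y) (h2.adj b hbV.1)
    rw [abs_le] at this
    omega
  · have h6 : (res V (box y L) ω).2 b = ω.2 b := by
      show E1.cutTo _ _ _ = _
      unfold E1.cutTo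
      rw [if_pos h3]
    rw [h6] at h4
    have h7 := E1.mem_Vin.1 (E1.Vin_closed h2 h3)
    rw [E1.mem_Vin] at h4
    have h5 : ω.1 (ω.2 b) ∉ box y L := fun h => h4 ⟨h7.1, h7.2.1, h⟩
    rw [mem_box_dinf] at h5
    have a1 := adj_dinf (y := y) (h2.adj b hbV.1)
    have a2 := adj_dinf (y := y) (h1.adj _ h7.1)
    rw [abs_le] at a1 a2
    omega

/-- **many strands give many arcs** -/
theorem arcEv_of_exits (hω : ω ∈ DD V) (hV : ∀ v, dinf y v ≤ L → v ∈ V) (hr : r + 4 ≤ L)
    {n : ℕ} (hn : n ≤ (exits V (box y L) ω y r).card) :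
    T211.ArcEv V n y (r + 1) (L - 1) ω := by
  classical
  obtain ⟨p1, p2⟩ := res_PM (B := box y L) hω
  obtain ⟨S, hS, hSn⟩ := exists_subset_card_eq hn
  set z : Fin n → Pt := fun i => (S.equivFin.symm (Fin.cast hSn.symm i) : Pt) with hz
  have hzinj : Function.Injective z := by
    intro i j h
    have h3 : S.equivFin.symm (Fin.cast hSn.symm i) = S.equivFin.symm (Fin.cast hSn.symm j) :=
      Subtype.ext h
    have h4 := S.equivFin.symm.injective h3
    exact Fin.cast_injective _ h4
  have hzE : ∀ i, suc (res V (box y L) ω) (z i) = z i ∧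
      ∃ u ∈ box y r, Same (res V (box y L) ω) (z i) u := by
    intro i
    have h3 : z i ∈ exits V (box y L) ω y r := hS (S.equivFin.symm _).2
    unfold exits at h3
    exact (mem_filter.1 h3).2
  have hrun := fun i => run_to p1 p2 (hzE i).1
  choose v N hR hend hcov using hrun
  have hvis : ∀ i, ∃ j ≤ N i, (suc (res V (box y L) ω))^[j] (v i) ∈ box y r := by
    intro i
    obtain ⟨u, hu, hs⟩ := (hzE i).2
    obtain ⟨j, hj, rfl⟩ := (hcov i u).1 hs
    exact ⟨j, hj, hu⟩
  choose jt hjt hju using hvis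
  have hstep : ∀ i, jt i + 3 ≤ N i ∧
      dinf y ((suc (res V (box y L) ω))^[jt i + 1] (v i)) ≤ (r + 1 : ℕ) := by
    intro i
    have h0 := hju i
    rw [mem_box_dinf] at h0
    obtain ⟨a0, n0⟩ := move_mid (L := L) hω hV (u := (suc (res V (box y L) ω))^[jt i] (v i))
      (by omega)
    have d0 := adj_dinf (y := y) a0
    rw [abs_le] at d0
    obtain ⟨a1, n1⟩ := move_mid (L := L) hω hV
      (u := suc (res V (box y L) ω) ((suc (res V (box y L) ω))^[jt i] (v i))) (by omega)
    have d1 := adj_dinf (y := y) a1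
    rw [abs_le] at d1
    obtain ⟨a2, n2⟩ := move_mid (L := L) hω hV
      (u := suc (res V (box y L) ω)
        (suc (res V (box y L) ω) ((suc (res V (box y L) ω))^[jt i] (v i)))) (by omega)
    refine ⟨?_, ?_⟩
    · by_contra hc
      have h4 := hjt i
      have h5 : jt i = N i ∨ jt i + 1 = N i ∨ jt i + 2 = N i := by omega
      have e := (hR i).exit
      rcases h5 with h5 | h5 | h5
      · rw [← h5] at e
        exact n0 e
      · rw [← h5, Function.iterate_succ_apply'] at e
        exact n1 e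
      · rw [← h5, Function.iterate_succ_apply', Function.iterate_succ_apply'] at e
        exact n2 e
    · rw [Function.iterate_succ_apply']
      push_cast
      omega
  have hwt : ∀ i, ∃ a, (a = jt i ∨ a = jt i + 1) ∧
      White ((suc (res V (box y L) ω))^[a] (v i)) := fun i =>
    (hR i).white_time p1 p2 (by have := (hstep i).1; omega)
  have hbt : ∀ i, ∃ e, (e = N i ∨ e + 1 = N i) ∧ IsExit (Vin V (box y L) ω.1)
      (Vin V (box y L) ω.2) (res V (box y L) ω) ((suc (res V (box y L) ω))^[e] (v i)) := fun i =>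
    (hR i).exit_time p1 p2 (by have := (hstep i).1; omega)
  choose a ha haw using hwt
  choose e he heE using hbt
  obtain ⟨k, hA, hAe⟩ := arcSys_of_times (ι := Fin n) (κ := Fin n) p1 p2 v N hR (by
      intro i j hij i' hi' j' hj' heq
      have s1 : Same (res V (box y L) ω) (z i) ((suc (res V (box y L) ω))^[i'] (v i)) :=
        (hcov i _).2 ⟨i', hi', rfl⟩
      have s2 : Same (res V (box y L) ω) (z j) ((suc (res V (box y L) ω))^[j'] (v j)) :=
        (hcov j _).2 ⟨j', hj', rfl⟩
      rw [heq] at s1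
      have s3 := same_trans s1 (same_symm ⟨p1.invol, p2.invol⟩ s2)
      exact hij (hzinj (exit_unique p1 p2 (hzE i).1 (hzE j).1 s3)))
    id a e (fun i => by have := ha i; have := he i; have := (hstep i).1; omega)
    (fun i => by have := he i; show e i ≤ N i; omega)
    (fun i i' hne h => absurd h hne) haw (fun i => (heE i).black)
  obtain ⟨hA', hAe'⟩ := arcSys_res (fun v hv => (E1.mem_Vin.1 hv).1) hA
  refine ⟨_, k, hA', ?_, ?_⟩
  · intro i
    simp only [id]
    have h0 := hju i
    rw [mem_box_dinf] at h0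
    rcases ha i with h | h
    · rw [h]; push_cast; omega
    · rw [h]; exact (hstep i).2
  · intro i
    rw [hAe' i, hAe i]
    have := exit_far hω (heE i)
    simp only [id]
    omega

/-! ### two strands near a point -/

/-- two different strands of `B` visit `box x s` -/
def TwoStr (V B : Finset Pt) (ω : Conf) (x : Pt) (s : ℕ) : Prop :=
  ∃ p q, TwoEnds (res V B ω) p q ∧ (∃ u ∈ box x s, Same (res V B ω) p u) ∧
    (∃ u ∈ box x s, Same (res V B ω) q u)

/-- every strand visiting the middle has an exit -/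
theorem exists_exits (hω : ω ∈ DD V) (hV : ∀ v, dinf y v ≤ L → v ∈ V) (hr : r + 1 ≤ L) {p u : Pt}
    (hp : suc (res V (box y L) ω) p = p ∨ pre (res V (box y L) ω) p = p) (hu : u ∈ box y r)
    (hs : Same (res V (box y L) ω) p u) :
    ∃ z ∈ exits V (box y L) ω y r, Same (res V (box y L) ω) p z := by
  classical
  obtain ⟨p1, p2⟩ := res_PM (B := box y L) hω
  obtain ⟨v, N, hR, -, hcov⟩ := run_of_open p1 p2 hp
  have hz : Same (res V (box y L) ω) p ((suc (res V (box y L) ω))^[N] v) :=
    (hcov _).2 ⟨N, le_rfl, rfl⟩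
  refine ⟨(suc (res V (box y L) ω))^[N] v, ?_, hz⟩
  have hzu : Same (res V (box y L) ω) ((suc (res V (box y L) ω))^[N] v) u :=
    same_trans (same_symm ⟨p1.invol, p2.invol⟩ hz) hs
  unfold exits
  rw [mem_filter]
  refine ⟨?_, hR.exit, u, hu, hzu⟩
  -- the exit is a moved point
  have hN : 1 ≤ N := by
    by_contra hc
    have hN0 : N = 0 := by omega
    obtain ⟨j, hj, he⟩ := (hcov u).1 hs
    have hj0 : j = 0 := by omega
    rw [hj0] at he
    have h3 := hR.exit
    rw [hN0, he] at h3
    rw [mem_box_dinf] at hu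
    exact (move_mid (L := L) hω hV (u := u) (by omega)).2 h3
  obtain ⟨M, rfl⟩ : ∃ M, N = M + 1 := ⟨N - 1, by omega⟩
  have hmv := hR.move M (by omega)
  rw [Function.iterate_succ_apply']
  have h4 : suc (res V (box y L) ω) ((suc (res V (box y L) ω))^[M] v) ∈ Vin V (box y L) ω.1 ∨
      suc (res V (box y L) ω) ((suc (res V (box y L) ω))^[M] v) ∈ Vin V (box y L) ω.2 := by
    by_cases hw : White ((suc (res V (box y L) ω))^[M] v)
    · rw [suc_white hw] at hmv ⊢
      left
      have : (suc (res V (box y L) ω))^[M] v ∈ Vin V (box y L) ω.1 := by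
        by_contra hc
        exact hmv (p1.off _ hc)
      exact pm_mem p1 this
    · have hb : Black ((suc (res V (box y L) ω))^[M] v) := black_iff_not_white.2 hw
      rw [suc_black hb] at hmv ⊢
      right
      have : (suc (res V (box y L) ω))^[M] v ∈ Vin V (box y L) ω.2 := by
        by_contra hc
        exact hmv (p2.off _ hc)
      exact pm_mem p2 this
  rw [mem_inter]
  rcases h4 with h4 | h4
  · exact ⟨(E1.mem_Vin.1 h4).1, (E1.mem_Vin.1 h4).2.1⟩
  · exact ⟨(E1.mem_Vin.1 h4).1, (E1.mem_Vin.1 h4).2.1⟩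

theorem box_add {x u : Pt} {s : ℕ} (hx : x ∈ box y r) (hu : u ∈ box x s) :
    u ∈ box y (r + s) := by
  rw [mem_box_dinf] at hx hu ⊢
  unfold dinf at *
  rw [max_le_iff, abs_le, abs_le] at *
  push_cast
  omega

open Classical in
/-- **from pairs of strands to points**: if every pair of different strands has contact mass at
most `c` and fewer than `n` strands visit the middle part, the mass of the points having two
different strands nearby is at most `n² c`. -/
theorem sum_twoStr_le (hω : ω ∈ DD V) (hV : ∀ v, dinf y v ≤ L → v ∈ V) {s : ℕ}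
    (hr : r + s + 1 ≤ L) {g : Pt → ℝ} (hg : ∀ x ∈ box y r, 0 ≤ g x) {n : ℕ} {c : ℝ} (hc0 : 0 ≤ c)
    (hn : (exits V (box y L) ω y (r + s)).card ≤ n)
    (hc : ∀ p q, TwoEnds (res V (box y L) ω) p q →
      ∑ x ∈ both (box y r) (fun x => box x s) (res V (box y L) ω) p q, g x ≤ c) :
    ∑ x ∈ (box y r).filter (fun x => TwoStr V (box y L) ω x s), g x ≤ (n : ℝ) ^ 2 * c := by
  obtain ⟨p1, p2⟩ := res_PM (B := box y L) hω
  set E := exits V (box y L) ω y (r + s) with hE
  set P := (E ×ˢ E).filter (fun z => z.1 ≠ z.2) with hP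
  have hends : ∀ z ∈ P, TwoEnds (res V (box y L) ω) z.1 z.2 := by
    intro z hz
    rw [hP, mem_filter, mem_product, hE] at hz
    unfold exits at hz
    rw [mem_filter, mem_filter] at hz
    obtain ⟨⟨⟨-, h1, -⟩, ⟨-, h2, -⟩⟩, hne⟩ := hz
    exact ⟨Or.inl h1, Or.inl h2, fun h => hne (exit_unique p1 p2 h1 h2 h)⟩
  have hsub : (box y r).filter (fun x => TwoStr V (box y L) ω x s) ⊆
      P.biUnion (fun z => both (box y r) (fun x => box x s) (res V (box y L) ω) z.1 z.2) := by
    intro x hx
    rw [mem_filter] at hx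
    obtain ⟨hxy, p, q, ⟨hp, hq, hpq⟩, ⟨u, hu, hpu⟩, ⟨u', hu', hqu⟩⟩ := hx
    obtain ⟨z, hz, hpz⟩ := exists_exits hω hV (by omega) hp (box_add hxy hu) hpu
    obtain ⟨z', hz', hqz⟩ := exists_exits hω hV (by omega) hq (box_add hxy hu') hqu
    rw [mem_biUnion]
    refine ⟨(z, z'), ?_, ?_⟩
    · rw [hP, mem_filter, mem_product]
      refine ⟨⟨hz, hz'⟩, ?_⟩
      intro he
      simp only at he
      subst he
      exact hpq (same_trans hpz (same_symm ⟨p1.invol, p2.invol⟩ hqz))
    · rw [mem_both]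
      exact ⟨hxy, ⟨u, hu, same_trans (same_symm ⟨p1.invol, p2.invol⟩ hpz) hpu⟩,
        ⟨u', hu', same_trans (same_symm ⟨p1.invol, p2.invol⟩ hqz) hqu⟩⟩
  have hmem : ∀ z : Pt × Pt, ∀ x ∈ both (box y r) (fun x => box x s) (res V (box y L) ω) z.1 z.2,
      x ∈ box y r := fun z x hx => (mem_both.1 hx).1
  have hcard : (P.card : ℝ) ≤ (n : ℝ) ^ 2 := by
    have h1 : P.card ≤ n ^ 2 := by
      refine (card_filter_le _ _).trans ?_
      rw [card_product, sq]
      exact Nat.mul_le_mul hn hn
    exact_mod_cast h1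
  calc ∑ x ∈ (box y r).filter (fun x => TwoStr V (box y L) ω x s), g x
      ≤ ∑ x ∈ P.biUnion (fun z => both (box y r) (fun x => box x s)
          (res V (box y L) ω) z.1 z.2), g x := by
        apply sum_le_sum_of_subset_of_nonneg hsub
        intro x hx _
        obtain ⟨z, -, hz⟩ := mem_biUnion.1 hx
        exact hg x (hmem z x hz)
    _ ≤ ∑ z ∈ P, ∑ x ∈ both (box y r) (fun x => box x s)
          (res V (box y L) ω) z.1 z.2, g x := by
        -- every point of the union is counted at least once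
        calc _ ≤ ∑ x ∈ P.biUnion (fun z => both (box y r) (fun x => box x s)
            (res V (box y L) ω) z.1 z.2), ∑ z ∈ P, (if x ∈ both (box y r) (fun x => box x s)
            (res V (box y L) ω) z.1 z.2 then g x else 0) := by
              apply sum_le_sum
              intro x hx
              obtain ⟨z, hzP, hz⟩ := mem_biUnion.1 hx
              have h4 := single_le_sum (f := fun z : Pt × Pt =>
                if x ∈ both (box y r) (fun x => box x s) (res V (box y L) ω) z.1 z.2
                then g x else 0) (fun z _ => by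
                  split_ifs with h
                  · exact hg x (hmem _ x h)
                  · exact le_rfl) hzP
              simpa only [hz, if_true] using h4
          _ = ∑ z ∈ P, ∑ x ∈ P.biUnion (fun z => both (box y r) (fun x => box x s)
            (res V (box y L) ω) z.1 z.2), (if x ∈ both (box y r) (fun x => box x s)
            (res V (box y L) ω) z.1 z.2 then g x else 0) := sum_comm
          _ = _ := by
              apply sum_congr rfl
              intro z hz
              rw [← sum_filter]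
              congr 1
              ext x
              rw [mem_filter, mem_biUnion]
              exact ⟨fun h => h.2, fun h => ⟨⟨z, hz, h⟩, h⟩⟩
    _ ≤ ∑ _z ∈ P, c := sum_le_sum (fun z hz => hc _ _ (hends z hz))
    _ = P.card * c := by rw [sum_const, nsmul_eq_mul]
    _ ≤ (n : ℝ) ^ 2 * c := mul_le_mul_of_nonneg_right hcard hc0

end

end Vale.Agent.P155.SW
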