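import Vale.Agent.P155.F.CwPoint

/-!
# P155, TIGHT: smaller balls have more strands
-/

namespace Vale.Agent.P155.SW

open Finset Vale.Agent.P155

variable {V B B' : Finset Pt} {ω : Conf}

theorem Vin_mono (h : B' ⊆ B) (m : Pt → Pt) : Vin V B' m ⊆ Vin V B m := by
  intro v hv
  rw [E1.mem_Vin] at hv ⊢
  exact ⟨hv.1, h hv.2.1, h hv.2.2⟩

theorem res_fst_mem {u : Pt} (h : u ∈ Vin V B ω.1) : (res V B ω).1 u = ω.1 u := by
  show E1.cutTo _ _ _ = _
  unfold E1.cutTo
  rw [if_pos h]

theorem res_fst_not {u : Pt} (h : u ∉ Vin V B ω.1) : (res V B ω).1 u = u := by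
  show E1.cutTo _ _ _ = _
  unfold E1.cutTo
  rw [if_neg h]

theorem res_snd_mem {u : Pt} (h : u ∈ Vin V B ω.2) : (res V B ω).2 u = ω.2 u := by
  show E1.cutTo _ _ _ = _
  unfold E1.cutTo
  rw [if_pos h]

theorem res_snd_not {u : Pt} (h : u ∉ Vin V B ω.2) : (res V B ω).2 u = u := by
  show E1.cutTo _ _ _ = _
  unfold E1.cutTo
  rw [if_neg h]

/-- connected in the smaller ball implies connected in the larger one -/
theorem same_res_mono (hB : B' ⊆ B) {u v : Pt} (h : Same (res V B' ω) u v) :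
    Same (res V B ω) u v := by
  induction h with
  | refl => exact same_refl _ _
  | @tail a b _ hab ih =>
    refine same_trans ih ?_
    rcases hab with rfl | rfl
    · by_cases ha : a ∈ Vin V B' ω.1
      · rw [res_fst_mem ha, ← res_fst_mem (Vin_mono hB _ ha)]
        exact same_fst _ _
      · rw [res_fst_not ha]
        exact same_refl _ _
    · by_cases ha : a ∈ Vin V B' ω.2
      · rw [res_snd_mem ha, ← res_snd_mem (Vin_mono hB _ ha)]
        exact same_snd _ _
      · rw [res_snd_not ha]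
        exact same_refl _ _

/-- the part in the smaller ball of an open strand is open -/
theorem exists_end (hω : ω ∈ DD V) (hB : B' ⊆ B) {u p : Pt} (hs : Same (res V B ω) u p)
    (hp : suc (res V B ω) p = p ∨ pre (res V B ω) p = p) :
    ∃ z, Same (res V B' ω) u z ∧ (suc (res V B' ω) z = z ∨ pre (res V B' ω) z = z) := by
  have h1 := mem_PM.1 (mem_product.1 hω).1
  have h2 := mem_PM.1 (mem_product.1 hω).2
  by_contra hno
  push Not at hno
  have hmem : ∀ z, Same (res V B' ω) u z → z ∈ Vin V B' ω.1 ∧ z ∈ Vin V B' ω.2 := by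
    intro z hz
    have h3 := hno z hz
    constructor
    · by_contra hc
      rcases end_of_fixed (Or.inl (res_fst_not hc)) with h4 | h4
      · exact h3.1 h4
      · exact h3.2 h4
    · by_contra hc
      rcases end_of_fixed (Or.inr (res_snd_not hc)) with h4 | h4
      · exact h3.1 h4
      · exact h3.2 h4
  have hall : ∀ z, Same (res V B ω) u z → Same (res V B' ω) u z := by
    intro z hz
    induction hz with
    | refl => exact same_refl _ _
    | @tail b c _ hbc ih =>
      obtain ⟨m1, m2⟩ := hmem b ih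
      rcases hbc with rfl | rfl
      · rw [res_fst_mem (Vin_mono hB _ m1), ← res_fst_mem m1]
        exact same_trans ih (same_fst _ _)
      · rw [res_snd_mem (Vin_mono hB _ m2), ← res_snd_mem m2]
        exact same_trans ih (same_snd _ _)
  obtain ⟨m1, m2⟩ := hmem p (hall p hs)
  have hpV : p ∈ V := (E1.mem_Vin.1 m1).1
  have n1 : (res V B ω).1 p ≠ p := by
    rw [res_fst_mem (Vin_mono hB _ m1)]
    exact ne_of_adj (h1.adj p hpV)
  have n2 : (res V B ω).2 p ≠ p := by
    rw [res_snd_mem (Vin_mono hB _ m2)]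
    exact ne_of_adj (h2.adj p hpV)
  rcases partners (res V B ω) p with ⟨e1, e2⟩ | ⟨e1, e2⟩
  · rcases hp with hp | hp
    · exact n1 (e1.trans hp)
    · exact n2 (e2.trans hp)
  · rcases hp with hp | hp
    · exact n2 (e2.trans hp)
    · exact n1 (e1.trans hp)

theorem res_inv2 (hω : ω ∈ DD V) : Inv2 (res V B ω) := by
  obtain ⟨p1, p2⟩ := res_PM (B := B) hω
  exact ⟨p1.invol, p2.invol⟩

/-- **monotonicity** -/
theorem TwoStr.mono (hω : ω ∈ DD V) (hB : B' ⊆ B) {x : Pt} {s : ℕ} (h : TwoStr V B ω x s) :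
    TwoStr V B' ω x s := by
  obtain ⟨p, q, ⟨hp, hq, hpq⟩, ⟨u, hu, hpu⟩, ⟨u', hu', hqu⟩⟩ := h
  have iB := res_inv2 (B := B) hω
  have iB' := res_inv2 (B := B') hω
  obtain ⟨z, hz, ez⟩ := exists_end hω hB (same_symm iB hpu) hp
  obtain ⟨z', hz', ez'⟩ := exists_end hω hB (same_symm iB hqu) hq
  refine ⟨z, z', ⟨ez, ez', ?_⟩, ⟨u, hu, same_symm iB' hz⟩, ⟨u', hu', same_symm iB' hz'⟩⟩
  intro hzz
  apply hpq
  have h3 : Same (res V B' ω) u u' := same_trans hz (same_trans hzz (same_symm iB' hz'))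
  exact same_trans hpu (same_trans (same_res_mono hB h3) (same_symm iB hqu))

theorem TwoStr.mono_rad {x : Pt} {s s' : ℕ} (hs : s ≤ s') (h : TwoStr V B ω x s) :
    TwoStr V B ω x s' := by
  obtain ⟨p, q, hpq, ⟨u, hu, hpu⟩, ⟨u', hu', hqu⟩⟩ := h
  have hbox : ∀ u, u ∈ box x s → u ∈ box x s' := by
    intro u hu
    rw [mem_box_dinf] at hu ⊢
    have : (s : ℤ) ≤ s' := by exact_mod_cast hs
    omega
  exact ⟨p, q, hpq, ⟨u, hbox u hu, hpu⟩, ⟨u', hbox u' hu', hqu⟩⟩

end Vale.Agent.P155.SW
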