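import Vale.Agent.P155.F.CwBall

/-!
# P155, TIGHT: contact weight in one ball, final form
-/

namespace Vale.Agent.P155.SW

open Finset Vale.Agent.P155 Skel

theorem chC_nonneg (n s : ℕ) {Mx k0 k1 : ℝ} (h1 : 0 ≤ Mx) (h2 : 0 ≤ k0) (h3 : 0 ≤ k1) :
    0 ≤ HT.chC n s Mx k0 k1 := by
  unfold HT.chC
  positivity

theorem CwGood.mono {T : Temp} {A : Pt → ℝ} {y : Pt} {L r0 : ℕ} {k1 δ δ' : ℝ} {W : Finset Pt}
    (h : CwGood T A y L r0 k1 δ W) (hδ : δ ≤ δ') : CwGood T A y L r0 k1 δ' W :=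
  ⟨h.sub, h.inB, h.mid, h.ap, fun b w hb hw hby hwy => (h.good b w hb hw hby hwy).trans hδ⟩

open Classical in
/-- the application of `cw_ball`, all elementary inequalities given -/
theorem cw_core {T : Temp} {A : Pt → ℝ} {CA CM : ℝ} (hCA1 : 1 ≤ CA)
    (hKp : ∀ b w, Black b → White w → |Kp A b w| ≤ CA / (dinf w b : ℤ)) (hCM1 : 1 ≤ CM)
    (hCM : MonoGood A CM) {y : Pt} {L s ρ1 r r0 k : ℕ} {t k1 κ0 Mx E : ℝ} (hk72 : 72 ≤ k)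
    (hT : ∀ v, dinf y v ≤ L → v ∈ T.V) (ht1 : 1 ≤ t) (hL1 : 1 ≤ (L : ℝ)) (hMx : Mx = CM * (2 * s + 9))
    (hk10 : 0 ≤ k1) (hκ0 : κ0 = t ^ 8 / (4 * L)) (hE1 : 1 + 4 * k1 ≤ E)
    (n1 : CM ≤ r0) (n2' : r0 + 9 ≤ L) (n3' : 2 * (r + s + 4) ≤ r0) (n4' : 2 * s + 10 ≤ ρ1)
    (n5 : CM * (2 * s + 9) * (t ^ 2 / L) ≤ 1)
    (n6 : CA / ((ρ1 : ℝ) - (2 * s + 8)) + t ^ 2 / L ≤ κ0)
    (n7 : ∀ n : ℕ, n ≤ k → 4 * (((n + 1) * (8 * (s + 2) + 17) : ℕ) : ℝ) ^ 3 * Mx ≤ t ^ 8)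
    (n8 : t ^ 16 / L ≤ 1 / 2) (n9 : (2 * (s : ℝ) + 3) ^ 2 * (2 * s + 5) ^ 2 ≤ t ^ 8)
    (n10 : 40 * (L : ℝ) + 21 ≤ (L : ℝ) ^ 2) (n11 : 2 * (r : ℝ) + 1 ≤ L)
    (g : Conf → Pt → ℝ) {μ : ℝ} (hμ0 : 0 < μ)
    (hg : ∀ ω ∈ DD T.V, ∀ x ∈ box y r, 0 ≤ g ω x ∧ g ω x ≤ (t ^ 128)⁻¹)
    (hgM : ∀ ω ∈ DD T.V, ∑ x ∈ box y r, g ω x ≤ 1)
    (hloc : ∀ ω ∈ DD T.V, ∀ x ∈ box y r, ∑ x' ∈ (box y r).filter (fun x' => ¬ sepP ρ1 x x'),
        g ω x' ≤ μ) :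
    Pr T.V (fun ω => (CwGood T A y L r0 k1 (t ^ 2 / L) (Vin T.V (box y L) ω.1) ∧
        CwGood T A y L r0 k1 (t ^ 2 / L) (Vin T.V (box y L) ω.2)) ∧
        ∃ p q, TwoEnds (res T.V (box y L) ω) p q ∧
        μ + k * μ ≤ ∑ x ∈ both (box y r) (fun x => box x s) (res T.V (box y L) ω) p q,
          g ω x) ≤ (μ ^ k)⁻¹ * (((k + 1 : ℕ) * k ^ k * k.factorial : ℝ) *
            (64 * E ^ 72 * (L : ℝ) ^ 80 * (t ^ (32 * k))⁻¹)) := by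
  have hL0 : (0 : ℝ) < L := by linarith
  have ht0 : 0 < t := by linarith
  have hMx1 : 1 ≤ Mx := by
    rw [hMx]
    have : (0 : ℝ) ≤ s := by positivity
    nlinarith
  have hκ00 : 0 ≤ κ0 := by rw [hκ0]; positivity
  have hκ4 : 4 * κ0 = t ^ 8 / L := by rw [hκ0]; field_simp
  have hQ : ((box y r).card : ℝ) ≤ (L : ℝ) ^ 2 := by
    rw [T211.card_box']
    push_cast
    gcongr
  have hE0 : 0 ≤ E := by linarith
  have h2 : ∀ x ∈ box y r, ((box x (s + 1)).card : ℝ) * (box x (s + 2)).card ≤ t ^ 8 := by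
    intro x _
    rw [T211.card_box', T211.card_box']
    push_cast
    have h1 : (2 * ((s : ℝ) + 1) + 1) = 2 * s + 3 := by ring
    have h2 : (2 * ((s : ℝ) + 2) + 1) = 2 * s + 5 := by ring
    rw [h1, h2]
    exact n9
  have h3 : ∀ W, CwGood T A y L r0 k1 (t ^ 2 / L) W → ∀ (n : ℕ) (z : Fin n → Pt),
      z ∈ tup (box y r) (sepP ρ1) n → k ≤ 2 * n → n ≤ k →
      (∀ x ex, Adm true W (fun i => box (z i) (s + 1)) (ibd (box y L)) x ex →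
        (Z (W \ XS x ex) : ℝ) ≤ HT.chC n (s + 2) Mx κ0 k1 * Z W) ∧
      (∀ x ex, Adm false W (fun i => box (z i) (s + 2)) (ibd (box y L)) x ex →
        (Z (W \ XS x ex) : ℝ) ≤ HT.chC n (s + 2) Mx κ0 k1 * Z W) := by
    intro W hW n z hz hkn hnk
    have hn36 : 36 ≤ n := by omega
    have hx : 4 * (((n + 1) * (8 * (s + 2) + 17) : ℕ) : ℝ) ^ 3 * Mx *
        (4 * κ0) ≤ 1 / 2 := by
      rw [hκ4]
      calc _ ≤ t ^ 8 * (t ^ 8 / L) := by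
            apply mul_le_mul_of_nonneg_right (n7 n hnk) (by positivity)
        _ = t ^ 16 / L := by ring
        _ ≤ 1 / 2 := n8
    rw [hMx] at hx ⊢
    constructor
    · intro x ex had
      refine adm_bound hCA1 hKp hCM1 hCM hW (by positivity) n1 n2' (by omega) n4'
        n5 n6 hk10 hn36 hx hz (fun i => ?_) x ex had
      intro u hu
      rw [mem_box_dinf] at hu ⊢
      push_cast at hu ⊢
      omega
    · intro x ex had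
      exact adm_bound hCA1 hKp hCM1 hCM hW (by positivity) n1 n2' (by omega) n4'
        n5 n6 hk10 hn36 hx hz (fun i => le_rfl) x ex had
  have hib : 5 * ((ibd (box y L)).card : ℝ) + 1 ≤ (L : ℝ) ^ 2 := by
    have h1 : ((ibd (box y L)).card : ℝ) ≤ 4 * (2 * L + 1) := by
      exact_mod_cast card_ibd y L
    linarith
  have h4 : ∀ n, k ≤ 2 * n → n ≤ k → ((t ^ 128)⁻¹) ^ n * (1 : ℝ) ^ (k - n) *
      ((box y r).card : ℝ) ^ n * ((t ^ 8) ^ (2 * n) * (5 * (ibd (box y L)).card + 1) ^ 4 * 16 *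
        HT.chC n (s + 2) Mx κ0 k1 ^ 2) ≤ 64 * E ^ 72 * (L : ℝ) ^ 80 * (t ^ (32 * k))⁻¹ := by
    intro n hkn hnk
    have hn36 : 36 ≤ n := by omega
    have hch := chC_bound (n := n) (s := s + 2) (Mx := Mx) (k0 := κ0) (k1 := k1) (t := t)
      (L := L) (E := E) ht1 hL0 hMx1 hk10 hE1 hκ4 (n7 n hnk)
    have hch0 := chC_nonneg n (s + 2) (Mx := Mx) (k0 := κ0) (k1 := k1) (by linarith) hκ00 hk10
    rw [one_pow, mul_one]
    calc _ ≤ ((t ^ 128)⁻¹) ^ n * ((L : ℝ) ^ 2) ^ n * ((t ^ 8) ^ (2 * n) * ((L : ℝ) ^ 2) ^ 4 *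
          16 * (2 * (E ^ 36 * (t ^ 8) ^ (n + 1) * (t ^ 8) ^ 36 *
            (t ^ 16 / L) ^ (n - 36))) ^ 2) := by
          gcongr
      _ ≤ 64 * E ^ 72 * (L : ℝ) ^ 80 * (t ^ (64 * n))⁻¹ := term_bound hn36 ht1 hL0
      _ ≤ _ := by
          have : (t ^ (64 * n))⁻¹ ≤ (t ^ (32 * k))⁻¹ := by
            apply inv_anti₀ (by positivity)
            exact pow_le_pow_right₀ ht1 (by omega)
          gcongr
  exact cw_ball (V := T.V) (B := box y L) (box y r) (sepP ρ1)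
    (fun i j h => sepP_symm h) (fun x => box x s) (fun x => box x (s + 1)) (fun x => box x (s + 2))
    (fun n z hz => geo_box hT (by omega) (by omega) hz)
    (CwGood T A y L r0 k1 (t ^ 2 / L))
    (fun n => HT.chC n (s + 2) Mx κ0 k1)
    (fun n => chC_nonneg n _ (by linarith) hκ00 hk10) (a := t ^ 8) h2 k h3
    g (gm := (t ^ 128)⁻¹) (M := 1) (μ := μ) (Λ := μ)
    (fun ω hω x hx => (hg ω hω x hx).1)
    (fun ω hω x hx => (hg ω hω x hx).2)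
    (by positivity) zero_le_one hgM hμ0.le hloc hμ0 h4

open Classical in
/-- **Contact weight in one ball**: off an event of probability `R^{-p}`, every pair of different
strands of `box y L` has contact mass less than `(k+1) μ` in `box y r`. -/
theorem cw_pairs {A : Pt → ℝ} (hA : IsPlane A) {βm κ p a0 : ℝ} (hβ : 0 < βm) (hβ1 : βm ≤ 1)
    (hκ : 0 < κ) (hκβ : κ ≤ βm / 128) (hp : 0 < p) (ha0 : 0 < a0) : ∃ (k : ℕ) (C : ℝ), 0 < C ∧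
    ∀ (R : ℕ) (T : Temp), 1 ≤ R → Fits T R → ∀ (y : Pt) (L s ρ1 r : ℕ), (R : ℝ) ^ a0 ≤ L →
      C * L ≤ dF T.faceSet y → (s : ℝ) ≤ (L : ℝ) ^ (βm / 128) → (L : ℝ) ^ (1 - βm / 32) ≤ ρ1 →
      (r : ℝ) ≤ (L : ℝ) ^ (1 - κ) / 100 →
      ∀ (g : Conf → Pt → ℝ) (μ : ℝ), (L : ℝ) ^ (-(βm / 8)) ≤ μ →
      (∀ ω ∈ DD T.V, ∀ x ∈ box y r, 0 ≤ g ω x ∧ g ω x ≤ (L : ℝ) ^ (-βm)) →
      (∀ ω ∈ DD T.V, ∑ x ∈ box y r, g ω x ≤ 1) →
      (∀ ω ∈ DD T.V, ∀ x ∈ box y r, ∑ x' ∈ (box y r).filter (fun x' => ¬ sepP ρ1 x x'),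
        g ω x' ≤ μ) →
      Pr T.V (fun ω => ∃ p q, TwoEnds (res T.V (box y L) ω) p q ∧
        μ + k * μ ≤ ∑ x ∈ both (box y r) (fun x => box x s) (res T.V (box y L) ω) p q, g ω x) ≤
        C * (R : ℝ) ^ (-p) := by
  obtain ⟨CA, hCA1, hKp⟩ := Dom.Kp_bound hA
  obtain ⟨CM, hCM1, hCM⟩ := exists_monoGood hA
  obtain ⟨m, hm⟩ : ∃ m : ℕ, p + 5 ≤ m := exists_nat_ge _
  obtain ⟨γ, hγ⟩ : ∃ γ : ℝ, γ = βm / 128 := ⟨_, rfl⟩
  have hγ0 : 0 < γ := by rw [hγ]; positivity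
  have hγ1 : γ < 1 / 10 := by rw [hγ]; linarith
  have hκγ : κ ≤ γ := by rw [hγ]; exact hκβ
  have hκ1 : κ < 1 / 10 := lt_of_le_of_lt hκγ hγ1
  obtain ⟨Cb, hCb, hbad⟩ := pr_bad hA hκ hκ1 ha0 hp m hm
  -- the number of points
  obtain ⟨k0', hk0'⟩ : ∃ k : ℕ, (72 * m / a0 + 80 + p / a0) / (βm / 8) ≤ k := exists_nat_ge _
  obtain ⟨k, hk⟩ : ∃ k : ℕ, k = k0' + 72 := ⟨_, rfl⟩
  have hk72 : 72 ≤ k := by omega
  have hkβ : 72 * m / a0 + 80 + p / a0 ≤ k * (βm / 8) := by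
    rw [div_le_iff₀ (by positivity)] at hk0'
    have : (k0' : ℝ) ≤ k := by rw [hk]; push_cast; linarith
    have h2 : (k0' : ℝ) * (βm / 8) ≤ k * (βm / 8) := by gcongr
    linarith
  obtain ⟨K, hK⟩ : ∃ K : ℝ, K = ((k + 1 : ℕ) * k ^ k * k.factorial : ℝ) := ⟨_, rfl⟩
  have hK0 : 0 ≤ K := by rw [hK]; positivity
  obtain ⟨c1, hc1d⟩ : ∃ c1 : ℝ, c1 = 4 * ((k : ℝ) + 1) ^ 3 * 41 ^ 3 * 11 * CM := ⟨_, rfl⟩
  have hc10 : 0 ≤ c1 := by rw [hc1d]; positivity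
  obtain ⟨c0, hc0⟩ : ∃ c0 : ℝ, c0 = 1000 + 1000 * CM + 100 * CA + c1 := ⟨_, rfl⟩
  have hc00 : 0 < c0 := by rw [hc0]; positivity
  obtain ⟨Ks, hKs⟩ : ∃ Ks : ℝ, Ks = c0 ^ (p / (γ * a0)) := ⟨_, rfl⟩
  have hKs0 : 0 ≤ Ks := by rw [hKs]; positivity
  obtain ⟨K5, hK5⟩ : ∃ K5 : ℝ, K5 = K * 64 * 5 ^ 72 := ⟨_, rfl⟩
  have hK50 : 0 ≤ K5 := by rw [hK5]; positivity
  obtain ⟨C, hC⟩ : ∃ C : ℝ, C = 3 + Cb + Ks + K5 := ⟨_, rfl⟩
  have hCpos : 0 < C := by rw [hC]; positivity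
  refine ⟨k, C, hCpos, ?_⟩
  intro R T hR hfit y L s ρ1 r hL hd hs hρ hr g μ hμ hg hgM hloc
  have hR' : (1 : ℝ) ≤ R := by exact_mod_cast hR
  have hR0 : (0 : ℝ) < R := by linarith
  have hL1 : (1 : ℝ) ≤ L := (Real.one_le_rpow hR' ha0.le).trans hL
  have hL0 : (0 : ℝ) < L := by linarith
  have hRp : (0 : ℝ) < (R : ℝ) ^ (-p) := Real.rpow_pos_of_pos hR0 _
  have hC3 : 3 ≤ C := by rw [hC]; linarith
  have hCCb : Cb ≤ C := by rw [hC]; linarith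
  have h3L : 3 * (L : ℝ) ≤ C * L := by gcongr
  have hT : ∀ v, dinf y v ≤ L → v ∈ T.V := by
    intro v hv
    apply E1.mem_V_of_dF (n := L) _ (F.mem_box_iff.2 hv)
    have : (L : ℝ) + 1 < dF T.faceSet y := by linarith
    exact_mod_cast this
  obtain ⟨t, ht⟩ : ∃ t : ℝ, t = (L : ℝ) ^ γ := ⟨_, rfl⟩
  have ht0 : 0 < t := by rw [ht]; exact Real.rpow_pos_of_pos hL0 _
  have ht1 : 1 ≤ t := by rw [ht]; exact Real.one_le_rpow hL1 hγ0.le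
  -- powers
  have hpow : ∀ n : ℕ, t ^ n = (L : ℝ) ^ (γ * n) := by
    intro n
    rw [ht, ← Real.rpow_natCast, ← Real.rpow_mul hL0.le]
  by_cases hbig : c0 ≤ t
  swap
  · -- small scales
    push Not at hbig
    have h1 := E.Pr_le_one T.V (fun ω => ∃ p q, TwoEnds (res T.V (box y L) ω) p q ∧
        μ + k * μ ≤ ∑ x ∈ both (box y r) (fun x => box x s) (res T.V (box y L) ω) p q, g ω x)
    have h2 : (R : ℝ) ^ p ≤ Ks := by
      have h3 : (R : ℝ) ^ p ≤ (L : ℝ) ^ (p / a0) := by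
        calc (R : ℝ) ^ p = ((R : ℝ) ^ a0) ^ (p / a0) := by
              rw [← Real.rpow_mul hR0.le]; congr 1; field_simp
          _ ≤ (L : ℝ) ^ (p / a0) := Real.rpow_le_rpow (by positivity) hL (by positivity)
      have h4 : (L : ℝ) ^ (p / a0) = t ^ (p / (γ * a0)) := by
        rw [ht, ← Real.rpow_mul hL0.le]; congr 1; field_simp
      rw [h4] at h3
      rw [hKs]
      exact h3.trans (Real.rpow_le_rpow ht0.le hbig.le (by positivity))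
    have h3 : (R : ℝ) ^ p * (R : ℝ) ^ (-p) = 1 := by
      rw [← Real.rpow_add hR0]; simp
    calc _ ≤ 1 := h1
      _ = (R : ℝ) ^ p * (R : ℝ) ^ (-p) := h3.symm
      _ ≤ C * (R : ℝ) ^ (-p) := by
          apply mul_le_mul_of_nonneg_right _ hRp.le
          rw [hC]
          linarith
  -- large scales
  have hc1 : 1000 ≤ t := by
    refine le_trans ?_ hbig
    rw [hc0]; linarith
  have hc2 : 1000 * CM ≤ t := by
    refine le_trans ?_ hbig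
    rw [hc0]; linarith
  have hc3 : 100 * CA ≤ t := by
    refine le_trans ?_ hbig
    rw [hc0]; linarith
  have hc4 : 4 * ((k : ℝ) + 1) ^ 3 * 41 ^ 3 * 11 * CM ≤ t := by
    refine le_trans ?_ hbig
    rw [hc0, ← hc1d]; linarith
  have hLt : t ^ 20 ≤ L := by
    rw [hpow]
    calc (L : ℝ) ^ (γ * (20 : ℕ)) ≤ (L : ℝ) ^ (1 : ℝ) := by
          apply Real.rpow_le_rpow_of_exponent_le hL1
          push_cast
          rw [hγ]
          linarith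
      _ = L := Real.rpow_one _
  have e4 : (L : ℝ) / t ^ 4 = (L : ℝ) ^ (1 - βm / 32) := by
    rw [hpow, Real.rpow_sub hL0, Real.rpow_one]
    congr 2
    rw [hγ]; push_cast; ring
  have e1 : (L : ℝ) / t = (L : ℝ) ^ (1 - γ) := by
    rw [ht, Real.rpow_sub hL0, Real.rpow_one]
  have eδ : (L : ℝ) ^ (-1 + κ + κ) ≤ t ^ 2 / L := by
    rw [hpow, div_eq_mul_inv, ← Real.rpow_neg_one (L : ℝ), ← Real.rpow_add hL0]
    apply Real.rpow_le_rpow_of_exponent_le hL1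
    push_cast; linarith
  have egm : (L : ℝ) ^ (-βm) = (t ^ 128)⁻¹ := by
    rw [hpow, ← Real.rpow_neg hL0.le]
    congr 1
    rw [hγ]; push_cast; ring
  have eμ : (L : ℝ) ^ (-(βm / 8)) = (t ^ 16)⁻¹ := by
    rw [hpow, ← Real.rpow_neg hL0.le]
    congr 1
    rw [hγ]; push_cast; ring
  obtain ⟨r0, hr0⟩ : ∃ r0 : ℕ, r0 = ⌊(L : ℝ) ^ (1 - κ) / 20⌋₊ := ⟨_, rfl⟩
  have hx0 : (0 : ℝ) ≤ (L : ℝ) ^ (1 - κ) / 20 := by positivity
  have hr0a : (L : ℝ) ^ (1 - κ) / 20 - 1 ≤ r0 := by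
    have h1 := (Nat.lt_floor_add_one ((L : ℝ) ^ (1 - κ) / 20)).le
    rw [hr0]; linarith
  have hr0b : (r0 : ℝ) ≤ (L : ℝ) ^ (1 - κ) / 20 := by
    rw [hr0]; exact Nat.floor_le hx0
  have hX1 : (L : ℝ) / t ≤ (L : ℝ) ^ (1 - κ) := by
    rw [e1]
    exact Real.rpow_le_rpow_of_exponent_le hL1 (by linarith)
  have hX2 : (L : ℝ) ^ (1 - κ) ≤ L := by
    calc (L : ℝ) ^ (1 - κ) ≤ (L : ℝ) ^ (1 : ℝ) :=
          Real.rpow_le_rpow_of_exponent_le hL1 (by linarith)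
      _ = L := Real.rpow_one _
  obtain ⟨n1, n2, n3, n4, n5, n6, n7, n8, n9, n10, n11⟩ :=
    num_conds hCA1 hCM1 hc1 hc2 hc3 hc4 hLt (by rw [ht, hγ]; exact hs) hX1 hX2 hr
      (by rw [e4]; exact hρ) hr0a hr0b
  have n2' : r0 + 9 ≤ L := by exact_mod_cast n2
  have n3' : 2 * (r + s + 4) ≤ r0 := by exact_mod_cast n3
  have n4' : 2 * s + 10 ≤ ρ1 := by exact_mod_cast n4
  have hμ0 : 0 < μ := lt_of_lt_of_le (Real.rpow_pos_of_pos hL0 _) hμ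
  obtain ⟨Mx, hMx⟩ : ∃ Mx : ℝ, Mx = CM * (2 * s + 9) := ⟨_, rfl⟩
  obtain ⟨k1, hk1⟩ : ∃ k1 : ℝ, k1 = (R : ℝ) ^ m := ⟨_, rfl⟩
  have hk10 : 0 ≤ k1 := by rw [hk1]; positivity
  have hk11 : 1 ≤ k1 := by rw [hk1]; exact one_le_pow₀ hR'
  obtain ⟨κ0, hκ0⟩ : ∃ κ0 : ℝ, κ0 = t ^ 8 / (4 * L) := ⟨_, rfl⟩
  obtain ⟨E', hE⟩ : ∃ E' : ℝ, E' = 5 * k1 := ⟨_, rfl⟩
  have hE1 : 1 + 4 * k1 ≤ E' := by rw [hE]; linarith
  obtain ⟨Φ, hΦ⟩ : ∃ Φ : ℝ, Φ = 64 * E' ^ 72 * (L : ℝ) ^ 80 * (t ^ (32 * k))⁻¹ := ⟨_, rfl⟩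
  have hE0 : 0 ≤ E' := by rw [hE]; positivity
  have hcw := cw_core (T := T) (A := A) (y := y) (r0 := r0) (E := E') hCA1 hKp hCM1 hCM hk72 hT ht1
    hL1 hMx hk10 hκ0 hE1 n1 n2' n3' n4' n5 (by rw [hκ0]; exact n6) (by rw [hMx]; exact n7) n8 n9
    n10 n11 g hμ0 (fun ω hω x hx => by rw [← egm]; exact hg ω hω x hx) hgM hloc
  rw [← hΦ, ← hK] at hcw
  have hb := hbad R T hR hfit y L hL (le_trans (by gcongr) hd)
  rw [← hr0, ← hk1] at hb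
  have hfin : (μ ^ k)⁻¹ * (K * Φ) ≤ K5 * (R : ℝ) ^ (-p) := by
    rw [hK5]
    have h1 : (μ ^ k)⁻¹ ≤ t ^ (16 * k) := by
      rw [← inv_pow]
      have h2 : μ⁻¹ ≤ t ^ 16 := by
        rw [inv_le_comm₀ hμ0 (by positivity), ← eμ]
        exact hμ
      calc μ⁻¹ ^ k ≤ (t ^ 16) ^ k := by gcongr
        _ = t ^ (16 * k) := by rw [pow_mul]
    have h3 : t ^ (16 * k) * (t ^ (32 * k))⁻¹ = (t ^ (16 * k))⁻¹ := by
      have h4 : t ^ (32 * k) = t ^ (16 * k) * t ^ (16 * k) := by rw [← pow_add]; congr 1; omega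
      rw [h4]
      field_simp
    have h5 : k1 ≤ (L : ℝ) ^ (m / a0) := by
      rw [hk1]
      calc (R : ℝ) ^ m = ((R : ℝ) ^ a0) ^ ((m : ℝ) / a0) := by
            rw [← Real.rpow_mul hR0.le, ← Real.rpow_natCast]; congr 1; field_simp
        _ ≤ (L : ℝ) ^ (m / a0) := Real.rpow_le_rpow (by positivity) hL (by positivity)
    have h6 : k1 ^ 72 * (L : ℝ) ^ 80 * (t ^ (16 * k))⁻¹ ≤ (R : ℝ) ^ (-p) := by
      calc k1 ^ 72 * (L : ℝ) ^ 80 * (t ^ (16 * k))⁻¹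
          ≤ ((L : ℝ) ^ (m / a0)) ^ 72 * (L : ℝ) ^ 80 * (t ^ (16 * k))⁻¹ := by gcongr
        _ = (L : ℝ) ^ (72 * m / a0 + 80 - k * (βm / 8)) := by
            rw [hpow, ← Real.rpow_neg hL0.le, ← Real.rpow_natCast, ← Real.rpow_natCast (L : ℝ) 80,
              ← Real.rpow_mul hL0.le, ← Real.rpow_add hL0, ← Real.rpow_add hL0]
            congr 1
            rw [hγ]
            push_cast
            ring
        _ ≤ (L : ℝ) ^ (-(p / a0)) := by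
            apply Real.rpow_le_rpow_of_exponent_le hL1
            linarith
        _ ≤ (R : ℝ) ^ (-p) := by
            calc (L : ℝ) ^ (-(p / a0)) ≤ ((R : ℝ) ^ a0) ^ (-(p / a0)) := by
                  apply Real.rpow_le_rpow_of_nonpos (by positivity) hL
                  have : 0 ≤ p / a0 := by positivity
                  linarith
              _ = (R : ℝ) ^ (-p) := by
                  rw [← Real.rpow_mul hR0.le]; congr 1; field_simp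
    calc (μ ^ k)⁻¹ * (K * Φ) ≤ t ^ (16 * k) * (K * Φ) := by
          apply mul_le_mul_of_nonneg_right h1
          rw [hΦ]; positivity
      _ = K * 64 * 5 ^ 72 * (k1 ^ 72 * (L : ℝ) ^ 80 * (t ^ (16 * k) * (t ^ (32 * k))⁻¹)) := by
          rw [hΦ, hE]; ring
      _ = K * 64 * 5 ^ 72 * (k1 ^ 72 * (L : ℝ) ^ 80 * (t ^ (16 * k))⁻¹) := by rw [h3]
      _ ≤ K * 64 * 5 ^ 72 * (R : ℝ) ^ (-p) := by gcongr
  calc _ ≤ Pr T.V (fun ω => ¬ (CwGood T A y L r0 k1 ((L : ℝ) ^ (-1 + κ + κ))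
          (Vin T.V (box y L) ω.1) ∧ CwGood T A y L r0 k1 ((L : ℝ) ^ (-1 + κ + κ))
            (Vin T.V (box y L) ω.2)) ∨
        ((CwGood T A y L r0 k1 (t ^ 2 / L) (Vin T.V (box y L) ω.1) ∧
        CwGood T A y L r0 k1 (t ^ 2 / L) (Vin T.V (box y L) ω.2)) ∧
        ∃ p q, TwoEnds (res T.V (box y L) ω) p q ∧
        μ + k * μ ≤ ∑ x ∈ both (box y r) (fun x => box x s) (res T.V (box y L) ω) p q,
          g ω x)) := by
        apply E.Pr_mono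
        intro ω _ h
        by_cases hg' : (CwGood T A y L r0 k1 ((L : ℝ) ^ (-1 + κ + κ)) (Vin T.V (box y L) ω.1) ∧
          CwGood T A y L r0 k1 ((L : ℝ) ^ (-1 + κ + κ)) (Vin T.V (box y L) ω.2))
        · exact Or.inr ⟨⟨hg'.1.mono eδ, hg'.2.mono eδ⟩, h⟩
        · exact Or.inl hg'
    _ ≤ Cb * (R : ℝ) ^ (-p) + (μ ^ k)⁻¹ * (K * Φ) := by
        refine (E.Pr_or_le _ _ _).trans (add_le_add hb ?_)
        exact hcw
    _ ≤ Cb * (R : ℝ) ^ (-p) + K5 * (R : ℝ) ^ (-p) := by linarith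
    _ = (Cb + K5) * (R : ℝ) ^ (-p) := by ring
    _ ≤ C * (R : ℝ) ^ (-p) := by
        apply mul_le_mul_of_nonneg_right _ hRp.le
        rw [hC]; linarith

end Vale.Agent.P155.SW
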