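import Vale.Agent.P155.F.CwOne

/-!
# P155, TIGHT: mass of the points with two different strands nearby
-/

namespace Vale.Agent.P155.SW

open Finset Vale.Agent.P155 Skel

open Classical in
/-- **Contact weight in one ball, points.** Random weights `g ω x ≥ 0` on `box y r` with total mass
at most `M ω`, point masses at most `M ω L^{-βm}` and local masses (scale `ρ1 ≥ L^{1-βm/32}`) at
most `M ω μ`, `μ ≥ L^{-βm/8}`: the mass of the points `x` such that two different strands of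
`box y L` visit `box x s` is at most `C M ω μ` off an event of probability `C R^{-p}`. -/
theorem cw_points {A : Pt → ℝ} (hA : IsPlane A) {βm κ p a0 : ℝ} (hβ : 0 < βm) (hβ1 : βm ≤ 1)
    (hκ : 0 < κ) (hκβ : κ ≤ βm / 128) (hp : 0 < p) (ha0 : 0 < a0) : ∃ C : ℝ, 0 < C ∧
    ∀ (R : ℕ) (T : Temp), 1 ≤ R → Fits T R → ∀ (y : Pt) (L s ρ1 r : ℕ), (R : ℝ) ^ a0 ≤ L →
      C * L ≤ dF T.faceSet y → (s : ℝ) ≤ (L : ℝ) ^ (βm / 128) → (L : ℝ) ^ (1 - βm / 32) ≤ ρ1 →
      (r : ℝ) ≤ (L : ℝ) ^ (1 - κ) / 100 →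
      ∀ (g : Conf → Pt → ℝ) (M : Conf → ℝ) (μ : ℝ), (L : ℝ) ^ (-(βm / 8)) ≤ μ →
      (∀ ω ∈ DD T.V, ∀ x ∈ box y r, 0 ≤ g ω x ∧ g ω x ≤ M ω * (L : ℝ) ^ (-βm)) →
      (∀ ω ∈ DD T.V, 0 ≤ M ω ∧ ∑ x ∈ box y r, g ω x ≤ M ω) →
      (∀ ω ∈ DD T.V, ∀ x ∈ box y r, ∑ x' ∈ (box y r).filter (fun x' => ¬ sepP ρ1 x x'),
        g ω x' ≤ M ω * μ) →
      Pr T.V (fun ω => C * (M ω * μ) <
        ∑ x ∈ (box y r).filter (fun x => TwoStr T.V (box y L) ω x s), g ω x) ≤
        C * (R : ℝ) ^ (-p) := by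
  obtain ⟨γ, hγ⟩ : ∃ γ : ℝ, γ = βm / 128 := ⟨_, rfl⟩
  have hγ0 : 0 < γ := by rw [hγ]; positivity
  have hγ1 : γ ≤ 1 / 128 := by rw [hγ]; linarith
  have hκγ : κ ≤ γ := by rw [hγ]; exact hκβ
  obtain ⟨k, C1, hC1, hpairs⟩ := cw_pairs hA hβ hβ1 hκ hκβ hp ha0
  obtain ⟨n0, C2, hC2, hleg⟩ := T211.leg E.b_mono' (a0 * κ) p (by positivity) hp
  obtain ⟨Ks, hKs⟩ : ∃ Ks : ℝ, Ks = (8 : ℝ) ^ (p / (γ * a0)) := ⟨_, rfl⟩
  have hKs0 : 0 ≤ Ks := by rw [hKs]; positivity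
  obtain ⟨C, hC⟩ : ∃ C : ℝ, C = 3 + C1 + C2 + Ks + (n0 : ℝ) ^ 2 * (1 + k) := ⟨_, rfl⟩
  have hn0 : 0 ≤ (n0 : ℝ) ^ 2 * (1 + k) := by positivity
  have hCpos : 0 < C := by rw [hC]; positivity
  refine ⟨C, hCpos, ?_⟩
  intro R T hR hfit y L s ρ1 r hL hd hs hρ hr g M μ hμ hg hM hloc
  have hR' : (1 : ℝ) ≤ R := by exact_mod_cast hR
  have hR0 : (0 : ℝ) < R := by linarith
  have hL1 : (1 : ℝ) ≤ L := (Real.one_le_rpow hR' ha0.le).trans hL
  have hL0 : (0 : ℝ) < L := by linarith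
  have hRp : (0 : ℝ) < (R : ℝ) ^ (-p) := Real.rpow_pos_of_pos hR0 _
  have hC3 : 3 ≤ C := by rw [hC]; linarith
  have hCC1 : C1 ≤ C := by rw [hC]; linarith
  have hCC2 : C2 ≤ C := by rw [hC]; linarith
  have hCn : (n0 : ℝ) ^ 2 * (1 + k) ≤ C := by rw [hC]; linarith
  have h3L : 3 * (L : ℝ) ≤ C * L := by gcongr
  have hT : ∀ v, dinf y v ≤ L → v ∈ T.V := by
    intro v hv
    apply E1.mem_V_of_dF (n := L) _ (F.mem_box_iff.2 hv)
    have : (L : ℝ) + 1 < dF T.faceSet y := by linarith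
    exact_mod_cast this
  have hμ0 : 0 < μ := lt_of_lt_of_le (Real.rpow_pos_of_pos hL0 _) hμ
  obtain ⟨t, ht⟩ : ∃ t : ℝ, t = (L : ℝ) ^ γ := ⟨_, rfl⟩
  have ht0 : 0 < t := by rw [ht]; exact Real.rpow_pos_of_pos hL0 _
  have ht1 : 1 ≤ t := by rw [ht]; exact Real.one_le_rpow hL1 hγ0.le
  by_cases hbig : 8 ≤ t
  swap
  · -- small scales
    push Not at hbig
    have h1 := E.Pr_le_one T.V (fun ω => C * (M ω * μ) <
        ∑ x ∈ (box y r).filter (fun x => TwoStr T.V (box y L) ω x s), g ω x)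
    have h2 : (R : ℝ) ^ p ≤ Ks := by
      have h3 : (R : ℝ) ^ p ≤ (L : ℝ) ^ (p / a0) := by
        calc (R : ℝ) ^ p = ((R : ℝ) ^ a0) ^ (p / a0) := by
              rw [← Real.rpow_mul hR0.le]; congr 1; field_simp
          _ ≤ (L : ℝ) ^ (p / a0) := Real.rpow_le_rpow (by positivity) hL (by positivity)
      have h4 : (L : ℝ) ^ (p / a0) = t ^ (p / (γ * a0)) := by
        rw [ht, ← Real.rpow_mul hL0.le]; congr 1; field_simp
      rw [h4] at h3
      rw [hKs]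
      exact h3.trans (Real.rpow_le_rpow ht0.le hbig.le (by positivity))
    have h3 : (R : ℝ) ^ p * (R : ℝ) ^ (-p) = 1 := by
      rw [← Real.rpow_add hR0]; simp
    calc _ ≤ 1 := h1
      _ = (R : ℝ) ^ p * (R : ℝ) ^ (-p) := h3.symm
      _ ≤ C * (R : ℝ) ^ (-p) := by
          apply mul_le_mul_of_nonneg_right _ hRp.le
          rw [hC]
          linarith
  -- large scales
  have hLt : t ^ 4 ≤ (L : ℝ) ^ (1 - κ) := by
    rw [ht, ← Real.rpow_natCast, ← Real.rpow_mul hL0.le]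
    apply Real.rpow_le_rpow_of_exponent_le hL1
    push_cast
    linarith
  have e1 : (L : ℝ) ^ (1 - κ) * (L : ℝ) ^ κ = L := by
    rw [← Real.rpow_add hL0]
    have : 1 - κ + κ = 1 := by ring
    rw [this, Real.rpow_one]
  have hst : (s : ℝ) ≤ t := by rw [ht, hγ]; exact hs
  have hrs : (r : ℝ) + s + 1 ≤ (L : ℝ) ^ (1 - κ) / 2 := by
    have h1 : t ^ 4 = t * t ^ 3 := by ring
    have h2 : (8 : ℝ) ^ 3 ≤ t ^ 3 := by gcongr
    have h3 : t * 8 ^ 3 ≤ t ^ 4 := by rw [h1]; gcongr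
    linarith
  have hhalf : (L : ℝ) ^ (1 - κ) ≤ L := by
    calc (L : ℝ) ^ (1 - κ) ≤ (L : ℝ) ^ (1 : ℝ) :=
          Real.rpow_le_rpow_of_exponent_le hL1 (by linarith)
      _ = L := Real.rpow_one _
  have hL8 : (8 : ℝ) ≤ L := by
    have h1 : t ^ 4 = t * t ^ 3 := by ring
    have h2 : (8 : ℝ) ^ 3 ≤ t ^ 3 := by gcongr
    have h3 : t * 8 ^ 3 ≤ t ^ 4 := by rw [h1]; gcongr
    linarith
  have hrsL : r + s + 4 ≤ L := by
    have : (r : ℝ) + s + 4 ≤ L := by linarith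
    exact_mod_cast this
  have hL1' : 1 ≤ L := by exact_mod_cast hL1
  -- LEG
  have hlegE := hleg R T hR hfit y (r + s + 1) (L - 1) (by omega) (by
    have hRη : (R : ℝ) ^ (a0 * κ) ≤ (L : ℝ) ^ κ := by
      rw [Real.rpow_mul hR0.le]
      exact Real.rpow_le_rpow (by positivity) hL hκ.le
    rw [Nat.cast_sub hL1']
    push_cast
    calc ((r : ℝ) + s + 1) * (R : ℝ) ^ (a0 * κ) ≤ ((L : ℝ) ^ (1 - κ) / 2) * (L : ℝ) ^ κ := by
          gcongr
      _ = ((L : ℝ) ^ (1 - κ) * (L : ℝ) ^ κ) / 2 := by ring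
      _ = (L : ℝ) / 2 := by rw [e1]
      _ ≤ L - 1 := by linarith) (by
    refine le_trans ?_ hd
    rw [Nat.cast_sub hL1']
    push_cast
    calc C2 * ((L : ℝ) - 1) ≤ C2 * L := by gcongr; linarith
      _ ≤ C * L := by gcongr)
  -- pairs
  set g' : Conf → Pt → ℝ := fun ω x => g ω x / M ω with hg'
  have hdd : C1 * (L : ℝ) ≤ dF T.faceSet y := le_trans (by gcongr) hd
  have hM0 : ∀ ω ∈ DD T.V, 0 ≤ M ω := fun ω hω => (hM ω hω).1
  have hMg : ∀ ω ∈ DD T.V, ∀ x ∈ box y r, M ω * g' ω x = g ω x := by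
    intro ω hω x hx
    simp only [hg']
    by_cases h0 : M ω = 0
    · have h1 := hg ω hω x hx
      rw [h0, zero_mul] at h1
      rw [h0, zero_mul]
      linarith [h1.1, h1.2]
    · field_simp
  have hp1 := hpairs R T hR hfit y L s ρ1 r hL hdd hs hρ hr g' μ hμ (by
    intro ω hω x hx
    have h1 := hg ω hω x hx
    have h2 := hM0 ω hω
    refine ⟨div_nonneg h1.1 h2, ?_⟩
    simp only [hg']
    by_cases h0 : M ω = 0
    · rw [h0, div_zero]; positivity
    · have h3 : 0 < M ω := lt_of_le_of_ne h2 (Ne.symm h0)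
      rw [div_le_iff₀ h3, mul_comm]
      exact h1.2) (by
    intro ω hω
    have h2 := hM0 ω hω
    simp only [hg']
    rw [← sum_div]
    by_cases h0 : M ω = 0
    · rw [h0, div_zero]; exact zero_le_one
    · have h3 : 0 < M ω := lt_of_le_of_ne h2 (Ne.symm h0)
      rw [div_le_one h3]
      exact (hM ω hω).2) (by
    intro ω hω x hx
    have h2 := hM0 ω hω
    simp only [hg']
    rw [← sum_div]
    by_cases h0 : M ω = 0
    · rw [h0, div_zero]; exact hμ0.le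
    · have h3 : 0 < M ω := lt_of_le_of_ne h2 (Ne.symm h0)
      rw [div_le_iff₀ h3, mul_comm]
      exact hloc ω hω x hx)
  calc _ ≤ Pr T.V (fun ω => T211.ArcEv T.V n0 y (r + s + 1) (L - 1) ω ∨
        ∃ p q, TwoEnds (res T.V (box y L) ω) p q ∧ μ + k * μ ≤
          ∑ x ∈ both (box y r) (fun x => box x s) (res T.V (box y L) ω) p q, g' ω x) := by
        apply E.Pr_mono
        intro ω hω hlt
        by_contra hno
        rw [not_or] at hno
        obtain ⟨hno1, hno2⟩ := hno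
        push Not at hno2
        have hcard : (exits T.V (box y L) ω y (r + s)).card ≤ n0 := by
          by_contra hc
          push Not at hc
          exact hno1 (arcEv_of_exits hω hT (by omega) hc.le)
        have h1 := sum_twoStr_le hω hT (s := s) (by omega) (g := g ω)
          (fun x hx => (hg ω hω x hx).1) (n := n0) (c := M ω * (μ + k * μ))
          (mul_nonneg (hM0 ω hω) (by positivity)) hcard (by
            intro p q hpq
            have h2 := hno2 p q hpq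
            calc ∑ x ∈ both (box y r) (fun x => box x s) (res T.V (box y L) ω) p q, g ω x
                = M ω * ∑ x ∈ both (box y r) (fun x => box x s) (res T.V (box y L) ω) p q,
                  g' ω x := by
                  rw [mul_sum]
                  apply sum_congr rfl
                  intro x hx
                  exact (hMg ω hω x (mem_both.1 hx).1).symm
              _ ≤ M ω * (μ + k * μ) := mul_le_mul_of_nonneg_left h2.le (hM0 ω hω))
        have h3 : (n0 : ℝ) ^ 2 * (M ω * (μ + k * μ)) ≤ C * (M ω * μ) := by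
          have h4 : 0 ≤ M ω * μ := mul_nonneg (hM0 ω hω) hμ0.le
          calc (n0 : ℝ) ^ 2 * (M ω * (μ + k * μ)) = ((n0 : ℝ) ^ 2 * (1 + k)) * (M ω * μ) := by ring
            _ ≤ C * (M ω * μ) := mul_le_mul_of_nonneg_right hCn h4
        linarith
    _ ≤ C2 * (R : ℝ) ^ (-p) + C1 * (R : ℝ) ^ (-p) :=
        (E.Pr_or_le _ _ _).trans (add_le_add hlegE hp1)
    _ = (C2 + C1) * (R : ℝ) ^ (-p) := by ring
    _ ≤ C * (R : ℝ) ^ (-p) := by
        apply mul_le_mul_of_nonneg_right _ hRp.le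
        rw [hC]; linarith

end Vale.Agent.P155.SW
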