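import Vale.Agent.P155.Defs2

/-!
# P155, block F: determinants relative to a reference matching

`detR V m0 κ` is the determinant of the white-by-black matrix `κ` on the finite vertex set `V`,
where the reference matching `m0` identifies the black vertices of `V` with the white ones.
-/

namespace Vale.Agent.P155.F

open Finset

/-! ## Elementary facts on adjacency and matchings -/

theorem adj_comm' {u v : Pt} (h : Adj u v) : Adj v u := by
  unfold Adj at *
  rw [abs_sub_comm v.1 u.1, abs_sub_comm v.2 u.2]; exact h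

theorem adj_ne {u v : Pt} (h : Adj u v) : u ≠ v := by
  rintro rfl
  simp [Adj] at h

theorem black_iff_nw {v : Pt} : Black v ↔ ¬ White v := by
  simp [Black, White]

theorem white_iff {v : Pt} : White v ↔ (v.1 + v.2) % 2 = 1 := by
  unfold White; exact Int.odd_iff

theorem black_iff {v : Pt} : Black v ↔ (v.1 + v.2) % 2 = 0 := by
  unfold Black; exact Int.even_iff

theorem adj_cases {u v : Pt} (h : Adj u v) :
    v = (u.1 + 1, u.2) ∨ v = (u.1 - 1, u.2) ∨ v = (u.1, u.2 + 1) ∨ v = (u.1, u.2 - 1) := by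
  have := mem_nbrs.2 h
  simpa only [nbrs, mem_insert, mem_singleton] using this

theorem adj_white {u v : Pt} (h : Adj u v) (hu : White u) : Black v := by
  rw [white_iff] at hu
  rw [black_iff]
  rcases adj_cases h with h | h | h | h <;> subst h <;> simp only <;> omega

theorem adj_black {u v : Pt} (h : Adj u v) (hu : Black u) : White v := by
  rw [black_iff] at hu
  rw [white_iff]
  rcases adj_cases h with h | h | h | h <;> subst h <;> simp only <;> omega

/-- A matching maps its vertex set to itself. -/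
theorem IsPM.mem {V : Finset Pt} {m : Pt → Pt} (hm : IsPM V m) {v : Pt} (hv : v ∈ V) :
    m v ∈ V := by
  by_contra h
  have h1 := hm.off _ h
  rw [hm.invol] at h1
  exact adj_ne (hm.adj v hv) h1

theorem IsPM.mem_iff {V : Finset Pt} {m : Pt → Pt} (hm : IsPM V m) {v : Pt} :
    m v ∈ V ↔ v ∈ V := by
  constructor
  · intro h
    have := IsPM.mem hm h
    rwa [hm.invol] at this
  · exact IsPM.mem hm

theorem IsPM.inj {V : Finset Pt} {m : Pt → Pt} (hm : IsPM V m) : Function.Injective m := by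
  intro a b h
  rw [← hm.invol a, ← hm.invol b, h]

theorem IsPM.black {V : Finset Pt} {m : Pt → Pt} (hm : IsPM V m) {v : Pt} (hv : v ∈ V)
    (hw : White v) : Black (m v) := adj_white (hm.adj v hv) hw

theorem IsPM.white {V : Finset Pt} {m : Pt → Pt} (hm : IsPM V m) {v : Pt} (hv : v ∈ V)
    (hw : Black v) : White (m v) := adj_black (hm.adj v hv) hw

/-! ## The determinant relative to a reference matching -/

/-- White vertices of `V` as a type. -/
abbrev WV (V : Finset Pt) := {w : Pt // w ∈ V.filter White}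

/-- Determinant of the white-by-black matrix `κ`, the black vertices of `V` being identified with
the white ones by the reference matching `m0`. -/
noncomputable def detR (V : Finset Pt) (m0 : Pt → Pt) (κ : Pt → Pt → ℝ) : ℝ :=
  Matrix.det (Matrix.of fun w w' : WV V => κ w (m0 w'))

theorem WV.mem {V : Finset Pt} (w : WV V) : (w : Pt) ∈ V := (mem_filter.1 w.2).1

theorem WV.white {V : Finset Pt} (w : WV V) : White (w : Pt) := (mem_filter.1 w.2).2

theorem detR_eq (V : Finset Pt) (m0 : Pt → Pt) (κ : Pt → Pt → ℝ) :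
    detR V m0 κ = ∑ σ : Equiv.Perm (WV V), (Equiv.Perm.sign σ : ℤ) *
      ∏ w : WV V, κ w (m0 (σ w)) := by
  unfold detR
  rw [← Matrix.det_transpose, Matrix.det_apply']
  rfl

/-! ## Counting the nonzero terms -/

/-- The permutations contributing to `detR` when the rows `w ∈ S` are the unit rows at `g w`. -/
def Good (V : Finset Pt) (m0 : Pt → Pt) (S : Finset Pt) (g : Pt → Pt)
    (σ : Equiv.Perm (WV V)) : Prop :=
  ∀ w : WV V, ((w : Pt) ∈ S → m0 (σ w) = g w) ∧ ((w : Pt) ∉ S → Adj w (m0 (σ w)))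

/-- The values of the matching prescribed by `g` on `S` and `m` off `S`. -/
def fm (S : Finset Pt) (g m : Pt → Pt) (w : Pt) : Pt := if w ∈ S then g w else m w

section
variable {V : Finset Pt} {m0 : Pt → Pt} (h0 : IsPM V m0) {S : Finset Pt} {g : Pt → Pt}
  (hS : ∀ w ∈ S, w ∈ V ∧ White w) (hg : ∀ w ∈ S, g w ∈ V ∧ Black (g w))
  (hinj : Set.InjOn g S)

include hS hg in
theorem mem_sdiff_white {v : Pt} (hv : White v) :
    v ∈ V \ (S ∪ S.image g) ↔ v ∈ V ∧ v ∉ S := by
  simp only [mem_sdiff, mem_union, mem_image, not_or, not_exists, not_and]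
  constructor
  · rintro ⟨h1, h2, _⟩
    exact ⟨h1, h2⟩
  · rintro ⟨h1, h2⟩
    refine ⟨h1, h2, ?_⟩
    intro x hx hxv
    have := (hg x hx).2
    rw [hxv] at this
    exact black_iff_nw.1 this hv

include hS hg in
theorem mem_sdiff_black {v : Pt} (hv : Black v) :
    v ∈ V \ (S ∪ S.image g) ↔ v ∈ V ∧ v ∉ S.image g := by
  simp only [mem_sdiff, mem_union, not_or]
  constructor
  · rintro ⟨h1, _, h2⟩
    exact ⟨h1, h2⟩
  · rintro ⟨h1, h2⟩
    refine ⟨h1, ?_, h2⟩
    intro hx
    exact black_iff_nw.1 hv (hS v hx).2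

include hS hg in
theorem fm_mem {m : Pt → Pt} (hm : IsPM (V \ (S ∪ S.image g)) m) (w : WV V) :
    fm S g m w ∈ V ∧ Black (fm S g m w) := by
  unfold fm
  split_ifs with h
  · exact hg _ h
  · have hw : (w : Pt) ∈ V \ (S ∪ S.image g) := (mem_sdiff_white hS hg w.white).2 ⟨w.mem, h⟩
    exact ⟨(mem_sdiff.1 (IsPM.mem hm hw)).1, IsPM.black hm hw w.white⟩

include hS hg hinj in
theorem fm_inj {m : Pt → Pt} (hm : IsPM (V \ (S ∪ S.image g)) m) {w w' : WV V}
    (h : fm S g m w = fm S g m w') : w = w' := by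
  have key : ∀ a b : WV V, (a : Pt) ∈ S → (b : Pt) ∉ S → g a ≠ m b := by
    intro a b ha hb hab
    have hb' : (b : Pt) ∈ V \ (S ∪ S.image g) := (mem_sdiff_white hS hg b.white).2 ⟨b.mem, hb⟩
    have h2 := IsPM.mem hm hb'
    rw [← hab] at h2
    rw [mem_sdiff_black hS hg (hg _ ha).2] at h2
    exact h2.2 (mem_image_of_mem g ha)
  unfold fm at h
  apply Subtype.ext
  split_ifs at h with h1 h2 h2
  · exact hinj h1 h2 h
  · exact absurd h (key w w' h1 h2)
  · exact absurd h.symm (key w' w h2 h1)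
  · exact IsPM.inj hm h

include h0 in
theorem m0_mem {v : Pt} (hv : v ∈ V ∧ Black v) : m0 v ∈ V.filter White :=
  mem_filter.2 ⟨IsPM.mem h0 hv.1, IsPM.white h0 hv.1 hv.2⟩

/-- The permutation of a matching of `V \ (S ∪ g S)`. -/
noncomputable def permOf {m : Pt → Pt} (hm : IsPM (V \ (S ∪ S.image g)) m) :
    Equiv.Perm (WV V) :=
  Equiv.ofBijective (fun w : WV V => (⟨m0 (fm S g m w), m0_mem h0 (fm_mem hS hg hm w)⟩ : WV V))
    (Finite.injective_iff_bijective.1 (by
      intro a b hab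
      simp only [Subtype.mk.injEq] at hab
      exact fm_inj hS hg hinj hm (IsPM.inj h0 hab)))

theorem permOf_apply {m : Pt → Pt} (hm : IsPM (V \ (S ∪ S.image g)) m) (w : WV V) :
    m0 (permOf h0 hS hg hinj hm w) = fm S g m w := by
  unfold permOf
  simp only [Equiv.ofBijective_apply]
  exact h0.invol _

theorem good_permOf {m : Pt → Pt} (hm : IsPM (V \ (S ∪ S.image g)) m) :
    Good V m0 S g (permOf h0 hS hg hinj hm) := by
  intro w
  rw [permOf_apply h0 hS hg hinj hm]
  unfold fm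
  refine ⟨fun h => by rw [if_pos h], fun h => ?_⟩
  rw [if_neg h]
  exact hm.adj _ ((mem_sdiff_white hS hg w.white).2 ⟨w.mem, h⟩)

open Classical in
/-- The matching of a good permutation. -/
noncomputable def matchOf (V : Finset Pt) (m0 : Pt → Pt) (S : Finset Pt) (g : Pt → Pt)
    (σ : Equiv.Perm (WV V)) (v : Pt) : Pt :=
  if h : v ∈ V.filter White ∧ v ∉ S then m0 (σ ⟨v, h.1⟩)
  else if h : m0 v ∈ V.filter White ∧ v ∉ S.image g ∧ v ∈ V ∧ Black v then σ.symm ⟨m0 v, h.1⟩
  else v

theorem matchOf_white {σ : Equiv.Perm (WV V)} (w : WV V) (h : (w : Pt) ∉ S) :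
    matchOf V m0 S g σ w = m0 (σ w) := by
  unfold matchOf
  rw [dif_pos (show (w : Pt) ∈ V.filter White ∧ (w : Pt) ∉ S from ⟨w.2, h⟩)]

include h0 in
theorem matchOf_black {σ : Equiv.Perm (WV V)} (w : WV V) (h : m0 (w : Pt) ∉ S.image g) :
    matchOf V m0 S g σ (m0 w) = σ.symm w := by
  unfold matchOf
  have hb : Black (m0 w) := IsPM.black h0 w.mem w.white
  rw [dif_neg (fun hh => black_iff_nw.1 hb (mem_filter.1 hh.1).2)]
  have h2 : m0 (m0 (w : Pt)) = w := h0.invol _
  rw [dif_pos (show m0 (m0 (w : Pt)) ∈ V.filter White ∧ m0 (w : Pt) ∉ S.image g ∧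
    m0 (w : Pt) ∈ V ∧ Black (m0 (w : Pt)) from
      ⟨by rw [h2]; exact w.2, h, IsPM.mem h0 w.mem, hb⟩)]
  congr 2
  exact Subtype.ext h2

include h0 in
/-- every black vertex of `V` is `m0 w` for a white `w`. -/
theorem exists_white {v : Pt} (hv : v ∈ V) (hb : Black v) : ∃ w : WV V, v = m0 w :=
  ⟨⟨m0 v, m0_mem h0 ⟨hv, hb⟩⟩, (h0.invol v).symm⟩

include h0 hS hg hinj in
theorem isPM_matchOf {σ : Equiv.Perm (WV V)} (hσ : Good V m0 S g σ) :
    IsPM (V \ (S ∪ S.image g)) (matchOf V m0 S g σ) := by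
  classical
  -- values on white vertices
  have hW : ∀ w : WV V, (w : Pt) ∉ S → m0 (σ w) ∉ S.image g := by
    intro w hw hmem
    obtain ⟨u, hu, hgu⟩ := mem_image.1 hmem
    have h1 := (hσ ⟨u, mem_filter.2 (hS u hu)⟩).1 hu
    simp only at h1
    rw [hgu] at h1
    have h2 := IsPM.inj h0 h1
    have h3 := σ.injective (Subtype.ext h2)
    rw [← h3] at hw
    exact hw hu
  have hB : ∀ w : WV V, m0 (w : Pt) ∉ S.image g → (σ.symm w : Pt) ∉ S := by
    intro w hw hmem
    have h1 := (hσ (σ.symm w)).1 hmem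
    rw [Equiv.apply_symm_apply] at h1
    apply hw
    rw [h1]
    exact mem_image_of_mem g hmem
  refine ⟨?_, ?_, ?_⟩
  · intro v
    by_cases hw : v ∈ V.filter White ∧ v ∉ S
    · obtain ⟨w, rfl⟩ : ∃ w : WV V, (w : Pt) = v := ⟨⟨v, hw.1⟩, rfl⟩
      rw [matchOf_white w hw.2, matchOf_black h0 _ (hW w hw.2), Equiv.symm_apply_apply]
    · by_cases hb : m0 v ∈ V.filter White ∧ v ∉ S.image g ∧ v ∈ V ∧ Black v
      · obtain ⟨w, rfl⟩ := exists_white h0 hb.2.2.1 hb.2.2.2
        rw [matchOf_black h0 w hb.2.1, matchOf_white _ (hB w hb.2.1), Equiv.apply_symm_apply]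
      · have : matchOf V m0 S g σ v = v := by
          unfold matchOf
          rw [dif_neg hw, dif_neg hb]
        rw [this, this]
  · intro v hv
    unfold matchOf
    rw [dif_neg, dif_neg]
    · rintro ⟨h1, h2, h3, h4⟩
      exact hv ((mem_sdiff_black hS hg h4).2 ⟨h3, h2⟩)
    · rintro ⟨h1, h2⟩
      exact hv ((mem_sdiff_white hS hg (mem_filter.1 h1).2).2 ⟨(mem_filter.1 h1).1, h2⟩)
  · intro v hv
    by_cases hw : White v
    · have h1 := (mem_sdiff_white hS hg hw).1 hv
      obtain ⟨w, rfl⟩ : ∃ w : WV V, (w : Pt) = v := ⟨⟨v, mem_filter.2 ⟨h1.1, hw⟩⟩, rfl⟩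
      rw [matchOf_white w h1.2]
      exact (hσ w).2 h1.2
    · have hb : Black v := by rw [black_iff_nw]; exact hw
      have h1 := (mem_sdiff_black hS hg hb).1 hv
      obtain ⟨w, rfl⟩ := exists_white h0 h1.1 hb
      rw [matchOf_black h0 w h1.2]
      have h2 := (hσ (σ.symm w)).2 (hB w h1.2)
      rw [Equiv.apply_symm_apply] at h2
      exact adj_comm' h2

include h0 hS hg hinj in
open Classical in
/-- The number of good permutations is the number of perfect matchings of `V \ (S ∪ g S)`. -/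
theorem card_good : (univ.filter (Good V m0 S g)).card = Z (V \ (S ∪ S.image g)) := by
  unfold Z
  symm
  refine card_bij (fun m hm => permOf h0 hS hg hinj (mem_PM.1 hm)) ?_ ?_ ?_
  · intro m hm
    exact mem_filter.2 ⟨mem_univ _, good_permOf h0 hS hg hinj (mem_PM.1 hm)⟩
  · intro m hm m' hm' heq
    have hm := mem_PM.1 hm
    have hm' := mem_PM.1 hm'
    have hw : ∀ w : WV V, (w : Pt) ∉ S → m w = m' w := by
      intro w hw
      have h1 := permOf_apply h0 hS hg hinj hm w
      have h2 := permOf_apply h0 hS hg hinj hm' w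
      rw [heq] at h1
      rw [h1] at h2
      unfold fm at h2
      rw [if_neg hw, if_neg hw] at h2
      exact h2
    funext v
    by_cases hv : v ∈ V \ (S ∪ S.image g)
    · by_cases hc : White v
      · have h1 := (mem_sdiff_white hS hg hc).1 hv
        exact hw ⟨v, mem_filter.2 ⟨h1.1, hc⟩⟩ h1.2
      · have hb : Black v := by rw [black_iff_nw]; exact hc
        have h1 : m v ∈ V \ (S ∪ S.image g) := IsPM.mem hm hv
        have h2 : White (m v) := IsPM.white hm hv hb
        have h3 := (mem_sdiff_white hS hg h2).1 h1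
        have h4 := hw ⟨m v, mem_filter.2 ⟨h3.1, h2⟩⟩ h3.2
        simp only at h4
        rw [hm.invol] at h4
        rw [← hm'.invol (m v), ← h4]
    · rw [hm.off v hv, hm'.off v hv]
  · intro σ hσ
    have hσ := (mem_filter.1 hσ).2
    have hPM := isPM_matchOf h0 hS hg hinj hσ
    refine ⟨matchOf V m0 S g σ, mem_PM.2 hPM, ?_⟩
    apply Equiv.ext
    intro w
    apply Subtype.ext
    apply IsPM.inj h0
    rw [permOf_apply h0 hS hg hinj hPM]
    unfold fm
    by_cases h : (w : Pt) ∈ S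
    · rw [if_pos h]
      exact ((hσ w).1 h).symm
    · rw [if_neg h, matchOf_white w h]

end

/-! ## The unsigned bound -/

/-- `κ` has unit rows at `g w` for `w ∈ S`, and entries bounded by the adjacency matrix
otherwise. -/
structure UnitRows (V S : Finset Pt) (g : Pt → Pt) (κ : Pt → Pt → ℝ) : Prop where
  unit : ∀ w ∈ S, ∀ b, κ w b = if b = g w then 1 else 0
  bd : ∀ w ∈ V, White w → w ∉ S → ∀ b, |κ w b| ≤ 1
  adj : ∀ w ∈ V, White w → w ∉ S → ∀ b, κ w b ≠ 0 → Adj w b

theorem term_zero {V : Finset Pt} {m0 : Pt → Pt} {S : Finset Pt} {g : Pt → Pt}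
    {κ : Pt → Pt → ℝ} (hκ : UnitRows V S g κ) {σ : Equiv.Perm (WV V)}
    (hσ : ¬ Good V m0 S g σ) : ∏ w : WV V, κ w (m0 (σ w)) = 0 := by
  unfold Good at hσ
  push Not at hσ
  obtain ⟨w, hw⟩ := hσ
  apply prod_eq_zero (mem_univ w)
  by_contra hne
  obtain ⟨h1, h2⟩ := hw (by
    intro hS
    rw [hκ.unit w hS] at hne
    by_contra h3
    rw [if_neg h3] at hne
    exact hne rfl)
  exact h2 (hκ.adj w w.mem w.white h1 _ hne)

theorem term_abs_le {V : Finset Pt} {m0 : Pt → Pt} {S : Finset Pt} {g : Pt → Pt}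
    {κ : Pt → Pt → ℝ} (hκ : UnitRows V S g κ) (σ : Equiv.Perm (WV V)) :
    |∏ w : WV V, κ w (m0 (σ w))| ≤ 1 := by
  rw [abs_prod]
  apply prod_le_one
  · intro i _; exact abs_nonneg _
  · intro w _
    by_cases h : (w : Pt) ∈ S
    · rw [hκ.unit w h]
      split_ifs <;> simp
    · exact hκ.bd w w.mem w.white h _

/-- **Unsigned bound**: a determinant with some unit rows is at most the number of matchings. -/
theorem abs_detR_le {V : Finset Pt} {m0 : Pt → Pt} (h0 : IsPM V m0) {S : Finset Pt} {g : Pt → Pt}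
    (hS : ∀ w ∈ S, w ∈ V ∧ White w) (hg : ∀ w ∈ S, g w ∈ V ∧ Black (g w))
    (hinj : Set.InjOn g S) {κ : Pt → Pt → ℝ} (hκ : UnitRows V S g κ) :
    |detR V m0 κ| ≤ Z (V \ (S ∪ S.image g)) := by
  classical
  rw [detR_eq]
  calc |∑ σ : Equiv.Perm (WV V), ((Equiv.Perm.sign σ : ℤ) : ℝ) * ∏ w : WV V, κ w (m0 (σ w))|
      ≤ ∑ σ : Equiv.Perm (WV V), |((Equiv.Perm.sign σ : ℤ) : ℝ) * ∏ w : WV V, κ w (m0 (σ w))| :=
        abs_sum_le_sum_abs _ _
    _ ≤ ∑ σ : Equiv.Perm (WV V), (if Good V m0 S g σ then (1 : ℝ) else 0) := by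
        apply sum_le_sum
        intro σ _
        rw [abs_mul]
        have h1 : |((Equiv.Perm.sign σ : ℤ) : ℝ)| = 1 := by
          rcases Int.units_eq_one_or (Equiv.Perm.sign σ) with h | h <;> rw [h] <;> simp
        rw [h1, one_mul]
        split_ifs with h
        · exact term_abs_le hκ σ
        · rw [term_zero hκ h, abs_zero]
    _ = Z (V \ (S ∪ S.image g)) := by
        rw [← card_good h0 hS hg hinj, ← sum_filter, sum_const, nsmul_eq_mul, mul_one]

/-- **Equality** when all nonzero terms have the same sign. -/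
theorem abs_detR_eq {V : Finset Pt} {m0 : Pt → Pt} (h0 : IsPM V m0) {S : Finset Pt} {g : Pt → Pt}
    (hS : ∀ w ∈ S, w ∈ V ∧ White w) (hg : ∀ w ∈ S, g w ∈ V ∧ Black (g w))
    (hinj : Set.InjOn g S) {κ : Pt → Pt → ℝ} (hκ : UnitRows V S g κ) {c : ℝ} (hc : |c| = 1)
    (hsign : ∀ σ : Equiv.Perm (WV V), Good V m0 S g σ →
      ((Equiv.Perm.sign σ : ℤ) : ℝ) * ∏ w : WV V, κ w (m0 (σ w)) = c) :
    |detR V m0 κ| = Z (V \ (S ∪ S.image g)) := by
  classical
  rw [detR_eq]
  have : ∑ σ : Equiv.Perm (WV V), ((Equiv.Perm.sign σ : ℤ) : ℝ) * ∏ w : WV V, κ w (m0 (σ w)) =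
      ∑ σ : Equiv.Perm (WV V), (if Good V m0 S g σ then c else 0) := by
    apply sum_congr rfl
    intro σ _
    split_ifs with h
    · exact hsign σ h
    · rw [term_zero hκ h, mul_zero]
  rw [this, ← sum_filter, sum_const, card_good h0 hS hg hinj, nsmul_eq_mul, abs_mul, hc, mul_one]
  exact abs_of_nonneg (Nat.cast_nonneg _)

end Vale.Agent.P155.F
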