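import Mathlib

/-!
# P155, block F: sign of a permutation as a product over its cycles
-/

namespace Vale.Agent.P155.F

open Finset Equiv Equiv.Perm

variable {n : Type*} [Fintype n] [DecidableEq n]

theorem sign_eq_prod (π : Equiv.Perm n) :
    ((Equiv.Perm.sign π : ℤ) : ℝ) = ∏ c ∈ π.cycleFactorsFinset, (-1 : ℝ) ^ (c.support.card + 1) := by
  rw [Equiv.Perm.sign_of_cycleType, prod_pow_eq_pow_sum, sum_add_distrib]
  have h1 : π.cycleType.sum = ∑ c ∈ π.cycleFactorsFinset, c.support.card := by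
    rw [Equiv.Perm.cycleType_def]; rfl
  have h2 : Multiset.card π.cycleType = ∑ _c ∈ π.cycleFactorsFinset, 1 := by
    rw [Equiv.Perm.cycleType_def, Multiset.card_map]; simp
  rw [h1, h2]
  push_cast
  rfl

theorem prod_support_eq (π : Equiv.Perm n) (a : n → ℝ) :
    ∏ i ∈ π.support, a i = ∏ c ∈ π.cycleFactorsFinset, ∏ i ∈ c.support, a i := by
  rw [← prod_biUnion]
  · apply prod_congr _ (fun _ _ => rfl)
    ext i
    rw [mem_biUnion]
    exact Equiv.Perm.mem_support_iff_mem_support_of_mem_cycleFactorsFinset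
  · intro c hc d hd hcd
    exact (Equiv.Perm.cycleFactorsFinset_pairwise_disjoint π hc hd hcd).disjoint_support

/-- **Sign lemma.** If the product of the weights over each cycle of `τ⁻¹ σ` is the sign of the
cycle, then `sign σ * sign τ * ∏ a = 1`. -/
theorem sign_mul_sign_mul_prod (σ τ : Equiv.Perm n) (a : n → ℝ)
    (hfix : ∀ i, σ i = τ i → a i = 1)
    (hcyc : ∀ c ∈ (τ⁻¹ * σ).cycleFactorsFinset,
      ∏ i ∈ c.support, a i = (-1 : ℝ) ^ (c.support.card + 1)) :
    ((Equiv.Perm.sign σ : ℤ) : ℝ) * ((Equiv.Perm.sign τ : ℤ) : ℝ) * ∏ i, a i = 1 := by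
  have h1 : ∏ i, a i = ∏ i ∈ (τ⁻¹ * σ).support, a i := by
    symm
    apply prod_subset (subset_univ _)
    intro i _ hi
    rw [Equiv.Perm.notMem_support] at hi
    apply hfix
    rw [Equiv.Perm.mul_apply, Equiv.Perm.inv_eq_iff_eq] at hi
    exact hi
  have h2 : ((Equiv.Perm.sign σ : ℤ) : ℝ) * ((Equiv.Perm.sign τ : ℤ) : ℝ) =
      ((Equiv.Perm.sign (τ⁻¹ * σ) : ℤ) : ℝ) := by
    rw [Equiv.Perm.sign_mul, Equiv.Perm.sign_inv]
    push_cast
    ring
  rw [h1, h2, prod_support_eq, sign_eq_prod, ← prod_mul_distrib]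
  apply prod_eq_one
  intro c hc
  rw [hcyc c hc, ← mul_pow]
  norm_num

end Vale.Agent.P155.F
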