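import Vale.Agent.P155.F.DetInv
import Vale.Agent.P155.F.Cut
import Vale.Agent.P155.F.PermSign

/-!
# P155, block F2: the determinant with cuts counts matchings
-/

namespace Vale.Agent.P155.F

open Finset Equiv.Perm

theorem perm_apply_inv {α : Type*} (f : Equiv.Perm α) (x : α) : f (f⁻¹ x) = x :=
  Equiv.apply_symm_apply f x

/-- The Kasteleyn matrix with signs `s` and unit rows `w ↦ g w` for `w ∈ S`. -/
noncomputable def Kc (S : Finset Pt) (g : Pt → Pt) (s : Pt → Pt → ℝ) (w b : Pt) : ℝ :=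
  if w ∈ S then (if b = g w then 1 else 0) else K w b * s w b

theorem unitRows_Kc (V S : Finset Pt) (g : Pt → Pt) (s : Pt → Pt → ℝ)
    (hs : ∀ w b, |s w b| = 1) : UnitRows V S g (Kc S g s) := by
  refine ⟨?_, ?_, ?_⟩
  · intro w hw b
    unfold Kc
    rw [if_pos hw]
  · intro w _ _ hw b
    unfold Kc
    rw [if_neg hw, abs_mul, hs, mul_one]
    exact abs_K_le w b
  · intro w _ _ hw b hb
    unfold Kc at hb
    rw [if_neg hw] at hb
    exact K_adj (left_ne_zero_of_mul hb)

section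
variable {V : Finset Pt} {m0 : Pt → Pt} (h0 : IsPM V m0) {S : Finset Pt} {g : Pt → Pt}
  (hS : ∀ w ∈ S, w ∈ V ∧ White w) (hg : ∀ w ∈ S, g w ∈ V ∧ Black (g w))
  (hinj : Set.InjOn g S) {σ τ : Equiv.Perm (WV V)} (hσ : Good V m0 S g σ) (hτ : Good V m0 S g τ)

include h0 hσ hτ in
theorem rot_fix {w : WV V} (hw : (w : Pt) ∈ S) : (τ⁻¹ * σ) w = w := by
  rw [mul_apply, inv_eq_iff_eq]
  apply Subtype.ext
  apply IsPM.inj h0
  rw [(hσ w).1 hw, (hτ w).1 hw]

include h0 hσ hτ in
theorem rot_notMem {w : WV V} (hw : (w : Pt) ∉ S) : ((τ⁻¹ * σ) w : Pt) ∉ S := by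
  intro h
  have h1 := rot_fix h0 hσ hτ h
  have h2 := (τ⁻¹ * σ).injective h1
  rw [h2] at h
  exact hw h

include h0 hσ hτ in
theorem rot_inv_notMem {w : WV V} (hw : (w : Pt) ∉ S) : ((τ⁻¹ * σ)⁻¹ w : Pt) ∉ S := by
  intro h
  have h1 := rot_fix h0 hσ hτ h
  rw [perm_apply_inv] at h1
  rw [← h1] at h
  exact hw h

include h0 hS hg hinj hσ hτ in
/-- `m₂ (m₁ w) = τ⁻¹ σ w`. -/
theorem m2_m1 {w : WV V} (hw : (w : Pt) ∉ S) :
    matchOf V m0 S g τ (matchOf V m0 S g σ w) = ((τ⁻¹ * σ) w : WV V) := by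
  have h1 : matchOf V m0 S g σ w = matchOf V m0 S g τ ((τ⁻¹ * σ) w : WV V) := by
    rw [matchOf_white w hw, matchOf_white _ (rot_notMem h0 hσ hτ hw), mul_apply, perm_apply_inv]
  rw [h1]
  exact (isPM_matchOf h0 hS hg hinj hτ).invol _

include h0 hσ hτ in
theorem m2_eq_m1 {w : WV V} (hw : (w : Pt) ∉ S) :
    matchOf V m0 S g τ w = matchOf V m0 S g σ ((τ⁻¹ * σ)⁻¹ w : WV V) := by
  rw [matchOf_white w hw, matchOf_white _ (rot_inv_notMem h0 hσ hτ hw), mul_inv_rev, inv_inv,
    mul_apply, perm_apply_inv]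

include h0 hS hg hinj hσ hτ in
/-- points of the component of `w` -/
theorem comp_cases {w : WV V} (hw : (w : Pt) ∉ S) {u : Pt}
    (hu : u ∈ comp (matchOf V m0 S g σ, matchOf V m0 S g τ) w) :
    (∃ i : WV V, (i : Pt) = u ∧ (i : Pt) ∉ S ∧ SameCycle (τ⁻¹ * σ) w i) ∨
    (∃ i : WV V, matchOf V m0 S g σ i = u ∧ (i : Pt) ∉ S ∧ SameCycle (τ⁻¹ * σ) w i) := by
  have hP1 := isPM_matchOf h0 hS hg hinj hσ
  induction hu with
  | refl => exact Or.inl ⟨w, rfl, hw, SameCycle.refl _ _⟩
  | tail _ hstep ih =>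
    rename_i x y _
    rcases ih with ⟨i, rfl, hi, hc⟩ | ⟨i, rfl, hi, hc⟩
    · rcases hstep with h | h
      · exact Or.inr ⟨i, h.symm, hi, hc⟩
      · refine Or.inr ⟨(τ⁻¹ * σ)⁻¹ i, ?_, rot_inv_notMem h0 hσ hτ hi, ?_⟩
        · rw [h]
          exact (m2_eq_m1 h0 hσ hτ hi).symm
        · exact sameCycle_symm_apply_right.2 hc
    · rcases hstep with h | h
      · refine Or.inl ⟨i, ?_, hi, hc⟩
        rw [h]
        exact (hP1.invol _).symm
      · refine Or.inl ⟨(τ⁻¹ * σ) i, ?_, rot_notMem h0 hσ hτ hi, sameCycle_apply_right.2 hc⟩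
        rw [h]
        exact (m2_m1 h0 hS hg hinj hσ hτ hi).symm

include h0 hS hg hinj hσ hτ in
theorem mem_comp_pow {w : WV V} (hw : (w : Pt) ∉ S) (k : ℕ) :
    (((τ⁻¹ * σ) ^ k) w : Pt) ∉ S ∧
      ((((τ⁻¹ * σ) ^ k) w : WV V) : Pt) ∈ comp (matchOf V m0 S g σ, matchOf V m0 S g τ) w := by
  induction k with
  | zero => exact ⟨hw, Relation.ReflTransGen.refl⟩
  | succ k ih =>
    rw [pow_succ', mul_apply]
    refine ⟨rot_notMem h0 hσ hτ ih.1, ?_⟩
    refine Relation.ReflTransGen.tail (Relation.ReflTransGen.tail ih.2 (Or.inl rfl)) (Or.inr ?_)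
    exact (m2_m1 h0 hS hg hinj hσ hτ ih.1).symm

include h0 hS hg hinj hσ hτ in
theorem mem_comp_iff {w i : WV V} (hw : (w : Pt) ∉ S) :
    (i : Pt) ∈ comp (matchOf V m0 S g σ, matchOf V m0 S g τ) w ↔ SameCycle (τ⁻¹ * σ) w i := by
  have hP1 := isPM_matchOf h0 hS hg hinj hσ
  constructor
  · intro h
    rcases comp_cases h0 hS hg hinj hσ hτ hw h with ⟨j, hj, _, hc⟩ | ⟨j, hj, hjS, _⟩
    · rw [← Subtype.ext hj]; exact hc
    · exfalso
      have h1 : Black (matchOf V m0 S g σ j) :=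
        IsPM.black hP1 ((mem_sdiff_white hS hg j.white).2 ⟨j.mem, hjS⟩) j.white
      rw [hj] at h1
      exact black_iff_nw.1 h1 i.white
  · intro h
    obtain ⟨k, _, hk⟩ := h.exists_pow_eq'
    rw [← hk]
    exact (mem_comp_pow h0 hS hg hinj hσ hτ hw k).2

open Classical in
include h0 hS hg hinj hσ hτ in
/-- Products over a cycle of `τ⁻¹ σ` are products over the white vertices of a loop. -/
theorem prod_cycle {c : Equiv.Perm (WV V)} (hc : c ∈ (τ⁻¹ * σ).cycleFactorsFinset) :
    ∃ L ∈ Loops (matchOf V m0 S g σ, matchOf V m0 S g τ),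
      ∀ f : Pt → ℝ, ∏ i ∈ c.support, f i =
        ∏ w ∈ (V \ (S ∪ S.image g)).filter (fun w => White w ∧ w ∈ L), f w := by
  obtain ⟨w, hw⟩ : c.support.Nonempty := by
    have := (mem_cycleFactorsFinset_iff.1 hc).1
    exact this.nonempty_support
  have hwπ : w ∈ (τ⁻¹ * σ).support := mem_cycleFactorsFinset_support_le hc hw
  have hwne : (τ⁻¹ * σ) w ≠ w := mem_support.1 hwπ
  have hwS : (w : Pt) ∉ S := fun h => hwne (rot_fix h0 hσ hτ h)
  refine ⟨comp (matchOf V m0 S g σ, matchOf V m0 S g τ) w, ⟨w, ?_, rfl⟩, ?_⟩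
  · intro heq
    simp only at heq
    rw [matchOf_white w hwS, matchOf_white w hwS] at heq
    apply hwne
    rw [mul_apply, inv_eq_iff_eq]
    exact Subtype.ext (IsPM.inj h0 heq)
  · have hsupp : ∀ i : WV V, i ∈ c.support ↔
        (i : Pt) ∈ comp (matchOf V m0 S g σ, matchOf V m0 S g τ) w := by
      intro i
      rw [mem_comp_iff h0 hS hg hinj hσ hτ hwS, cycle_is_cycleOf hw hc, mem_support_cycleOf_iff]
      exact ⟨fun h => h.1, fun h => ⟨h, hwπ⟩⟩
    intro f
    refine prod_bij (fun i _ => (i : Pt)) ?_ ?_ ?_ ?_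
    · intro i hi
      have hiS : (i : Pt) ∉ S := by
        intro h
        have h1 := rot_fix h0 hσ hτ h
        exact mem_support.1 (mem_cycleFactorsFinset_support_le hc hi) h1
      rw [mem_filter]
      exact ⟨(mem_sdiff_white hS hg i.white).2 ⟨i.mem, hiS⟩, i.white, (hsupp i).1 hi⟩
    · intro a _ b _ hab
      exact Subtype.ext hab
    · intro v hv
      rw [mem_filter] at hv
      have h1 := (mem_sdiff_white hS hg hv.2.1).1 hv.1
      exact ⟨⟨v, mem_filter.2 ⟨h1.1, hv.2.1⟩⟩, (hsupp _).2 hv.2.2, rfl⟩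
    · intro i _
      rfl

end

/-! ## Parity of the number of points strictly inside a loop -/

/-- Points strictly inside a loop of a pair of matchings of `V'`: those in `V'` come in pairs. -/
theorem parity_inside {V' : Finset Pt} {m1 m2 : Pt → Pt} (h1 : IsPM V' m1)
    {L : Set Pt} (hLm : ∀ v, v ∈ L ↔ m1 v ∈ L) (X : Finset Pt)
    (hXL : ∀ x ∈ X, x ∉ L) (hdisj : ∀ x ∈ X, x ∉ V')
    (hfin : {v | v ∉ L ∧ surr (m1, m2) L v}.Finite)
    (hadj : ∀ u v, Adj u v → u ∉ L → v ∉ L → (surr (m1, m2) L u ↔ surr (m1, m2) L v))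
    (hsub : ∀ v, v ∉ L → surr (m1, m2) L v → v ∈ V' ∨ v ∈ X) :
    (-1 : ℝ) ^ (Set.ncard {v | v ∉ L ∧ surr (m1, m2) L v}) = ∏ x ∈ X, ss (m1, m2) L x := by
  classical
  set I := hfin.toFinset with hI
  have hmemI : ∀ v, v ∈ I ↔ v ∉ L ∧ surr (m1, m2) L v := by
    intro v
    rw [hI, Set.Finite.mem_toFinset]
    rfl
  have hcard : Set.ncard {v | v ∉ L ∧ surr (m1, m2) L v} = I.card :=
    Set.ncard_eq_toFinset_card _ hfin
  rw [hcard]
  have hsplit : (-1 : ℝ) ^ I.card = (∏ v ∈ I.filter (· ∈ X), (-1 : ℝ)) *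
      ∏ v ∈ I.filter (· ∉ X), (-1 : ℝ) := by
    rw [prod_filter_mul_prod_filter_not, prod_const]
  have hodd : ∏ v ∈ I.filter (· ∉ X), (-1 : ℝ) = 1 := by
    apply prod_involution (fun v _ => m1 v)
    · intro a _
      norm_num
    · intro a ha _
      have ha' := (mem_filter.1 ha)
      have hV : a ∈ V' := by
        rcases hsub a ((hmemI a).1 ha'.1).1 ((hmemI a).1 ha'.1).2 with h | h
        · exact h
        · exact absurd h ha'.2
      exact fun h => adj_ne (h1.adj a hV) h.symm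
    · intro a ha
      have ha' := (mem_filter.1 ha)
      have haI := (hmemI a).1 ha'.1
      have hV : a ∈ V' := by
        rcases hsub a haI.1 haI.2 with h | h
        · exact h
        · exact absurd h ha'.2
      have hmL : m1 a ∉ L := fun h => haI.1 ((hLm a).2 h)
      rw [mem_filter, hmemI]
      exact ⟨⟨hmL, (hadj a (m1 a) (h1.adj a hV) haI.1 hmL).1 haI.2⟩,
        fun h => hdisj _ h (IsPM.mem h1 hV)⟩
    · intro a _
      exact h1.invol a
  rw [hsplit, hodd, mul_one]
  have hX : ∏ x ∈ X, ss (m1, m2) L x = ∏ x ∈ X.filter (· ∈ I), (-1 : ℝ) := by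
    rw [prod_filter]
    apply prod_congr rfl
    intro x hx
    unfold ss
    by_cases h : surr (m1, m2) L x
    · rw [if_pos h, if_pos ((hmemI x).2 ⟨hXL x hx, h⟩)]
    · rw [if_neg h, if_neg (fun hh => h ((hmemI x).1 hh).2)]
  rw [hX]
  apply prod_congr _ (fun _ _ => rfl)
  ext x
  simp only [mem_filter]
  exact and_comm

/-! ## The signed count -/

theorem loops_closed1 {V' : Finset Pt} {m1 m2 : Pt → Pt} (h1 : IsPM V' m1)
    {L : Set Pt} (hL : L ∈ Loops (m1, m2)) (v : Pt) : v ∈ L ↔ m1 v ∈ L := by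
  obtain ⟨u, _, rfl⟩ := hL
  constructor
  · intro hv
    exact Relation.ReflTransGen.tail hv (Or.inl rfl)
  · intro hv
    exact Relation.ReflTransGen.tail hv (Or.inl (h1.invol v).symm)

theorem loops_sub {V' : Finset Pt} {m1 m2 : Pt → Pt} (h1 : IsPM V' m1) (h2 : IsPM V' m2)
    {L : Set Pt} (hL : L ∈ Loops (m1, m2)) {v : Pt} (hv : v ∈ L) : v ∈ V' := by
  obtain ⟨u, hu, rfl⟩ := hL
  have huV : u ∈ V' := by
    by_contra h
    apply hu
    show m1 u = m2 u
    rw [h1.off u h, h2.off u h]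
  induction hv with
  | refl => exact huV
  | tail _ hstep ih =>
    rcases hstep with h | h
    · rw [h]; exact IsPM.mem h1 ih
    · rw [h]; exact IsPM.mem h2 ih

theorem abs_prod_Kc {V : Finset Pt} {m0 : Pt → Pt} {S : Finset Pt} {g : Pt → Pt}
    {s : Pt → Pt → ℝ} (hs : ∀ w b, |s w b| = 1) {σ : Equiv.Perm (WV V)}
    (hσ : Good V m0 S g σ) : |∏ w : WV V, Kc S g s w (m0 (σ w))| = 1 := by
  rw [abs_prod]
  apply prod_eq_one
  intro w _
  unfold Kc
  split_ifs with h h2
  · simp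
  · exact absurd ((hσ w).1 h) h2
  · rw [abs_mul, hs, mul_one]
    exact abs_K_eq ((hσ w).2 h)

open Classical in
/-- **General signed count.** If the signs `s` correct the parity of the removed points inside
each loop, then the determinant of `K` with signs `s` and unit rows counts matchings. -/
theorem detR_general (hSg : SignLoop) (hI : InsideLoop) {T : Temp} {m0 : Pt → Pt}
    (h0 : IsPM T.V m0) {S : Finset Pt} {g : Pt → Pt}
    (hS : ∀ w ∈ S, w ∈ T.V ∧ White w) (hg : ∀ w ∈ S, g w ∈ T.V ∧ Black (g w))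
    (hinj : Set.InjOn g S) (s : Pt → Pt → ℝ) (hs : ∀ w b, |s w b| = 1)
    (hcut : ∀ m1 m2, IsPM (T.V \ (S ∪ S.image g)) m1 → IsPM (T.V \ (S ∪ S.image g)) m2 →
      ∀ L ∈ Loops (m1, m2),
        ∏ w ∈ (T.V \ (S ∪ S.image g)).filter (fun w => White w ∧ w ∈ L),
          (s w (m1 w) * s w (m2 w)) = ∏ x ∈ S ∪ S.image g, ss (m1, m2) L x) :
    |detR T.V m0 (Kc S g s)| = Z (T.V \ (S ∪ S.image g)) := by
  set V := T.V with hV
  set X := S ∪ S.image g with hX
  -- the product over a pair of good permutations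
  have key : ∀ σ τ : Equiv.Perm (WV V), Good V m0 S g σ → Good V m0 S g τ →
      ((Equiv.Perm.sign σ : ℤ) : ℝ) * ((Equiv.Perm.sign τ : ℤ) : ℝ) *
        ∏ i : WV V, (Kc S g s i (m0 (σ i)) * Kc S g s i (m0 (τ i))) = 1 := by
    intro σ τ hσ hτ
    have hP1 := isPM_matchOf h0 hS hg hinj hσ
    have hP2 := isPM_matchOf h0 hS hg hinj hτ
    apply sign_mul_sign_mul_prod
    · intro i hi
      rw [hi]
      have : |Kc S g s i (m0 (τ i))| = 1 := by
        unfold Kc
        split_ifs with h h2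
        · simp
        · exact absurd ((hτ i).1 h) h2
        · rw [abs_mul, hs, mul_one]
          exact abs_K_eq ((hτ i).2 h)
      rw [← abs_mul_abs_self, this, one_mul]
    · intro c hc
      obtain ⟨L, hL, hprod⟩ := prod_cycle h0 hS hg hinj hσ hτ hc
      -- rewrite the product over the cycle
      set m1 := matchOf V m0 S g σ with hm1
      set m2 := matchOf V m0 S g τ with hm2
      have hsuppS : ∀ i ∈ c.support, (i : Pt) ∉ S := by
        intro i hi h
        exact mem_support.1 (mem_cycleFactorsFinset_support_le hc hi) (rot_fix h0 hσ hτ h)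
      have e1 : ∏ i ∈ c.support, (Kc S g s i (m0 (σ i)) * Kc S g s i (m0 (τ i))) =
          ∏ i ∈ c.support, ((K i (m1 i) * K i (m2 i)) * (s i (m1 i) * s i (m2 i))) := by
        apply prod_congr rfl
        intro i hi
        have hiS := hsuppS i hi
        rw [hm1, hm2, matchOf_white i hiS, matchOf_white i hiS]
        unfold Kc
        rw [if_neg hiS, if_neg hiS]
        ring
      have e2 := hprod (fun v => (K v (m1 v) * K v (m2 v)) * (s v (m1 v) * s v (m2 v)))
      have e3 := hSg (V \ X) m1 m2 hP1 hP2 L hL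
      have e4 := hcut m1 m2 hP1 hP2 L hL
      have e5 : (c.support.card : ℕ) = ((V \ X).filter (fun w => White w ∧ w ∈ L)).card := by
        have h1 := hprod (fun _ => 2)
        rw [prod_const, prod_const] at h1
        exact Nat.pow_right_injective (le_refl 2) (by exact_mod_cast h1)
      obtain ⟨hfin, hadj, hsub⟩ := hI (V \ X) m1 m2 hP1 hP2 L hL
      have hXL : ∀ x ∈ X, x ∉ L := by
        intro x hx hxL
        exact (mem_sdiff.1 (loops_sub hP1 hP2 hL hxL)).2 hx
      have e6 := parity_inside hP1 (fun v => loops_closed1 hP1 hL v) X hXL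
        (fun x hx h => (mem_sdiff.1 h).2 hx) hfin hadj (fun v hv hsv => by
          have h1 := hsub T sdiff_subset v hv hsv
          by_cases h : v ∈ X
          · exact Or.inr h
          · exact Or.inl (mem_sdiff.2 ⟨h1, h⟩))
      rw [e1, e2, prod_mul_distrib, e3, e4, pow_add, pow_add, e6, e5, pow_add]
      have hsq : (∏ x ∈ X, ss (m1, m2) L x) * (∏ x ∈ X, ss (m1, m2) L x) = 1 := by
        rw [← prod_mul_distrib]
        apply prod_eq_one
        intro x _
        rcases ss_cases (m1, m2) L x with h | h <;> rw [h] <;> norm_num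
      calc (∏ x ∈ X, ss (m1, m2) L x) *
            (-1) ^ ((V \ X).filter (fun w => White w ∧ w ∈ L)).card * (-1) ^ 1 *
            ∏ x ∈ X, ss (m1, m2) L x
          = ((∏ x ∈ X, ss (m1, m2) L x) * (∏ x ∈ X, ss (m1, m2) L x)) *
            ((-1) ^ ((V \ X).filter (fun w => White w ∧ w ∈ L)).card * (-1) ^ 1) := by ring
        _ = (-1) ^ ((V \ X).filter (fun w => White w ∧ w ∈ L)).card * (-1) ^ 1 := by
            rw [hsq, one_mul]
  -- conclusion
  by_cases hne : ∃ σ0 : Equiv.Perm (WV V), Good V m0 S g σ0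
  · obtain ⟨σ0, hσ0⟩ := hne
    have habs : ∀ σ : Equiv.Perm (WV V), Good V m0 S g σ →
        |((Equiv.Perm.sign σ : ℤ) : ℝ) * ∏ w : WV V, Kc S g s w (m0 (σ w))| = 1 := by
      intro σ hσ
      rw [abs_mul, abs_prod_Kc hs hσ, mul_one]
      rcases Int.units_eq_one_or (Equiv.Perm.sign σ) with h | h <;> rw [h] <;> simp
    refine abs_detR_eq h0 hS hg hinj (unitRows_Kc V S g s hs)
      (c := ((Equiv.Perm.sign σ0 : ℤ) : ℝ) * ∏ w : WV V, Kc S g s w (m0 (σ0 w)))
      (habs σ0 hσ0) ?_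
    intro σ hσ
    have h1 := key σ σ0 hσ hσ0
    rw [prod_mul_distrib] at h1
    have h2 : (((Equiv.Perm.sign σ : ℤ) : ℝ) * ∏ w : WV V, Kc S g s w (m0 (σ w))) *
        (((Equiv.Perm.sign σ0 : ℤ) : ℝ) * ∏ w : WV V, Kc S g s w (m0 (σ0 w))) = 1 := by
      rw [← h1]; ring
    have h3 := habs σ0 hσ0
    set A := ((Equiv.Perm.sign σ : ℤ) : ℝ) * ∏ w : WV V, Kc S g s w (m0 (σ w))
    set B := ((Equiv.Perm.sign σ0 : ℤ) : ℝ) * ∏ w : WV V, Kc S g s w (m0 (σ0 w))
    have h4 : B * B = 1 := by rw [← abs_mul_abs_self, h3, one_mul]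
    calc A = A * (B * B) := by rw [h4, mul_one]
      _ = (A * B) * B := by ring
      _ = B := by rw [h2, one_mul]
  · push Not at hne
    exact abs_detR_eq h0 hS hg hinj (unitRows_Kc V S g s hs) (c := 1) abs_one
      (fun σ hσ => absurd hσ (hne σ))

/-- `|det K| = Z` for a Temperleyan graph. -/
theorem detR_K (hSg : SignLoop) (hI : InsideLoop) {T : Temp} {m0 : Pt → Pt}
    (h0 : IsPM T.V m0) : |detR T.V m0 K| = Z T.V := by
  classical
  have h := detR_general hSg hI h0 (S := ∅) (g := id) (by simp) (by simp) (by simp)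
    (fun _ _ => 1) (by simp) (by
      intro m1 m2 _ _ L _
      simp)
  have hK : Kc ∅ id (fun _ _ => 1) = K := by
    funext w b
    simp [Kc]
  rw [hK] at h
  simpa using h

/-- **F2**: two whites and two blacks removed, signs corrected by two cuts. -/
theorem detR_cut (hC : CutLoop) (hSg : SignLoop) (hI : InsideLoop) {T : Temp} {m0 : Pt → Pt}
    (h0 : IsPM T.V m0) {w1 w2 b1 b2 : Pt} (hw1 : w1 ∈ T.V) (hw2 : w2 ∈ T.V) (hb1 : b1 ∈ T.V)
    (hb2 : b2 ∈ T.V) (hW1 : White w1) (hW2 : White w2) (hB1 : Black b1) (hB2 : Black b2)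
    (hw : w1 ≠ w2) (hb : b1 ≠ b2) :
    |detR T.V m0 (Kc {w1, w2} (fun w => if w = w1 then b1 else b2)
      (fun w b => sc w1 w2 w b * sc b1 b2 w b))| = Z (T.V \ {w1, w2, b1, b2}) := by
  classical
  have himg : ({w1, w2} : Finset Pt).image (fun w => if w = w1 then b1 else b2) = {b1, b2} := by
    rw [image_insert, image_singleton, if_pos rfl, if_neg hw.symm]
  have hne : ∀ {u v : Pt}, White u → Black v → u ≠ v := by
    rintro u v hu hv rfl
    exact black_iff_nw.1 hv hu
  have h := detR_general hSg hI h0 (S := {w1, w2}) (g := fun w => if w = w1 then b1 else b2)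
    (by
      intro w hw'
      simp only [mem_insert, mem_singleton] at hw'
      rcases hw' with rfl | rfl
      · exact ⟨hw1, hW1⟩
      · exact ⟨hw2, hW2⟩)
    (by
      intro w hw'
      simp only [mem_insert, mem_singleton] at hw'
      rcases hw' with rfl | rfl
      · simp only [if_true]; exact ⟨hb1, hB1⟩
      · simp only [if_neg hw.symm]; exact ⟨hb2, hB2⟩)
    (by
      intro a ha b hb' hab
      simp only [coe_insert, coe_singleton, Set.mem_insert_iff, Set.mem_singleton_iff] at ha hb'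
      rcases ha with rfl | rfl <;> rcases hb' with rfl | rfl
      · rfl
      · simp only [if_true, if_neg hw.symm] at hab
        exact absurd hab hb
      · simp only [if_true, if_neg hw.symm] at hab
        exact absurd hab.symm hb
      · rfl)
    (fun w b => sc w1 w2 w b * sc b1 b2 w b)
    (by intro w b; rw [abs_mul, abs_sc, abs_sc, one_mul])
    (by
      intro m1 m2 h1 h2 L hL
      have c1 := hC _ m1 m2 h1 h2 L hL w1 w2
      have c2 := hC _ m1 m2 h1 h2 L hL b1 b2
      have e : ∏ w ∈ (T.V \ (({w1, w2} : Finset Pt) ∪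
            ({w1, w2} : Finset Pt).image (fun w => if w = w1 then b1 else b2))).filter
            (fun w => White w ∧ w ∈ L),
            (sc w1 w2 w (m1 w) * sc b1 b2 w (m1 w) * (sc w1 w2 w (m2 w) * sc b1 b2 w (m2 w))) =
          (∏ w ∈ (T.V \ (({w1, w2} : Finset Pt) ∪
            ({w1, w2} : Finset Pt).image (fun w => if w = w1 then b1 else b2))).filter
            (fun w => White w ∧ w ∈ L), (sc w1 w2 w (m1 w) * sc w1 w2 w (m2 w))) *
          ∏ w ∈ (T.V \ (({w1, w2} : Finset Pt) ∪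
            ({w1, w2} : Finset Pt).image (fun w => if w = w1 then b1 else b2))).filter
            (fun w => White w ∧ w ∈ L), (sc b1 b2 w (m1 w) * sc b1 b2 w (m2 w)) := by
        rw [← prod_mul_distrib]
        apply prod_congr rfl
        intro w _
        ring
      rw [e, c1, c2, himg]
      rw [prod_union (by
        rw [disjoint_left]
        intro x hx hx'
        simp only [mem_insert, mem_singleton] at hx hx'
        rcases hx with rfl | rfl <;> rcases hx' with h | h
        · exact hne hW1 hB1 h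
        · exact hne hW1 hB2 h
        · exact hne hW2 hB1 h
        · exact hne hW2 hB2 h), prod_pair hw, prod_pair hb])
  have hunion : ({w1, w2} : Finset Pt) ∪ {b1, b2} = {w1, w2, b1, b2} := by
    ext x
    simp only [mem_union, mem_insert, mem_singleton, or_assoc]
  rw [h, himg, hunion]

end Vale.Agent.P155.F
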