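import Vale.Agent.P155.Defs2

/-!
# P155, block F1: the union over labels

Two distinct double-dimer loops, each meeting `Q` and `Q'`, give eight labels
`w₁ w₂` (white, near `Q`), `b₁ b₂` (black, near `Q'`), `cᵢ = m₂ wᵢ`, `dᵢ = m₂ bᵢ`.
The fixed-label charge-2 swap is the hypothesis `FixedLabel V`.
-/

namespace Vale.Agent.P155.F

open Finset

/-! ## components -/

section comps

variable {V : Finset Pt} {ω : Conf}

theorem invol1 (h : ω ∈ DD V) (v : Pt) : ω.1 (ω.1 v) = v :=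
  (mem_PM.1 (mem_product.1 h).1).invol v

theorem invol2 (h : ω ∈ DD V) (v : Pt) : ω.2 (ω.2 v) = v :=
  (mem_PM.1 (mem_product.1 h).2).invol v

theorem off1 (h : ω ∈ DD V) {v : Pt} (hv : v ∉ V) : ω.1 v = v :=
  (mem_PM.1 (mem_product.1 h).1).off v hv

theorem off2 (h : ω ∈ DD V) {v : Pt} (hv : v ∉ V) : ω.2 v = v :=
  (mem_PM.1 (mem_product.1 h).2).off v hv

theorem adj1 (h : ω ∈ DD V) {v : Pt} (hv : v ∈ V) : Adj v (ω.1 v) :=
  (mem_PM.1 (mem_product.1 h).1).adj v hv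

theorem adj2 (h : ω ∈ DD V) {v : Pt} (hv : v ∈ V) : Adj v (ω.2 v) :=
  (mem_PM.1 (mem_product.1 h).2).adj v hv

theorem same_symm (h : ω ∈ DD V) {u v : Pt} (huv : Same ω u v) : Same ω v u := by
  induction huv with
  | refl => exact Relation.ReflTransGen.refl
  | tail _ hstep ih =>
    refine Relation.ReflTransGen.head ?_ ih
    rcases hstep with rfl | rfl
    · exact Or.inl (invol1 h _).symm
    · exact Or.inr (invol2 h _).symm

theorem comp_eq_of_same (h : ω ∈ DD V) {u v : Pt} (huv : Same ω u v) : comp ω u = comp ω v := by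
  ext x
  exact ⟨fun hx => (same_symm h huv).trans hx, fun hx => huv.trans hx⟩

theorem loop_eq_comp (h : ω ∈ DD V) {L : Set Pt} (hL : L ∈ Loops ω) {v : Pt} (hv : v ∈ L) :
    L = comp ω v := by
  obtain ⟨u, _, rfl⟩ := hL
  exact comp_eq_of_same h hv

theorem loop_same (h : ω ∈ DD V) {L : Set Pt} (hL : L ∈ Loops ω) {u v : Pt} (hu : u ∈ L)
    (hv : v ∈ L) : Same ω u v := by
  have := loop_eq_comp h hL hu
  rw [this] at hv
  exact hv

theorem loop_mem1 {L : Set Pt} (hL : L ∈ Loops ω) {v : Pt} (hv : v ∈ L) :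
    ω.1 v ∈ L := by
  obtain ⟨u, _, rfl⟩ := hL
  exact Relation.ReflTransGen.tail hv (Or.inl rfl)

theorem loop_mem2 {L : Set Pt} (hL : L ∈ Loops ω) {v : Pt} (hv : v ∈ L) :
    ω.2 v ∈ L := by
  obtain ⟨u, _, rfl⟩ := hL
  exact Relation.ReflTransGen.tail hv (Or.inr rfl)

/-- partners differ everywhere on a loop -/
theorem loop_ne (h : ω ∈ DD V) {L : Set Pt} (hL : L ∈ Loops ω) {v : Pt} (hv : v ∈ L) :
    ω.1 v ≠ ω.2 v := by
  obtain ⟨u, hu, rfl⟩ := hL
  change Same ω u v at hv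
  induction hv with
  | refl => exact hu
  | tail _ hstep ih =>
    rename_i x y _
    intro hy
    apply ih
    rcases hstep with rfl | rfl
    · rw [invol1 h] at hy
      have := congrArg ω.2 hy
      rw [invol2 h] at this
      exact this.symm
    · rw [invol2 h] at hy
      have := congrArg ω.1 hy
      rw [invol1 h] at this
      exact this.symm

theorem loop_sub (h : ω ∈ DD V) {L : Set Pt} (hL : L ∈ Loops ω) {v : Pt} (hv : v ∈ L) :
    v ∈ V := by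
  by_contra hn
  exact loop_ne h hL hv (by rw [off1 h hn, off2 h hn])

theorem loop_disj (h : ω ∈ DD V) {L L' : Set Pt} (hL : L ∈ Loops ω) (hL' : L' ∈ Loops ω)
    (hne : L ≠ L') {u v : Pt} (hu : u ∈ L) (hv : v ∈ L') : ¬ Same ω u v := by
  intro huv
  apply hne
  rw [loop_eq_comp h hL hu, loop_eq_comp h hL' hv]
  exact comp_eq_of_same h huv

end comps

/-! ## colours -/

theorem not_white_iff {v : Pt} : ¬ White v ↔ Black v := by
  unfold White Black
  exact Int.not_odd_iff_even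

theorem not_black_iff {v : Pt} : ¬ Black v ↔ White v := by
  unfold White Black
  exact Int.not_even_iff_odd

theorem adj_white_iff {u v : Pt} (h : Adj u v) : White v ↔ Black u := by
  unfold Adj at h
  unfold White Black
  rcases abs_cases (u.1 - v.1) with ⟨h1, _⟩ | ⟨h1, _⟩ <;>
    rcases abs_cases (u.2 - v.2) with ⟨h2, _⟩ | ⟨h2, _⟩ <;>
    · rw [h1, h2] at h
      constructor
      · rintro ⟨k, hk⟩
        first
          | exact ⟨(u.1 + u.2) / 2, by omega⟩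
      · rintro ⟨k, hk⟩
        exact ⟨(v.1 + v.2) / 2, by omega⟩

theorem adj_black_iff {u v : Pt} (h : Adj u v) : Black v ↔ White u := by
  rw [← not_white_iff, adj_white_iff h, not_black_iff]

/-! ## labels -/

/-- The labels seen by one loop: `(w, b, c, d)`. -/
abbrev Lab := Pt × Pt × Pt × Pt

/-- The condition that `(w, b, c, d)` is the label of a loop passing near `A` and `A'`. -/
structure IsLab (V A A' : Finset Pt) (p : Lab) : Prop where
  wA : p.1 ∈ A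
  bA : p.2.1 ∈ A'
  w : White p.1
  b : Black p.2.1
  c : Black p.2.2.1
  d : White p.2.2.2
  wV : p.1 ∈ V
  bV : p.2.1 ∈ V
  cV : p.2.2.1 ∈ V
  dV : p.2.2.2 ∈ V
  wc : Adj p.1 p.2.2.1
  bd : Adj p.2.1 p.2.2.2

/-- two labels of distinct loops -/
structure IsLab2 (V A A' : Finset Pt) (p p' : Lab) : Prop where
  fst : IsLab V A A' p
  snd : IsLab V A A' p'
  w : p.1 ≠ p'.1
  b : p.2.1 ≠ p'.2.1
  c : p.2.2.1 ≠ p'.2.2.1
  d : p.2.2.2 ≠ p'.2.2.2

open Classical in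
/-- the set of labels -/
noncomputable def labs (V A A' : Finset Pt) : Finset Lab :=
  ((A ×ˢ A' ×ˢ (nbrs (0, 0)) ×ˢ (nbrs (0, 0))).image
    (fun p => (p.1, p.2.1, p.1 + p.2.2.1, p.2.1 + p.2.2.2))).filter (IsLab V A A')

theorem card_nbrs_le (v : Pt) : (nbrs v).card ≤ 4 := by
  unfold nbrs
  refine (card_insert_le _ _).trans ?_
  refine Nat.succ_le_succ ((card_insert_le _ _).trans ?_)
  refine Nat.succ_le_succ ((card_insert_le _ _).trans ?_)
  simp

theorem card_labs_le (V A A' : Finset Pt) : (labs V A A').card ≤ 16 * (A.card * A'.card) := by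
  classical
  unfold labs
  refine (card_filter_le _ _).trans (card_image_le.trans ?_)
  rw [card_product, card_product, card_product]
  have := card_nbrs_le (0, 0)
  have h2 : (nbrs (0, 0)).card * (nbrs (0, 0)).card ≤ 16 := by nlinarith
  calc A.card * (A'.card * ((nbrs (0, 0)).card * (nbrs (0, 0)).card))
      ≤ A.card * (A'.card * 16) := by gcongr
    _ = 16 * (A.card * A'.card) := by ring

theorem mem_labs {V A A' : Finset Pt} {p : Lab} : p ∈ labs V A A' ↔ IsLab V A A' p := by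
  classical
  unfold labs
  rw [mem_filter]
  constructor
  · exact fun h => h.2
  · intro h
    refine ⟨?_, h⟩
    rw [mem_image]
    refine ⟨(p.1, p.2.1, p.2.2.1 - p.1, p.2.2.2 - p.2.1), ?_, ?_⟩
    · simp only [mem_product]
      refine ⟨h.wA, h.bA, ?_, ?_⟩
      · rw [mem_nbrs]
        have := h.wc
        unfold Adj at this ⊢
        simpa [abs_sub_comm] using this
      · rw [mem_nbrs]
        have := h.bd
        unfold Adj at this ⊢
        simpa [abs_sub_comm] using this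
    · ext <;> simp

open Classical in
/-- The fixed-label charge-2 inequality. -/
def FixedLabel (V : Finset Pt) : Prop :=
  ∀ w1 w2 b1 b2 c1 c2 d1 d2 : Pt, White w1 → White w2 → Black b1 → Black b2 →
    [w1, w2, b1, b2, c1, c2, d1, d2].Nodup →
    ((DD V).filter (fun ω => Same ω w1 b1 ∧ Same ω w2 b2 ∧ ¬ Same ω w1 w2 ∧
      ω.2 w1 = c1 ∧ ω.2 w2 = c2 ∧ ω.2 b1 = d1 ∧ ω.2 b2 = d2)).card ≤
      Z (V \ {w1, w2, b1, b2}) * Z (V \ {c1, c2, d1, d2})

/-- one loop meeting `Q` and `Q'` has a label -/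
theorem exists_label {V Q Q' A A' : Finset Pt} {ω : Conf} (h : ω ∈ DD V) {L : Set Pt}
    (hL : L ∈ Loops ω)
    (hA : ∀ v ∈ Q, v ∈ A ∧ ∀ u, Adj v u → u ∈ A)
    (hA' : ∀ v ∈ Q', v ∈ A' ∧ ∀ u, Adj v u → u ∈ A')
    (hQ : ∃ v ∈ L, v ∈ Q) (hQ' : ∃ v ∈ L, v ∈ Q') :
    ∃ p : Lab, IsLab V A A' p ∧ p.1 ∈ L ∧ p.2.1 ∈ L ∧ p.2.2.1 ∈ L ∧ p.2.2.2 ∈ L ∧
      ω.2 p.1 = p.2.2.1 ∧ ω.2 p.2.1 = p.2.2.2 := by
  obtain ⟨v, hvL, hvQ⟩ := hQ
  obtain ⟨v', hvL', hvQ'⟩ := hQ'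
  -- the white point near `Q`
  obtain ⟨w, hwL, hww, hwA⟩ : ∃ w ∈ L, White w ∧ w ∈ A := by
    by_cases hw : White v
    · exact ⟨v, hvL, hw, (hA v hvQ).1⟩
    · have hvV := loop_sub h hL hvL
      refine ⟨ω.1 v, loop_mem1 hL hvL, ?_, (hA v hvQ).2 _ (adj1 h hvV)⟩
      rw [adj_white_iff (adj1 h hvV)]
      exact not_white_iff.1 hw
  obtain ⟨b, hbL, hbb, hbA⟩ : ∃ b ∈ L, Black b ∧ b ∈ A' := by
    by_cases hb : Black v'
    · exact ⟨v', hvL', hb, (hA' v' hvQ').1⟩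
    · have hvV := loop_sub h hL hvL'
      refine ⟨ω.1 v', loop_mem1 hL hvL', ?_, (hA' v' hvQ').2 _ (adj1 h hvV)⟩
      rw [adj_black_iff (adj1 h hvV)]
      exact not_black_iff.1 hb
  have hwV := loop_sub h hL hwL
  have hbV := loop_sub h hL hbL
  have hcL := loop_mem2 hL hwL
  have hdL := loop_mem2 hL hbL
  refine ⟨(w, b, ω.2 w, ω.2 b), ⟨hwA, hbA, hww, hbb, ?_, ?_, hwV, hbV, loop_sub h hL hcL,
    loop_sub h hL hdL, adj2 h hwV, adj2 h hbV⟩, hwL, hbL, hcL, hdL, rfl, rfl⟩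
  · exact (adj_black_iff (adj2 h hwV)).2 hww
  · exact (adj_white_iff (adj2 h hbV)).2 hbb

/-- `ℓ¹` distance -/
def d1 (u v : Pt) : ℤ := |u.1 - v.1| + |u.2 - v.2|

theorem d1_self (u : Pt) : d1 u u = 0 := by simp [d1]

theorem d1_comm (u v : Pt) : d1 u v = d1 v u := by
  unfold d1; rw [abs_sub_comm u.1, abs_sub_comm u.2]

theorem d1_triangle (u v w : Pt) : d1 u w ≤ d1 u v + d1 v w := by
  unfold d1
  have h1 := abs_sub_le u.1 v.1 w.1
  have h2 := abs_sub_le u.2 v.2 w.2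
  linarith

theorem d1_adj {u v : Pt} (h : Adj u v) : d1 u v = 1 := h

/-- far labels are distinct -/
theorem IsLab.ne {V A A' : Finset Pt} {p p' : Lab}
    (hfar : ∀ u ∈ A, ∀ v ∈ A', 2 < d1 u v) (h : IsLab V A A' p) (h' : IsLab V A A' p') :
    p.1 ≠ p'.2.1 ∧ p.1 ≠ p'.2.2.2 ∧ p.2.2.1 ≠ p'.2.1 ∧ p.2.2.1 ≠ p'.2.2.2 := by
  have hd := hfar _ h.wA _ h'.bA
  have h1 : d1 p.1 p.2.2.1 = 1 := d1_adj h.wc
  have h2 : d1 p'.2.1 p'.2.2.2 = 1 := d1_adj h'.bd
  rw [d1_comm] at h2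
  refine ⟨?_, ?_, ?_, ?_⟩ <;> intro he
  · rw [he, d1_self] at hd; omega
  · rw [← he] at h2; omega
  · rw [he] at h1; omega
  · have := d1_triangle p.1 p.2.2.1 p'.2.1
    rw [← he] at h2
    omega

theorem white_ne_black {u v : Pt} (hu : White u) (hv : Black v) : u ≠ v := by
  rintro rfl
  exact (not_white_iff.2 hv) hu

open Classical in
/-- **U1**: the union over labels. -/
theorem card_two_loops_le (V Q Q' A A' : Finset Pt) (hF : FixedLabel V)
    (hA : ∀ v ∈ Q, v ∈ A ∧ ∀ u, Adj v u → u ∈ A)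
    (hA' : ∀ v ∈ Q', v ∈ A' ∧ ∀ u, Adj v u → u ∈ A')
    (hfar : ∀ u ∈ A, ∀ v ∈ A', 2 < d1 u v) :
    ((DD V).filter (fun ω => ∃ L ∈ Loops ω, ∃ L' ∈ Loops ω, L ≠ L' ∧
      (∃ v ∈ L, v ∈ Q) ∧ (∃ v ∈ L, v ∈ Q') ∧ (∃ v ∈ L', v ∈ Q) ∧ (∃ v ∈ L', v ∈ Q'))).card ≤
    ∑ p ∈ (labs V A A' ×ˢ labs V A A').filter (fun p => IsLab2 V A A' p.1 p.2),
      Z (V \ {p.1.1, p.2.1, p.1.2.1, p.2.2.1}) *
        Z (V \ {p.1.2.2.1, p.2.2.2.1, p.1.2.2.2, p.2.2.2.2}) := by
  set S := (labs V A A' ×ˢ labs V A A').filter (fun p => IsLab2 V A A' p.1 p.2) with hS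
  set F : Lab × Lab → Finset Conf := fun p => (DD V).filter (fun ω =>
    Same ω p.1.1 p.1.2.1 ∧ Same ω p.2.1 p.2.2.1 ∧ ¬ Same ω p.1.1 p.2.1 ∧
      ω.2 p.1.1 = p.1.2.2.1 ∧ ω.2 p.2.1 = p.2.2.2.1 ∧ ω.2 p.1.2.1 = p.1.2.2.2 ∧
      ω.2 p.2.2.1 = p.2.2.2.2) with hFdef
  calc _ ≤ (S.biUnion F).card := ?_
    _ ≤ ∑ p ∈ S, (F p).card := card_biUnion_le
    _ ≤ _ := ?_
  · apply card_le_card
    intro ω hω
    rw [mem_filter] at hω
    obtain ⟨hω, L, hL, L', hL', hne, hLQ, hLQ', hL'Q, hL'Q'⟩ := hω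
    obtain ⟨p, hp, hw, hb, hc, hd, hwc, hbd⟩ := exists_label hω hL hA hA' hLQ hLQ'
    obtain ⟨p', hp', hw', hb', hc', hd', hwc', hbd'⟩ := exists_label hω hL' hA hA' hL'Q hL'Q'
    have key : ∀ u ∈ L, ∀ v ∈ L', u ≠ v := by
      intro u hu v hv huv
      exact loop_disj hω hL hL' hne hu hv (huv ▸ Relation.ReflTransGen.refl)
    rw [mem_biUnion]
    refine ⟨(p, p'), ?_, ?_⟩
    · rw [hS, mem_filter, mem_product]
      exact ⟨⟨mem_labs.2 hp, mem_labs.2 hp'⟩, ⟨hp, hp', key _ hw _ hw', key _ hb _ hb',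
        key _ hc _ hc', key _ hd _ hd'⟩⟩
    · rw [hFdef, mem_filter]
      exact ⟨hω, loop_same hω hL hw hb, loop_same hω hL' hw' hb', loop_disj hω hL hL' hne hw hw',
        hwc, hwc', hbd, hbd'⟩
  · apply sum_le_sum
    rintro ⟨p, p'⟩ hpp
    rw [hS, mem_filter] at hpp
    obtain ⟨-, hpp⟩ := hpp
    obtain ⟨hp, hp', hw, hb, hc, hd⟩ := hpp
    simp only at hp hp' hw hb hc hd
    apply hF _ _ _ _ _ _ _ _ hp.w hp'.w hp.b hp'.b
    obtain ⟨n1, n2, n3, n4⟩ := hp.ne hfar hp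
    obtain ⟨m1, m2, m3, m4⟩ := hp.ne hfar hp'
    obtain ⟨k1, k2, k3, k4⟩ := hp'.ne hfar hp
    obtain ⟨l1, l2, l3, l4⟩ := hp'.ne hfar hp'
    have a1 : p.1 ≠ p.2.2.1 := white_ne_black hp.w hp.c
    have a2 : p.1 ≠ p'.2.2.1 := white_ne_black hp.w hp'.c
    have a3 : p'.1 ≠ p.2.2.1 := white_ne_black hp'.w hp.c
    have a4 : p'.1 ≠ p'.2.2.1 := white_ne_black hp'.w hp'.c
    have b1 : p.2.2.2 ≠ p.2.1 := white_ne_black hp.d hp.b
    have b2 : p.2.2.2 ≠ p'.2.1 := white_ne_black hp.d hp'.b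
    have b3 : p'.2.2.2 ≠ p.2.1 := white_ne_black hp'.d hp.b
    have b4 : p'.2.2.2 ≠ p'.2.1 := white_ne_black hp'.d hp'.b
    simp only [List.nodup_cons, List.mem_cons, List.not_mem_nil, or_false, not_or,
      List.nodup_nil, not_false_eq_true, and_true]
    refine ⟨⟨hw, n1, m1, a1, a2, n2, m2⟩, ⟨k1, l1, a3, a4, k2, l2⟩, ⟨hb, n3.symm, k3.symm,
      b1.symm, b3.symm⟩, ⟨m3.symm, l3.symm, b2.symm, b4.symm⟩, ⟨hc, n4, m4⟩, ⟨k4, l4⟩, hd⟩

/-! ## probability form for boxes -/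

theorem card_DD (V : Finset Pt) : (DD V).card = Z V * Z V := card_product _ _

open Classical in
theorem Pr_eq (V : Finset Pt) (p : Conf → Prop) :
    Pr V p = ((DD V).filter p).card / ((Z V : ℝ) * Z V) := by
  unfold Pr Ex
  rw [card_DD]
  have : ∑ ω ∈ DD V, Set.indicator {ω | p ω} (fun _ => (1 : ℝ)) ω = ((DD V).filter p).card := by
    rw [card_filter]
    push_cast
    apply sum_congr rfl
    intro ω _
    simp [Set.indicator_apply]
  rw [this, smul_eq_mul]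
  push_cast
  ring

theorem mem_box {x v : Pt} {r : ℕ} : v ∈ box x r ↔ dinf x v ≤ r := by
  unfold box dinf
  rw [mem_product, mem_Icc, mem_Icc, max_le_iff, abs_le, abs_le]
  constructor
  · rintro ⟨⟨h1, h2⟩, h3, h4⟩
    refine ⟨⟨?_, ?_⟩, ?_, ?_⟩ <;> linarith
  · rintro ⟨⟨h1, h2⟩, h3, h4⟩
    refine ⟨⟨?_, ?_⟩, ?_, ?_⟩ <;> linarith

theorem dinf_triangle (u v w : Pt) : dinf u w ≤ dinf u v + dinf v w := by
  unfold dinf
  have h1 := abs_sub_le u.1 v.1 w.1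
  have h2 := abs_sub_le u.2 v.2 w.2
  apply max_le
  · have := le_max_left |u.1 - v.1| |u.2 - v.2|
    have := le_max_left |v.1 - w.1| |v.2 - w.2|
    linarith
  · have := le_max_right |u.1 - v.1| |u.2 - v.2|
    have := le_max_right |v.1 - w.1| |v.2 - w.2|
    linarith

theorem dinf_comm (u v : Pt) : dinf u v = dinf v u := by
  unfold dinf
  rw [abs_sub_comm u.1, abs_sub_comm u.2]

theorem dinf_adj {u v : Pt} (h : Adj u v) : dinf u v ≤ 1 := by
  unfold dinf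
  unfold Adj at h
  have := abs_nonneg (u.1 - v.1)
  have := abs_nonneg (u.2 - v.2)
  apply max_le <;> linarith

theorem dinf_le_d1 (u v : Pt) : dinf u v ≤ d1 u v := by
  unfold dinf d1
  have := abs_nonneg (u.1 - v.1)
  have := abs_nonneg (u.2 - v.2)
  apply max_le <;> linarith

theorem dinf_nonneg (u v : Pt) : 0 ≤ dinf u v := le_max_of_le_left (abs_nonneg _)

theorem box_adj {x u v : Pt} {r : ℕ} (h : u ∈ box x r) (ha : Adj u v) : v ∈ box x (r + 1) := by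
  rw [mem_box] at h ⊢
  have := dinf_triangle x u v
  have := dinf_adj ha
  push_cast
  linarith

theorem box_mono {x u : Pt} {r r' : ℕ} (h : r ≤ r') (hu : u ∈ box x r) : u ∈ box x r' := by
  rw [mem_box] at hu ⊢
  have : (r : ℤ) ≤ r' := by exact_mod_cast h
  linarith

theorem card_box (x : Pt) (r : ℕ) : (box x r).card = (2 * r + 1) ^ 2 := by
  unfold box
  rw [card_product, Int.card_Icc, Int.card_Icc]
  have h1 : (x.1 + r + 1 - (x.1 - r)).toNat = 2 * r + 1 := by omega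
  have h2 : (x.2 + r + 1 - (x.2 - r)).toNat = 2 * r + 1 := by omega
  rw [h1, h2]
  ring

/-- **U2**: two distinct loops joining two far boxes, given a bound for the two-pair monomer
ratios. -/
theorem pr_two_loops_le (V : Finset Pt) (hF : FixedLabel V) (q q' : Pt) (s : ℕ)
    (hfar : 2 * s + 4 < dn q q') (B : ℝ)
    (hB : ∀ w1 w2 b1 b2 : Pt, White w1 → White w2 → Black b1 → Black b2 → w1 ≠ w2 → b1 ≠ b2 →
      w1 ∈ V → w2 ∈ V → b1 ∈ V → b2 ∈ V →
      ((w1 ∈ box q (s + 2) ∧ w2 ∈ box q (s + 2) ∧ b1 ∈ box q' (s + 2) ∧ b2 ∈ box q' (s + 2)) ∨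
        (w1 ∈ box q' (s + 2) ∧ w2 ∈ box q' (s + 2) ∧ b1 ∈ box q (s + 2) ∧ b2 ∈ box q (s + 2))) →
      (Z (V \ {w1, w2, b1, b2}) : ℝ) ≤ B * Z V) :
    Pr V (fun ω => ∃ L ∈ Loops ω, ∃ L' ∈ Loops ω, L ≠ L' ∧
      (∃ v ∈ L, v ∈ box q s) ∧ (∃ v ∈ L, v ∈ box q' s) ∧
      (∃ v ∈ L', v ∈ box q s) ∧ (∃ v ∈ L', v ∈ box q' s)) ≤ 256 * (2 * s + 3) ^ 8 * B ^ 2 := by
  classical
  have hdn : (2 * s + 4 : ℤ) < dinf q q' := by
    unfold dn at hfar
    omega
  have hA : ∀ x : Pt, ∀ v ∈ box x s, v ∈ box x (s + 1) ∧ ∀ u, Adj v u → u ∈ box x (s + 1) :=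
    fun x v hv => ⟨box_mono (by omega) hv, fun u hu => box_adj hv hu⟩
  have hfar' : ∀ u ∈ box q (s + 1), ∀ v ∈ box q' (s + 1), 2 < d1 u v := by
    intro u hu v hv
    rw [mem_box] at hu hv
    have h1 := dinf_triangle q u q'
    have h2 := dinf_triangle u v q'
    have h3 := dinf_le_d1 u v
    rw [dinf_comm v q'] at h2
    push_cast at hu hv
    linarith
  have hU := card_two_loops_le V (box q s) (box q' s) (box q (s + 1)) (box q' (s + 1)) hF (hA q)
    (hA q') hfar'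
  rw [Pr_eq]
  rcases Nat.eq_zero_or_pos (Z V) with hZ | hZ
  · rw [hZ]
    simp only [Nat.cast_zero, mul_zero, div_zero]
    positivity
  have hZ' : (0 : ℝ) < Z V := by exact_mod_cast hZ
  rw [div_le_iff₀ (by positivity)]
  set S := (labs V (box q (s + 1)) (box q' (s + 1)) ×ˢ labs V (box q (s + 1)) (box q' (s + 1))).filter
    (fun p => IsLab2 V (box q (s + 1)) (box q' (s + 1)) p.1 p.2) with hS
  calc _ ≤ ((∑ p ∈ S, Z (V \ {p.1.1, p.2.1, p.1.2.1, p.2.2.1}) *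
        Z (V \ {p.1.2.2.1, p.2.2.2.1, p.1.2.2.2, p.2.2.2.2}) : ℕ) : ℝ) := by exact_mod_cast hU
    _ = ∑ p ∈ S, (Z (V \ {p.1.1, p.2.1, p.1.2.1, p.2.2.1}) : ℝ) *
        Z (V \ {p.1.2.2.1, p.2.2.2.1, p.1.2.2.2, p.2.2.2.2}) := by push_cast; rfl
    _ ≤ ∑ p ∈ S, (B * Z V) * (B * Z V) := by
        apply sum_le_sum
        rintro ⟨p, p'⟩ hp
        rw [hS, mem_filter] at hp
        obtain ⟨-, hp, hp', hw, hb, hc, hd⟩ := hp
        simp only at hp hp' hw hb hc hd ⊢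
        have e1 : (Z (V \ {p.1, p'.1, p.2.1, p'.2.1}) : ℝ) ≤ B * Z V := by
          apply hB _ _ _ _ hp.w hp'.w hp.b hp'.b hw hb hp.wV hp'.wV hp.bV hp'.bV
          exact Or.inl ⟨box_mono (by omega) hp.wA, box_mono (by omega) hp'.wA,
            box_mono (by omega) hp.bA, box_mono (by omega) hp'.bA⟩
        have e2 : (Z (V \ {p.2.2.1, p'.2.2.1, p.2.2.2, p'.2.2.2}) : ℝ) ≤ B * Z V := by
          have := hB _ _ _ _ hp.d hp'.d hp.c hp'.c hd hc hp.dV hp'.dV hp.cV hp'.cV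
            (Or.inr ⟨box_adj hp.bA hp.bd, box_adj hp'.bA hp'.bd, box_adj hp.wA hp.wc,
              box_adj hp'.wA hp'.wc⟩)
          have hset : ({p.2.2.1, p'.2.2.1, p.2.2.2, p'.2.2.2} : Finset Pt) =
              {p.2.2.2, p'.2.2.2, p.2.2.1, p'.2.2.1} := by
            ext x
            simp only [mem_insert, mem_singleton]
            tauto
          rw [hset]
          exact this
        exact mul_le_mul e1 e2 (by positivity) (le_trans (by positivity) e1)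
    _ = S.card * ((B * Z V) * (B * Z V)) := by rw [sum_const, nsmul_eq_mul]
    _ ≤ (256 * (2 * s + 3) ^ 8) * ((B * Z V) * (B * Z V)) := by
        apply mul_le_mul_of_nonneg_right _ (mul_self_nonneg _)
        have h1 : S.card ≤ (16 * ((2 * (s + 1) + 1) ^ 2 * (2 * (s + 1) + 1) ^ 2)) *
            (16 * ((2 * (s + 1) + 1) ^ 2 * (2 * (s + 1) + 1) ^ 2)) := by
          refine (card_filter_le _ _).trans ?_
          rw [card_product]
          have := card_labs_le V (box q (s + 1)) (box q' (s + 1))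
          rw [card_box, card_box] at this
          exact Nat.mul_le_mul this this
        have h2 : (S.card : ℝ) ≤ ((16 * ((2 * (s + 1) + 1) ^ 2 * (2 * (s + 1) + 1) ^ 2)) *
            (16 * ((2 * (s + 1) + 1) ^ 2 * (2 * (s + 1) + 1) ^ 2)) : ℕ) := by exact_mod_cast h1
        refine h2.trans (le_of_eq ?_)
        push_cast
        ring
    _ = 256 * (2 * s + 3) ^ 8 * B ^ 2 * ((Z V : ℝ) * Z V) := by ring

end Vale.Agent.P155.F
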