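import Vale.Agent.P155.F.KuoIter
import Vale.Agent.P155.F.Union

/-!
# P155, block F1: the fixed-label inequality in the form used by `Union`
-/

namespace Vale.Agent.P155.F

open Finset

theorem fixedLabel (V : Finset Pt) : FixedLabel V := by
  intro w1 w2 b1 b2 c1 c2 d1 d2 hw1 hw2 hb1 hb2 hnd
  classical
  simp only [List.nodup_cons, List.mem_cons, List.not_mem_nil, or_false, not_or, List.nodup_nil,
    and_true, not_false_eq_true] at hnd
  obtain ⟨⟨-, -, -, h1, -, -, -⟩, ⟨-, -, -, h2, -, -⟩, ⟨-, h3, -, h4, -⟩, ⟨-, h5, -, h6⟩, -⟩ := hnd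
  by_cases hm : w1 ∈ V ∧ w2 ∈ V ∧ b1 ∈ V ∧ b2 ∈ V
  · have := SW.charge_two (c₁ := c1) (c₂ := c2) (d₁ := d1) (d₂ := d2) hm.1 hm.2.1 hm.2.2.1 hm.2.2.2
      hw1 hw2 hb1 hb2 (Ne.symm h3) (Ne.symm h5)
    convert this using 1
  · have hemp : (DD V).filter (fun ω => Same ω w1 b1 ∧ Same ω w2 b2 ∧ ¬ Same ω w1 w2 ∧
      ω.2 w1 = c1 ∧ ω.2 w2 = c2 ∧ ω.2 b1 = d1 ∧ ω.2 b2 = d2) = ∅ := by
      rw [filter_eq_empty_iff]
      rintro ω hω ⟨-, -, -, e1, e2, e3, e4⟩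
      rw [DD, mem_product, mem_PM, mem_PM] at hω
      apply hm
      refine ⟨?_, ?_, ?_, ?_⟩
      · by_contra hc; exact h1 ((hω.2.off _ hc).symm.trans e1)
      · by_contra hc; exact h2 ((hω.2.off _ hc).symm.trans e2)
      · by_contra hc; exact h4 ((hω.2.off _ hc).symm.trans e3)
      · by_contra hc; exact h6 ((hω.2.off _ hc).symm.trans e4)
    rw [hemp, card_empty]
    exact Nat.zero_le _

end Vale.Agent.P155.F
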