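import Vale.Agent.P155.F.Swap

/-!
# P155, block A5/A6: inequalities between numbers of perfect matchings with points removed
-/

namespace Vale.Agent.P155.SW

open Finset Vale.Agent.P155

theorem swap_injective {f : Conf → Set Pt} (hf : ∀ S ω, f (swapOn S ω) = f ω) :
    Function.Injective (fun ω => swapOn (f ω) ω) := by
  intro ω ω' h
  have h' : swapOn (f ω) ω = swapOn (f ω') ω' := h
  have hc : f ω = f ω' := by
    rw [← hf (f ω) ω, h', hf]
  rw [← swapOn_swapOn (f ω) ω, h', hc, swapOn_swapOn]

theorem swap_injective_comp (x : Pt) : Function.Injective (fun ω => swapOn (comp ω x) ω) :=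
  swap_injective (f := fun ω => comp ω x) (fun S ω => comp_swapOn S ω x)

theorem swap_injective_comp2 (x y : Pt) :
    Function.Injective (fun ω => swapOn (comp ω x ∪ comp ω y) ω) :=
  swap_injective (f := fun ω => comp ω x ∪ comp ω y)
    (fun S ω => by simp only [comp_swapOn])

/-- match `u` with `v` -/
def join (u v : Pt) (m : Pt → Pt) : Pt → Pt := fun x => if x = u then v else if x = v then u else m x

/-- unmatch the points of `P` -/
def cut (P : Finset Pt) (m : Pt → Pt) : Pt → Pt := fun x => if x ∈ P then x else m x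

theorem pm_join {V : Finset Pt} {u v : Pt} {m : Pt → Pt} (hu : u ∈ V) (hv : v ∈ V) (ha : Adj u v)
    (h : IsPM (V \ {u, v}) m) : IsPM V (join u v m) := by
  have huv : u ≠ v := fun h => adj_irrefl u (by rwa [← h] at ha)
  have hmu : m u = u := h.off u (by simp)
  have hmv : m v = v := h.off v (by simp)
  have key : ∀ x, x ≠ u → x ≠ v → m x ≠ u ∧ m x ≠ v := by
    intro x hxu hxv
    constructor
    · intro hc
      apply hxu
      rw [← h.invol x, hc, hmu]
    · intro hc
      apply hxv
      rw [← h.invol x, hc, hmv]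
  refine ⟨fun x => ?_, fun x hx => ?_, fun x hx => ?_⟩
  · unfold join
    by_cases h1 : x = u
    · subst h1; simp [huv.symm]
    · by_cases h2 : x = v
      · subst h2; simp [h1]
      · have := key x h1 h2
        simp [h1, h2, this.1, this.2, h.invol]
  · unfold join
    rw [if_neg (fun h' : x = u => hx (by rw [h']; exact hu)),
      if_neg (fun h' : x = v => hx (by rw [h']; exact hv))]
    exact h.off x (fun h => hx (mem_sdiff.1 h).1)
  · unfold join
    by_cases h1 : x = u
    · subst h1; simpa using ha
    · by_cases h2 : x = v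
      · subst h2; simpa [h1] using adj_symm ha
      · simp only [h1, h2, if_false]
        exact h.adj x (by simp [hx, h1, h2])

theorem join_injOn {V : Finset Pt} {u v : Pt} :
    Set.InjOn (join u v) {m | IsPM (V \ {u, v}) m} := by
  intro m hm m' hm' h
  funext x
  by_cases h1 : x = u
  · subst h1; rw [hm.off x (by simp), hm'.off x (by simp)]
  · by_cases h2 : x = v
    · subst h2; rw [hm.off x (by simp), hm'.off x (by simp)]
    · have := congrFun h x
      unfold join at this
      simpa [h1, h2] using this

theorem Z_sdiff_pair_le {V : Finset Pt} {u v : Pt} (hu : u ∈ V) (hv : v ∈ V) (ha : Adj u v) :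
    Z (V \ {u, v}) ≤ Z V := by
  unfold Z
  apply card_le_card_of_injOn (join u v)
  · intro m hm
    rw [mem_coe, mem_PM] at *
    exact pm_join hu hv ha hm
  · intro m hm m' hm' h
    rw [mem_coe, mem_PM] at hm hm'
    exact join_injOn (V := V) hm hm' h

theorem pm_cut {V P : Finset Pt} {m : Pt → Pt} (h : IsPM V m) (hP : ∀ v ∈ P, m v ∈ P) :
    IsPM (V \ P) (cut P m) := by
  have hP' : ∀ v, v ∉ P → m v ∉ P := by
    intro v hv hc
    have := hP _ hc
    rw [h.invol] at this
    exact hv this
  refine ⟨fun x => ?_, fun x hx => ?_, fun x hx => ?_⟩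
  · unfold cut
    by_cases h1 : x ∈ P
    · simp [h1]
    · simp [h1, hP' x h1, h.invol]
  · unfold cut
    by_cases h1 : x ∈ P
    · simp [h1]
    · simp only [h1, if_false]
      exact h.off x (fun h' => hx (mem_sdiff.2 ⟨h', h1⟩))
  · unfold cut
    rw [mem_sdiff] at hx
    simp only [hx.2, if_false]
    exact h.adj x hx.1

open Classical in
/-- Fixed end points version of the Kuo type inequality. -/
theorem kuo_aux {V X : Finset Pt} (hX : X ⊆ V) {w b : Pt} (hw : w ∈ X) (hb : b ∈ X)
    (hwW : White w) (hbB : Black b) :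
    ((PM (V \ X) ×ˢ PM V).filter (fun ω : Conf => Same ω w b)).card ≤
      Z (V \ {w, b}) * Z (V \ (X \ {w, b})) := by
  have hwb : w ≠ b := by
    rintro rfl
    exact (black_iff_not_white.1 hbB) hwW
  have hle : ((PM (V \ X) ×ˢ PM V).filter (fun ω : Conf => Same ω w b)).card ≤
      (PM (V \ (X \ {w, b})) ×ˢ PM (V \ {w, b})).card := by
    apply card_le_card_of_injOn (fun ω : Conf => swapOn (comp ω w) ω)
    · intro ω hω
      rw [mem_coe, mem_filter, mem_product, mem_PM, mem_PM] at hω
      obtain ⟨⟨h1, h2⟩, hs⟩ := hω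
      obtain ⟨e, he, hew, -, huniq⟩ := endpoint h1 h2 (x := w) (by simp [hw]) (hX hw)
      have hbe : b = e := by
        rcases huniq b hs (Or.inl (by simp [hb])) with h | h
        · exact absurd h.symm hwb
        · exact h
      subst hbe
      have hSX : ∀ y ∈ comp ω w, y ∈ X → y = w ∨ y = b := fun y hy hyX =>
        huniq y hy (Or.inl (by simp [hyX]))
      have hwS : w ∈ comp ω w := same_refl ω w
      have hbS : b ∈ comp ω w := hs
      rw [mem_coe, mem_product, mem_PM, mem_PM]
      constructor
      · apply pm_swapOn_fst h1 h2 (cl_comp ω w)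
        intro v
        simp only [mem_sdiff, mem_insert, mem_singleton]
        constructor
        · rintro ⟨hv, hv'⟩
          by_cases hvS : v ∈ comp ω w
          · exact Or.inl ⟨hvS, hv⟩
          · refine Or.inr ⟨hvS, hv, fun hvX => ?_⟩
            apply hv'
            refine ⟨hvX, ?_⟩
            rintro (rfl | rfl)
            exacts [hvS hwS, hvS hbS]
        · rintro (⟨hvS, hv⟩ | ⟨hvS, hv, hvX⟩)
          · exact ⟨hv, fun h => h.2 (hSX v hvS h.1)⟩
          · exact ⟨hv, fun h => hvX h.1⟩
      · apply pm_swapOn_snd h1 h2 (cl_comp ω w)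
        intro v
        simp only [mem_sdiff, mem_insert, mem_singleton]
        constructor
        · rintro ⟨hv, hv'⟩
          by_cases hvS : v ∈ comp ω w
          · exact Or.inl ⟨hvS, hv, fun hvX => hv' (hSX v hvS hvX)⟩
          · exact Or.inr ⟨hvS, hv⟩
        · rintro (⟨hvS, hv, hvX⟩ | ⟨hvS, hv⟩)
          · refine ⟨hv, ?_⟩
            rintro (rfl | rfl)
            exacts [hvX hw, hvX hb]
          · refine ⟨hv, ?_⟩
            rintro (rfl | rfl)
            exacts [hvS hwS, hvS hbS]
    · exact (swap_injective_comp w).injOn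
  rw [card_product] at hle
  unfold Z
  rwa [mul_comm]

/-- **A6** (Kuo type inequality). -/
theorem kuo {V X : Finset Pt} (hX : X ⊆ V) {w : Pt} (hw : w ∈ X) (hwW : White w) :
    Z (V \ X) * Z V ≤ ∑ b ∈ X with Black b, Z (V \ {w, b}) * Z (V \ (X \ {w, b})) := by
  classical
  have h0 : Z (V \ X) * Z V = (PM (V \ X) ×ˢ PM V).card := by rw [card_product]; rfl
  have hsub : PM (V \ X) ×ˢ PM V ⊆ (X.filter (fun b => Black b)).biUnion
      (fun b => (PM (V \ X) ×ˢ PM V).filter (fun ω : Conf => Same ω w b)) := by
    intro ω hω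
    have hω' := hω
    rw [mem_product, mem_PM, mem_PM] at hω'
    obtain ⟨h1, h2⟩ := hω'
    obtain ⟨e, he, hew, hcase, -⟩ := endpoint h1 h2 (x := w) (by simp [hw]) (hX hw)
    rcases hcase with ⟨ha, hb, hc⟩ | ⟨ha, hb, -⟩
    · rw [mem_biUnion]
      refine ⟨e, ?_, by rw [mem_filter]; exact ⟨hω, he⟩⟩
      rw [mem_filter]
      constructor
      · by_contra hne
        exact ha (mem_sdiff.2 ⟨hb, hne⟩)
      · rw [black_iff_not_white, hc]; exact not_not.2 hwW
    · exact absurd (mem_sdiff.1 ha).1 hb
  rw [h0]
  refine (card_le_card hsub).trans (card_biUnion_le.trans ?_)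
  apply sum_le_sum
  intro b hb
  rw [mem_filter] at hb
  exact kuo_aux hX hw hb.1 hwW hb.2

open Classical in
/-- **A5** (two swaps). -/
theorem two_swap {V : Finset Pt} {w w' b b' : Pt} (hw : w ∈ V) (hw' : w' ∈ V) (hb : b ∈ V)
    (hb' : b' ∈ V) (hwW : White w) (hwW' : White w') (hbB : Black b) (hbB' : Black b')
    (hww : w ≠ w') (hbb : b ≠ b') (ha : Adj w b) (ha' : Adj w' b') :
    Z (V \ {w, b'}) * Z (V \ {b, w'}) ≤ 2 * Z V ^ 2 := by
  have n1 : ∀ {x y : Pt}, White x → Black y → x ≠ y := by
    rintro x _ hx hy rfl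
    exact (black_iff_not_white.1 hy) hx
  have h0 : Z (V \ {w, b'}) * Z (V \ {b, w'}) = (PM (V \ {w, b'}) ×ˢ PM (V \ {b, w'})).card := by
    rw [card_product]; rfl
  rw [h0, ← card_filter_add_card_filter_not (s := PM (V \ {w, b'}) ×ˢ PM (V \ {b, w'}))
    (fun ω : Conf => Same ω w b'), two_mul]
  -- common facts
  have common : ∀ ω : Conf, IsPM (V \ {w, b'}) ω.1 → IsPM (V \ {b, w'}) ω.2 →
      ((Same ω w b' ∧ ¬ Same ω w w' ∧ ¬ Same ω w b) ∨
        (¬ Same ω w b' ∧ Same ω w w' ∧ ¬ Same ω w b)) := by
    intro ω h1 h2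
    obtain ⟨e, he, hew, hcase, huniq⟩ := endpoint h1 h2 (x := w) (by simp)
      (by simp [hw, n1 hwW hbB, hww])
    have hnb : ¬ Same ω w b := by
      intro hs
      have hbe : b = e := by
        rcases huniq b hs (Or.inr (by simp)) with h | h
        · exact absurd h.symm (n1 hwW hbB)
        · exact h
      subst hbe
      rcases hcase with ⟨h3, h4, h5⟩ | ⟨h3, h4, h5⟩
      · simp at h4
      · exact (black_iff_not_white.1 hbB) (h5.2 hwW)
    rcases hcase with ⟨h3, h4, h5⟩ | ⟨h3, h4, h5⟩
    · left
      have hbe : e = b' := by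
        by_contra hne
        exact h3 (by simp [(mem_sdiff.1 h4).1, hew, hne])
      subst hbe
      refine ⟨he, fun hs => ?_, hnb⟩
      rcases huniq w' hs (Or.inr (by simp)) with h | h
      · exact hww h.symm
      · exact n1 hwW' hbB' h
    · right
      have hbe : e = w' := by
        by_contra hne
        have hne2 : e ≠ b := by
          intro h
          rw [h] at h5; exact absurd (h5.2 hwW) (black_iff_not_white.1 hbB)
        exact h4 (by simp [(mem_sdiff.1 h3).1, hne, hne2])
      subst hbe
      refine ⟨fun hs => ?_, he, hnb⟩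
      rcases huniq b' hs (Or.inl (by simp)) with h | h
      · exact n1 hwW hbB' h.symm
      · exact n1 hwW' hbB' h.symm
  have e4 : V \ {w, b, w', b'} = (V \ {w, b}) \ {w', b'} := by
    ext x; simp only [mem_sdiff, mem_insert, mem_singleton]; tauto
  have e4' : Z (V \ {w, b, w', b'}) ≤ Z V := by
    rw [e4]
    refine (Z_sdiff_pair_le ?_ ?_ ha').trans (Z_sdiff_pair_le hw hb ha)
    · simp [hw', hww.symm, n1 hwW' hbB]
    · simp [hb', (n1 hwW hbB').symm, hbb.symm]
  apply add_le_add
  · -- first case
    have hle : ((PM (V \ {w, b'}) ×ˢ PM (V \ {b, w'})).filter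
        (fun ω : Conf => Same ω w b')).card ≤ (PM V ×ˢ PM (V \ {w, b, w', b'})).card := by
      apply card_le_card_of_injOn (fun ω : Conf => swapOn (comp ω w) ω)
      · intro ω hω
        rw [mem_coe, mem_filter, mem_product, mem_PM, mem_PM] at hω
        obtain ⟨⟨h1, h2⟩, hs⟩ := hω
        have hS : Same ω w b' ∧ ¬ Same ω w w' ∧ ¬ Same ω w b := by
          rcases common ω h1 h2 with h | h
          · exact h
          · exact absurd hs h.1
        have hwS : w ∈ comp ω w := same_refl ω w
        have hbS' : b' ∈ comp ω w := hs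
        have hwS' : w' ∉ comp ω w := hS.2.1
        have hbS : b ∉ comp ω w := hS.2.2
        rw [mem_coe, mem_product, mem_PM, mem_PM]
        constructor
        · apply pm_swapOn_fst h1 h2 (cl_comp ω w)
          intro v
          simp only [mem_sdiff, mem_insert, mem_singleton, not_or]
          constructor
          · intro hv
            by_cases hvS : v ∈ comp ω w
            · refine Or.inl ⟨hvS, hv, ?_, ?_⟩
              · rintro rfl; exact hbS hvS
              · rintro rfl; exact hwS' hvS
            · refine Or.inr ⟨hvS, hv, ?_, ?_⟩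
              · rintro rfl; exact hvS hwS
              · rintro rfl; exact hvS hbS'
          · rintro (⟨-, hv, -⟩ | ⟨-, hv, -⟩) <;> exact hv
        · apply pm_swapOn_snd h1 h2 (cl_comp ω w)
          intro v
          simp only [mem_sdiff, mem_insert, mem_singleton, not_or]
          constructor
          · rintro ⟨hv, hvw, hvb, hvw', hvb'⟩
            by_cases hvS : v ∈ comp ω w
            · exact Or.inl ⟨hvS, hv, hvw, hvb'⟩
            · exact Or.inr ⟨hvS, hv, hvb, hvw'⟩
          · rintro (⟨hvS, hv, hvw, hvb'⟩ | ⟨hvS, hv, hvb, hvw'⟩)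
            · refine ⟨hv, hvw, ?_, ?_, hvb'⟩
              · rintro rfl; exact hbS hvS
              · rintro rfl; exact hwS' hvS
            · refine ⟨hv, ?_, hvb, hvw', ?_⟩
              · rintro rfl; exact hvS hwS
              · rintro rfl; exact hvS hbS'
      · exact (swap_injective_comp w).injOn
    rw [card_product] at hle
    refine hle.trans ?_
    rw [pow_two]
    exact Nat.mul_le_mul le_rfl e4'
  · -- second case
    have hle : ((PM (V \ {w, b'}) ×ˢ PM (V \ {b, w'})).filter
        (fun ω : Conf => ¬ Same ω w b')).card ≤ (PM (V \ {w', b'}) ×ˢ PM (V \ {w, b})).card := by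
      apply card_le_card_of_injOn (fun ω : Conf => swapOn (comp ω w) ω)
      · intro ω hω
        rw [mem_coe, mem_filter, mem_product, mem_PM, mem_PM] at hω
        obtain ⟨⟨h1, h2⟩, hs⟩ := hω
        have hS : ¬ Same ω w b' ∧ Same ω w w' ∧ ¬ Same ω w b := by
          rcases common ω h1 h2 with h | h
          · exact absurd h.1 hs
          · exact h
        have hwS : w ∈ comp ω w := same_refl ω w
        have hbS' : b' ∉ comp ω w := hs
        have hwS' : w' ∈ comp ω w := hS.2.1
        have hbS : b ∉ comp ω w := hS.2.2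
        rw [mem_coe, mem_product, mem_PM, mem_PM]
        constructor
        · apply pm_swapOn_fst h1 h2 (cl_comp ω w)
          intro v
          simp only [mem_sdiff, mem_insert, mem_singleton, not_or]
          constructor
          · rintro ⟨hv, hvw', hvb'⟩
            by_cases hvS : v ∈ comp ω w
            · refine Or.inl ⟨hvS, hv, ?_, hvw'⟩
              rintro rfl; exact hbS hvS
            · refine Or.inr ⟨hvS, hv, ?_, hvb'⟩
              rintro rfl; exact hvS hwS
          · rintro (⟨hvS, hv, hvb, hvw'⟩ | ⟨hvS, hv, hvw, hvb'⟩)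
            · refine ⟨hv, hvw', ?_⟩
              rintro rfl; exact hbS' hvS
            · refine ⟨hv, ?_, hvb'⟩
              rintro rfl; exact hvS hwS'
        · apply pm_swapOn_snd h1 h2 (cl_comp ω w)
          intro v
          simp only [mem_sdiff, mem_insert, mem_singleton, not_or]
          constructor
          · rintro ⟨hv, hvw, hvb⟩
            by_cases hvS : v ∈ comp ω w
            · refine Or.inl ⟨hvS, hv, hvw, ?_⟩
              rintro rfl; exact hbS' hvS
            · refine Or.inr ⟨hvS, hv, hvb, ?_⟩
              rintro rfl; exact hvS hwS'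
          · rintro (⟨hvS, hv, hvw, hvb'⟩ | ⟨hvS, hv, hvb, hvw'⟩)
            · refine ⟨hv, hvw, ?_⟩
              rintro rfl; exact hbS hvS
            · refine ⟨hv, ?_, hvb⟩
              rintro rfl; exact hvS hwS
      · exact (swap_injective_comp w).injOn
    rw [card_product] at hle
    refine hle.trans ?_
    rw [pow_two]
    exact Nat.mul_le_mul (Z_sdiff_pair_le hw' hb' ha') (Z_sdiff_pair_le hw hb ha)

end Vale.Agent.P155.SW
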