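import Vale.Agent.P155.FinalStmt
import Vale.Agent.P155.A.TempGeo

/-!
# P155: the neighbourhood condition of `TempApprox` is automatic for domains with connected exterior

`LitApprox` is the literal notion of Temperleyan approximation (Caratheodory convergence of the
polygons, Hausdorff convergence of the boundaries).  If the exterior of `Ω` is connected, then the
polygons of a literal approximation stay in small neighbourhoods of `Ω`, i.e. every `LitApprox` is
a `TempApprox`.
-/

namespace Vale.Agent.P155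

open Filter Topology Metric

/-- Temperleyan approximations of `Ω`: polygons `T n` in the grids `a n + 2 δ n ℤ²`, converging
to `Ω` in the Caratheodory sense, with boundaries converging in the Hausdorff metric. -/
structure LitApprox (Ω : Set ℂ) where
  T : ℕ → Temp
  δ : ℕ → ℝ
  a : ℕ → ℂ
  pos : ∀ n, 0 < δ n
  mesh : Tendsto δ atTop (𝓝 0)
  bdd : ∃ C : ℝ, ∀ n, ‖a n‖ ≤ C
  cara₁ : ∀ K ⊆ Ω, IsCompact K → ∀ᶠ n in atTop, K ⊆ interior (region (δ n) (a n) (T n).faceSet)
  cara₂ : ∀ U : Set ℂ, IsOpen U → IsConnected U → (U ∩ Ω).Nonempty →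
    (∃ᶠ n in atTop, U ⊆ region (δ n) (a n) (T n).faceSet) → U ⊆ Ω
  haus₁ : ∀ ε > 0, ∀ᶠ n in atTop,
    frontier (region (δ n) (a n) (T n).faceSet) ⊆ Metric.thickening ε (frontier Ω)
  haus₂ : ∀ ε > 0, ∀ᶠ n in atTop,
    frontier Ω ⊆ Metric.thickening ε (frontier (region (δ n) (a n) (T n).faceSet))

namespace SW

/-- a compact part of a connected open set lies in a compact connected part -/
theorem exists_conn {W : Set ℂ} (hW : IsOpen W) (hc : IsPreconnected W) {w₀ : ℂ} (hw : w₀ ∈ W)
    {C : Set ℂ} (hC : IsCompact C) (hCW : C ⊆ W) :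
    ∃ D, IsCompact D ∧ IsPreconnected D ∧ w₀ ∈ D ∧ C ⊆ D ∧ D ⊆ W := by
  have hpc : IsPathConnected W := (IsOpen.isConnected_iff_isPathConnected hW).1 ⟨⟨w₀, hw⟩, hc⟩
  refine hC.induction_on (p := fun s => ∃ D, IsCompact D ∧ IsPreconnected D ∧ w₀ ∈ D ∧ s ⊆ D ∧
    D ⊆ W) ?_ ?_ ?_ ?_
  · exact ⟨{w₀}, isCompact_singleton, isPreconnected_singleton, rfl, Set.empty_subset _,
      Set.singleton_subset_iff.2 hw⟩
  · rintro s t hst ⟨D, h1, h2, h3, h4, h5⟩
    exact ⟨D, h1, h2, h3, hst.trans h4, h5⟩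
  · rintro s t ⟨D, h1, h2, h3, h4, h5⟩ ⟨D', k1, k2, k3, k4, k5⟩
    exact ⟨D ∪ D', h1.union k1, h2.union w₀ h3 k3 k2, Or.inl h3, Set.union_subset_union h4 k4,
      Set.union_subset h5 k5⟩
  · intro z hz
    obtain ⟨r, hr, hrW⟩ := Metric.nhds_basis_closedBall.mem_iff.1 (hW.mem_nhds (hCW hz))
    obtain ⟨γ, hγ⟩ := hpc.joinedIn w₀ hw z (hCW hz)
    refine ⟨closedBall z r, mem_nhdsWithin_of_mem_nhds (closedBall_mem_nhds z hr),
      Set.range γ ∪ closedBall z r, ?_, ?_, Or.inl ⟨0, γ.source⟩, Set.subset_union_right,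
      Set.union_subset (Set.range_subset_iff.2 hγ) hrW⟩
    · exact (isCompact_range γ.continuous).union (isCompact_closedBall z r)
    · exact (isPreconnected_range γ.continuous).union z ⟨1, γ.target⟩ (mem_closedBall_self hr.le)
        (convex_closedBall z r).isPreconnected

/-- a connected set which meets a set and its complement meets the frontier -/
theorem meet_frontier {s t : Set ℂ} (ht : IsPreconnected t) (h : (t ∩ s).Nonempty)
    (h' : (t ∩ sᶜ).Nonempty) : (t ∩ frontier s).Nonempty := by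
  by_contra hn
  have hdis : ∀ z ∈ t, z ∉ frontier s := fun z hz hf => hn ⟨z, hz, hf⟩
  have key : ∀ z ∈ t, z ∈ interior s ∨ z ∈ interior sᶜ := by
    intro z hz
    by_cases h1 : z ∈ interior s
    · exact Or.inl h1
    · right
      rw [interior_compl]
      exact fun h2 => hdis z hz ⟨h2, h1⟩
  obtain ⟨x, hx, hxs⟩ := h
  obtain ⟨y, hy, hys⟩ := h'
  have hx' : x ∈ interior s := (key x hx).resolve_right fun h => interior_subset h hxs
  have hy' : y ∈ interior sᶜ := (key y hy).resolve_left fun h => hys (interior_subset h)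
  obtain ⟨w, hw, h1, h2⟩ := ht _ _ isOpen_interior isOpen_interior (fun z hz => key z hz)
    ⟨x, hx, hx'⟩ ⟨y, hy, hy'⟩
  exact interior_subset h2 (interior_subset h1)

/-- a bounded set whose frontier is in a ball is in the ball -/
theorem sub_ball {R : Set ℂ} (hb : Bornology.IsBounded R) {ρ : ℝ}
    (h : frontier R ⊆ ball 0 ρ) : R ⊆ ball 0 ρ := by
  intro z hz
  by_contra hn
  have hρ : ρ ≤ ‖z‖ := by simpa using hn
  rcases eq_or_ne z 0 with rfl | h0
  · -- then `ρ ≤ 0`, so the frontier is empty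
    have hfr : frontier R = ∅ := by
      rw [Set.eq_empty_iff_forall_notMem]
      intro w hw
      have := h hw
      simp only [mem_ball, dist_zero_right] at this
      simp only [norm_zero] at hρ
      linarith [norm_nonneg w]
    have hcl : IsClopen R := frontier_eq_empty_iff.1 hfr |> fun h => by
      rcases h with h | h
      · rw [h]; exact isClopen_empty
      · rw [h]; exact isClopen_univ
    rcases isClopen_iff.1 hcl with h | h
    · rw [h] at hz; exact hz
    · rw [h] at hb
      exact NormedSpace.unbounded_univ ℝ ℂ hb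
  · have hz0 : 0 < ‖z‖ := norm_pos_iff.2 h0
    obtain ⟨M, hM⟩ := hb.subset_ball 0
    have hray : IsPreconnected ((fun t : ℝ => (t : ℂ) * z) '' Set.Ici 1) :=
      isPreconnected_Ici.image _ (by fun_prop)
    have h1 : ((fun t : ℝ => (t : ℂ) * z) '' Set.Ici 1 ∩ R).Nonempty :=
      ⟨z, ⟨1, Set.self_mem_Ici, by simp⟩, hz⟩
    have h2 : ((fun t : ℝ => (t : ℂ) * z) '' Set.Ici 1 ∩ Rᶜ).Nonempty := by
      refine ⟨((max 1 (M / ‖z‖) : ℝ) : ℂ) * z, ⟨_, Set.mem_Ici.2 (le_max_left _ _), rfl⟩,
        fun hR => ?_⟩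
      have := hM hR
      rw [mem_ball, dist_zero_right, norm_mul, Complex.norm_real, Real.norm_eq_abs,
        abs_of_nonneg (le_trans zero_le_one (le_max_left _ _))] at this
      have h3 : M / ‖z‖ * ‖z‖ ≤ max 1 (M / ‖z‖) * ‖z‖ :=
        mul_le_mul_of_nonneg_right (le_max_right _ _) hz0.le
      rw [div_mul_cancel₀ _ hz0.ne'] at h3
      linarith
    obtain ⟨w, ⟨t, ht, rfl⟩, hw⟩ := meet_frontier hray h1 h2
    have h4 := h hw
    rw [mem_ball, dist_zero_right] at h4
    simp only [norm_mul, Complex.norm_real, Real.norm_eq_abs] at h4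
    have ht1 : (1 : ℝ) ≤ t := ht
    rw [abs_of_nonneg (zero_le_one.trans ht1)] at h4
    nlinarith

/-- closed squares are bounded -/
theorem isBounded_region (δ : ℝ) (a : ℂ) {S : Set Pt} (hS : S.Finite) :
    Bornology.IsBounded (region δ a S) := by
  rw [region, Bornology.isBounded_biUnion hS]
  intro f _
  have h1 : sqr δ a f ⊆ (fun p : ℝ × ℝ => a + δ * (((f.1 : ℝ) + p.1 : ℝ) +
      ((f.2 : ℝ) + p.2 : ℝ) * Complex.I)) '' (Set.Icc 0 1 ×ˢ Set.Icc 0 1) := by
    rintro z ⟨s, t, hs, hs', ht, ht', rfl⟩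
    exact ⟨(s, t), ⟨⟨hs, hs'⟩, ⟨ht, ht'⟩⟩, rfl⟩
  refine IsCompact.isBounded ?_ |>.subset h1
  exact (isCompact_Icc.prod isCompact_Icc).image (by fun_prop)

/-- the polygons of a literal approximation stay in small neighbourhoods of `Ω`, if the exterior
of `Ω` is connected -/
theorem outer_of_connected {Ω : Set ℂ} (hb : Bornology.IsBounded Ω)
    (hc : IsPreconnected (closure Ω)ᶜ) {R : ℕ → Set ℂ} (hR : ∀ n, Bornology.IsBounded (R n))
    (haus : ∀ ε > 0, ∀ᶠ n in atTop, frontier (R n) ⊆ Metric.thickening ε (frontier Ω)) :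
    ∀ ε > 0, ∀ᶠ n in atTop, R n ⊆ Metric.thickening ε Ω := by
  intro ε hε
  obtain ⟨M, hM⟩ := hb.subset_closedBall 0
  have hcl : closure Ω ⊆ closedBall 0 M := closure_minimal hM isClosed_closedBall
  obtain ⟨ρ, hρ⟩ : ∃ ρ : ℝ, ρ = |M| + 2 := ⟨_, rfl⟩
  have hρM : M + 1 < ρ := by
    have := le_abs_self M
    linarith
  have hρ0 : 0 < ρ := by
    have := abs_nonneg M
    linarith
  have hW : IsOpen (closure Ω)ᶜ := isClosed_closure.isOpen_compl
  have hw0 : (ρ : ℂ) ∈ (closure Ω)ᶜ := by
    intro h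
    have := hcl h
    rw [mem_closedBall, dist_zero_right, Complex.norm_real, Real.norm_eq_abs,
      abs_of_pos hρ0] at this
    linarith
  have hC : IsCompact (closedBall (0 : ℂ) ρ \ Metric.thickening ε Ω) :=
    (isCompact_closedBall 0 ρ).diff Metric.isOpen_thickening
  have hCW : closedBall (0 : ℂ) ρ \ Metric.thickening ε Ω ⊆ (closure Ω)ᶜ :=
    fun z hz h => hz.2 (Metric.closure_subset_thickening hε Ω h)
  obtain ⟨D, hD, hDc, hDw, hCD, hDW⟩ := exists_conn hW hc hw0 hC hCW
  -- `D` has positive distance from the closure of `Ω`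
  obtain ⟨η, hη, hdis⟩ : ∃ η : ℝ, 0 < η ∧ Disjoint D (Metric.thickening η (closure Ω)) := by
    have hdj : Disjoint (closure Ω) D := Set.disjoint_left.2 fun z h1 h2 => hDW h2 h1
    have hcc : IsCompact (closure Ω) := hb.isCompact_closure
    obtain ⟨η, hη, h⟩ := hdj.exists_thickenings hcc hD.isClosed
    refine ⟨η, hη, ?_⟩
    exact (h.mono_right (Metric.self_subset_thickening hη D)).symm
  have hη' : 0 < min η 1 := lt_min hη one_pos
  filter_upwards [haus (min η 1) hη'] with n hn
  have hball : R n ⊆ ball 0 ρ := by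
    refine sub_ball (hR n) (hn.trans fun z hz => ?_)
    obtain ⟨w, hw, hzw⟩ := Metric.mem_thickening_iff.1 hz
    have h1 := hcl (frontier_subset_closure hw)
    rw [mem_closedBall, dist_zero_right] at h1
    rw [mem_ball, dist_zero_right]
    have h2 : ‖z‖ ≤ ‖w‖ + dist z w := by
      have := norm_add_le w (z - w)
      rw [add_sub_cancel] at this
      rwa [dist_eq_norm]
    have h3 := min_le_right η (1 : ℝ)
    linarith
  have hnot : (ρ : ℂ) ∉ R n := by
    intro h
    have := hball h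
    rw [mem_ball, dist_zero_right, Complex.norm_real, Real.norm_eq_abs, abs_of_pos hρ0] at this
    exact lt_irrefl _ this
  have hDR : ∀ z ∈ D, z ∉ R n := by
    intro z hz hzR
    obtain ⟨w, hwD, hwf⟩ := meet_frontier hDc ⟨z, hz, hzR⟩ ⟨(ρ : ℂ), hDw, hnot⟩
    refine Set.disjoint_left.1 hdis hwD ?_
    exact Metric.thickening_mono (min_le_left _ _) _
      (Metric.thickening_subset_of_subset _ frontier_subset_closure (hn hwf))
  intro z hz
  by_contra hzn
  exact hDR z (hCD ⟨ball_subset_closedBall (hball hz), hzn⟩) hz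

end SW

/-- A literal approximation of a domain with connected exterior is a `TempApprox`. -/
noncomputable def LitApprox.toTempApprox {Ω : Set ℂ} (S : LitApprox Ω)
    (h : ∀ ε > 0, ∀ᶠ n in atTop, region (S.δ n) (S.a n) (S.T n).faceSet ⊆
      Metric.thickening ε Ω) : TempApprox Ω :=
  { S with outer := h }

theorem LitApprox.outer {Ω : Set ℂ} (hb : Bornology.IsBounded Ω)
    (hc : IsPreconnected (closure Ω)ᶜ) (S : LitApprox Ω) :
    ∀ ε > 0, ∀ᶠ n in atTop, region (S.δ n) (S.a n) (S.T n).faceSet ⊆ Metric.thickening ε Ω :=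
  SW.outer_of_connected hb hc
    (fun n => SW.isBounded_region _ _ (Temp.faceSet_finite (S.T n))) S.haus₁

end Vale.Agent.P155
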