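import Vale.Agent.P155.F.Kbound
import Vale.Agent.P155.F.F2
import Vale.Agent.P155.F.Fixed
import Vale.Agent.P155.F.InsideLoop
import Vale.Agent.P155.A.Temp2

/-!
# P155, block F: the pair estimate
-/

namespace Vale.Agent.P155.F

open Finset Skel

/-- The determinant bound in the form proved in `F/F3Cut.lean`. -/
def CutBound : Prop := ∀ (V : Finset Pt) (m0 : Pt → Pt), IsPM V m0 → InvRel V →
  |detR V m0 K| = Z V → 0 < Z V → ∀ (q q' : Pt) (ρ : ℕ), 2 * ρ + 4 < dn q q' →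
  ∀ w1 w2 b1 b2 : Pt, cutV w1 w2 ⊆ box q ρ → cutV b1 b2 ⊆ box q' ρ → w1 ≠ w2 → b1 ≠ b2 →
  w1 ∈ V → w2 ∈ V → b1 ∈ V → b2 ∈ V → White w1 → White w2 → Black b1 → Black b2 →
  w1 ∈ box q ρ → w2 ∈ box q ρ → b1 ∈ box q' ρ → b2 ∈ box q' ρ → ∀ Mx k0 S0 : ℝ, 1 ≤ Mx →
  (∀ w b, White w → Black b → w ∈ V → b ∈ V →
    (w ∈ box q (ρ + 1) ∧ b ∈ box q (ρ + 1) ∨ w ∈ box q' (ρ + 1) ∧ b ∈ box q' (ρ + 1)) →
    (Z (V \ {w, b}) : ℝ) ≤ Mx * Z V) →
  (∀ w b, White w → Black b → w ∈ V → b ∈ V →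
    (w ∈ box q (ρ + 1) ∧ b ∈ box q' (ρ + 1) ∨ w ∈ box q' (ρ + 1) ∧ b ∈ box q (ρ + 1)) →
    |Kinv V b w| ≤ k0) →
  ((cutV w1 w2).card : ℝ) + 2 ≤ S0 → ((cutV b1 b2).card : ℝ) + 2 ≤ S0 →
  4 * S0 ^ 2 * Mx * (4 * k0) ≤ 1 / 2 →
  |detR V m0 (Kc {w1, w2} (fun w => if w = w1 then b1 else b2)
    (fun w b => sc w1 w2 w b * sc b1 b2 w b))| ≤ 80 * S0 ^ 4 * Mx ^ 4 * (4 * k0) ^ 2 * Z V

/-- The bound for the two-pair monomer ratio. -/
theorem M_bound (hC : CutLoop) (hSg : SignLoop) (hCB : CutBound)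
    (hinv : ∀ T : Temp, InvRel T.V) (hP : B_plane) (hD : B_dom) (hM : B_mono)
    (hne : ∀ T : Temp, ∃ m, IsPM T.V m) :
    ∃ C : ℝ, 20 ≤ C ∧ ∀ (T : Temp) (q q' : Pt) (s r : ℕ), 1 ≤ s → C * (s : ℝ) ^ 3 ≤ r →
      r ≤ dn q q' → r ≤ dF T.faceSet q → r ≤ dF T.faceSet q' →
      ∀ w1 w2 b1 b2 : Pt, White w1 → White w2 → Black b1 → Black b2 → w1 ≠ w2 → b1 ≠ b2 →
      w1 ∈ T.V → w2 ∈ T.V → b1 ∈ T.V → b2 ∈ T.V →
      w1 ∈ box q (s + 2) → w2 ∈ box q (s + 2) → b1 ∈ box q' (s + 2) → b2 ∈ box q' (s + 2) →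
      (Z (T.V \ {w1, w2, b1, b2}) : ℝ) ≤ C * (s : ℝ) ^ 8 / (r : ℝ) ^ 2 * Z T.V := by
  obtain ⟨C1, hC1, hfar⟩ := Kinv_far hP hD
  obtain ⟨Cm0, hmono⟩ := hM
  set Cm : ℝ := 1 + |Cm0| with hCm
  have hCm1 : 1 ≤ Cm := by rw [hCm]; linarith [abs_nonneg Cm0]
  have hCm0 : Cm0 ≤ Cm := by rw [hCm]; linarith [le_abs_self Cm0]
  set CB : ℝ := 80 * 26 ^ 4 * (11 * Cm) ^ 4 * (8 * C1) ^ 2 with hCB'
  have hCBpos : 0 < CB := by positivity
  refine ⟨20 * Cm + 475904 * Cm * C1 + CB, by nlinarith [mul_pos (by linarith : (0 : ℝ) < Cm) hC1],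
    ?_⟩
  intro T q q' s r hs hr hqq hq hq' w1 w2 b1 b2 hW1 hW2 hB1 hB2 hw hb hw1 hw2 hb1 hb2 mw1 mw2
    mb1 mb2
  have hsR : (1 : ℝ) ≤ s := by exact_mod_cast hs
  have hs3 : (s : ℝ) ≤ (s : ℝ) ^ 3 := by
    have : (s : ℝ) ^ 1 ≤ (s : ℝ) ^ 3 := pow_le_pow_right₀ hsR (by norm_num)
    simpa using this
  have hCmC1 : 0 ≤ Cm * C1 := by positivity
  have hr1 : 20 * Cm * (s : ℝ) ≤ (r : ℝ) := by
    calc 20 * Cm * (s : ℝ) ≤ 20 * Cm * (s : ℝ) ^ 3 :=
          mul_le_mul_of_nonneg_left hs3 (by positivity)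
      _ ≤ (20 * Cm + 475904 * Cm * C1 + CB) * (s : ℝ) ^ 3 := by
          apply mul_le_mul_of_nonneg_right _ (by positivity)
          nlinarith
      _ ≤ r := hr
  have hr2 : 475904 * Cm * C1 * (s : ℝ) ^ 3 ≤ (r : ℝ) := by
    refine le_trans ?_ hr
    apply mul_le_mul_of_nonneg_right _ (by positivity)
    nlinarith
  have hr20 : 20 * s ≤ r := by
    have h1 : (20 : ℝ) * s ≤ r := by
      calc (20 : ℝ) * s = 20 * 1 * s := by ring
        _ ≤ 20 * Cm * s := by gcongr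
        _ ≤ r := hr1
    exact_mod_cast h1
  have hrpos : (0 : ℝ) < r := by
    have : (20 : ℝ) * s ≤ r := by exact_mod_cast hr20
    linarith
  obtain ⟨m0, h0⟩ := hne T
  have hZpos : 0 < Z T.V := card_pos.2 ⟨m0, mem_PM.2 h0⟩
  have hInvR : InvRel T.V := hinv T
  have hZK := detR_K hSg insideLoop h0
  have hcutEq := detR_cut hC hSg insideLoop h0 hw1 hw2 hb1 hb2 hW1 hW2 hB1 hB2 hw hb
  have hbd := hCB T.V m0 h0 hInvR hZK hZpos q q' (s + 3) (by omega) w1 w2 b1 b2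
    (cutV_subset mw1 mw2) (cutV_subset mb1 mb2) hw hb hw1 hw2 hb1 hb2 hW1 hW2 hB1 hB2
    (mem_box_dn.2 ((mem_box_dn.1 mw1).trans (by omega)))
    (mem_box_dn.2 ((mem_box_dn.1 mw2).trans (by omega)))
    (mem_box_dn.2 ((mem_box_dn.1 mb1).trans (by omega)))
    (mem_box_dn.2 ((mem_box_dn.1 mb2).trans (by omega)))
    (11 * Cm * s) (2 * C1 / r) (26 * s) (by nlinarith)
    (by
      intro w b hwW hbB hwV hbV hbox
      have hloc : dn b w ≤ 2 * (s + 4) ∧ r ≤ dF T.faceSet w + (s + 4) := by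
        rcases hbox with ⟨h1, h2⟩ | ⟨h1, h2⟩
        · rw [mem_box_dn] at h1 h2
          have h3 := dn_tri b q w
          rw [dn_symm b q] at h3
          have h4 := dF_le_add T.faceSet q w
          exact ⟨by omega, by omega⟩
        · rw [mem_box_dn] at h1 h2
          have h3 := dn_tri b q' w
          rw [dn_symm b q'] at h3
          have h4 := dF_le_add T.faceSet q' w
          exact ⟨by omega, by omega⟩
      have h5 : (1 : ℝ) + dn b w ≤ 11 * s := by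
        have : ((dn b w : ℕ) : ℝ) ≤ 2 * (s + 4) := by exact_mod_cast hloc.1
        linarith
      have h6 : (r : ℝ) ≤ dF T.faceSet w + (s + 4) := by exact_mod_cast hloc.2
      have h7 : (0 : ℝ) ≤ 1 + dn b w := by positivity
      have h8 : Cm0 * (1 + (dn b w : ℝ)) ≤ 11 * Cm * s := by
        calc Cm0 * (1 + (dn b w : ℝ)) ≤ Cm * (1 + (dn b w : ℝ)) :=
              mul_le_mul_of_nonneg_right hCm0 h7
          _ ≤ Cm * (11 * s) := mul_le_mul_of_nonneg_left h5 (by linarith)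
          _ = 11 * Cm * s := by ring
      have h9 : Cm0 * (1 + (dn b w : ℝ)) ≤ dF T.faceSet w := by nlinarith
      have h10 := hmono T w b hwW hbB hwV hbV h9
      rw [div_le_iff₀ (by exact_mod_cast hZpos)] at h10
      exact h10.trans (mul_le_mul_of_nonneg_right h8 (Nat.cast_nonneg _)))
    (by
      intro w b hwW hbB hwV hbV hbox
      have hloc : r ≤ dn b w + 2 * (s + 4) ∧ r ≤ dF T.faceSet w + (s + 4) := by
        rcases hbox with ⟨h1, h2⟩ | ⟨h1, h2⟩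
        · rw [mem_box_dn] at h1 h2
          have h3 := dn_tri q w q'
          have h3' := dn_tri w b q'
          rw [dn_symm b q', dn_symm w b] at h3'
          have h4 := dF_le_add T.faceSet q w
          exact ⟨by omega, by omega⟩
        · rw [mem_box_dn] at h1 h2
          have h3 := dn_tri q b q'
          have h3' := dn_tri b w q'
          rw [dn_symm w q'] at h3'
          have h4 := dF_le_add T.faceSet q' w
          exact ⟨by omega, by omega⟩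
      have h5 := hfar T w b (r - 2 * (s + 4)) (by omega) hwW hbB hwV hbV (by omega) (by omega)
      refine h5.trans ?_
      have h6 : ((r - 2 * (s + 4) : ℕ) : ℝ) = r - 2 * (s + 4) := by
        rw [Nat.cast_sub (by omega)]
        push_cast
        ring
      have h7 : (20 : ℝ) * s ≤ r := by exact_mod_cast hr20
      rw [h6, div_le_div_iff₀ (by nlinarith) hrpos]
      nlinarith [mul_le_mul_of_nonneg_left h7 hC1.le])
    (by
      have h := card_cutV_box mw1 mw2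
      have h' : ((cutV w1 w2).card : ℝ) ≤ 8 * (s + 2) := by exact_mod_cast h
      linarith)
    (by
      have h := card_cutV_box mb1 mb2
      have h' : ((cutV b1 b2).card : ℝ) ≤ 8 * (s + 2) := by exact_mod_cast h
      linarith)
    (by
      have h1 : 4 * (26 * (s : ℝ)) ^ 2 * (11 * Cm * s) * (4 * (2 * C1 / r)) =
          (475904 * Cm * C1 * (s : ℝ) ^ 3) / r * (1 / 2) := by
        field_simp
        ring
      rw [h1]
      have h2 : (475904 * Cm * C1 * (s : ℝ) ^ 3) / r ≤ 1 := by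
        rw [div_le_one hrpos]; exact hr2
      linarith)
  rw [hcutEq] at hbd
  refine hbd.trans ?_
  apply mul_le_mul_of_nonneg_right _ (Nat.cast_nonneg _)
  have h1 : 80 * (26 * (s : ℝ)) ^ 4 * (11 * Cm * s) ^ 4 * (4 * (2 * C1 / r)) ^ 2 =
      CB * (s : ℝ) ^ 8 / (r : ℝ) ^ 2 := by
    rw [hCB']
    field_simp
    ring
  rw [h1]
  apply div_le_div_of_nonneg_right _ (by positivity)
  apply mul_le_mul_of_nonneg_right _ (by positivity)
  nlinarith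

/-- **The pair estimate**, given the determinant bound and the A/B blocks. -/
theorem pair_of (hC : CutLoop) (hSg : SignLoop) (hCB : CutBound)
    (hinv : ∀ T : Temp, InvRel T.V) (hP : B_plane) (hD : B_dom) (hM : B_mono)
    (hne : ∀ T : Temp, ∃ m, IsPM T.V m) : F_pair := by
  obtain ⟨C, hC20, hB⟩ := M_bound hC hSg hCB hinv hP hD hM hne
  refine ⟨C + 24 + 10 ^ 8 * C ^ 2, ?_⟩
  intro T q q' s r hs hr hqq hq hq'
  have hsR : (1 : ℝ) ≤ s := by exact_mod_cast hs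
  have hCpos : (0 : ℝ) < C := by linarith
  have hs3pos : (1 : ℝ) ≤ (s : ℝ) ^ 3 := one_le_pow₀ hsR
  have hr' : C * (s : ℝ) ^ 3 ≤ r := by
    refine le_trans ?_ hr
    apply mul_le_mul_of_nonneg_right _ (by positivity)
    nlinarith [sq_nonneg C]
  have hs3 : (s : ℝ) ≤ (s : ℝ) ^ 3 := by
    have : (s : ℝ) ^ 1 ≤ (s : ℝ) ^ 3 := pow_le_pow_right₀ hsR (by norm_num)
    simpa using this
  have hr20 : 20 * s ≤ r := by
    have h1 : (20 : ℝ) * s ≤ r := by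
      calc (20 : ℝ) * s ≤ C * (s : ℝ) ^ 3 := mul_le_mul hC20 hs3 (by positivity) hCpos.le
        _ ≤ r := hr'
    exact_mod_cast h1
  have hrpos : (0 : ℝ) < r := by
    have : (20 : ℝ) * s ≤ r := by exact_mod_cast hr20
    linarith
  have h := pr_two_loops_le T.V (fixedLabel T.V) q q' s (by omega)
    (C * (s : ℝ) ^ 8 / (r : ℝ) ^ 2) (by
      intro w1 w2 b1 b2 hW1 hW2 hB1 hB2 hw hb hw1 hw2 hb1 hb2 hbox
      rcases hbox with ⟨h1, h2, h3, h4⟩ | ⟨h1, h2, h3, h4⟩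
      · exact hB T q q' s r hs hr' hqq hq hq' w1 w2 b1 b2 hW1 hW2 hB1 hB2 hw hb hw1 hw2 hb1 hb2
          h1 h2 h3 h4
      · exact hB T q' q s r hs hr' (by rw [dn_symm]; exact hqq) hq' hq w1 w2 b1 b2 hW1 hW2 hB1
          hB2 hw hb hw1 hw2 hb1 hb2 h1 h2 h3 h4)
  refine h.trans ?_
  have h1 : 256 * (2 * (s : ℝ) + 3) ^ 8 * (C * (s : ℝ) ^ 8 / (r : ℝ) ^ 2) ^ 2 ≤
      10 ^ 8 * C ^ 2 * (s : ℝ) ^ 24 / (r : ℝ) ^ 4 := by
    have h2 : (2 * (s : ℝ) + 3) ^ 8 ≤ (5 * (s : ℝ)) ^ 8 := by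
      apply pow_le_pow_left₀ (by positivity)
      linarith
    calc 256 * (2 * (s : ℝ) + 3) ^ 8 * (C * (s : ℝ) ^ 8 / (r : ℝ) ^ 2) ^ 2
        ≤ 256 * (5 * (s : ℝ)) ^ 8 * (C * (s : ℝ) ^ 8 / (r : ℝ) ^ 2) ^ 2 := by gcongr
      _ = 10 ^ 8 * C ^ 2 * (s : ℝ) ^ 24 / (r : ℝ) ^ 4 := by
          field_simp
          ring
  refine h1.trans ?_
  apply div_le_div_of_nonneg_right _ (by positivity)
  have h3 : (s : ℝ) ^ 24 ≤ (s : ℝ) ^ (C + 24 + 10 ^ 8 * C ^ 2) := by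
    rw [← Real.rpow_natCast]
    apply Real.rpow_le_rpow_of_exponent_le hsR
    push_cast
    nlinarith [sq_nonneg C]
  apply mul_le_mul _ h3 (by positivity) (by positivity)
  linarith

end Vale.Agent.P155.F
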