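import Vale.Agent.P155.F.Arc

/-!
# P155, TIGHT: labels on a run

A run is a maximal directed path of the superposition of `ω.1` (a matching of `V₁`) and `ω.2` (a
matching of `V₂`), followed until its last point. A run passing at the times `t 0 < t 1 < …` near
given points is cut into arcs (first visit → second visit), (third → fourth), …, the last one going
to the exit if the number of visits is odd.
-/

namespace Vale.Agent.P155.SW

open Finset Vale.Agent.P155

/-- the points `suc^[j] v` for `j ≤ N` form a path whose last point is fixed by `suc` -/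
structure Run (ω : Conf) (v : Pt) (N : ℕ) : Prop where
  move : ∀ j < N, suc ω ((suc ω)^[j] v) ≠ (suc ω)^[j] v
  exit : suc ω ((suc ω)^[N] v) = (suc ω)^[N] v

theorem iter_fixed {ω : Conf} {z : Pt} (h : suc ω z = z) (n : ℕ) : (suc ω)^[n] z = z := by
  induction n with
  | zero => rfl
  | succ n ih => rw [Function.iterate_succ_apply, h, ih]

theorem Run.inj {ω : Conf} {v : Pt} {N : ℕ} (h : Run ω v N) :
    ∀ i j, i < j → j ≤ N → (suc ω)^[i] v ≠ (suc ω)^[j] v := by
  intro i j hij hj he
  -- shift to the exit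
  have h1 : (suc ω)^[i + (N - j)] v = (suc ω)^[N] v := by
    have e1 : i + (N - j) = (N - j) + i := by omega
    have e2 : N = (N - j) + j := by omega
    rw [e1, Function.iterate_add_apply, he, ← Function.iterate_add_apply, ← e2]
  apply h.move (i + (N - j)) (by omega)
  rw [h1]
  exact h.exit

section

variable {V₁ V₂ : Finset Pt} {ω : Conf} {v : Pt} {N : ℕ}

/-- the points of a run are in `V₁` (white, not the exit) -/
theorem Run.colour (h1 : IsPM V₁ ω.1) (h2 : IsPM V₂ ω.2) (h : Run ω v N) :
    ∀ j ≤ N, (White ((suc ω)^[j] v) ↔ (White v ↔ Even j)) := by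
  intro j
  induction j with
  | zero => intro _; simp
  | succ j ih =>
    intro hj
    have ih' := ih (by omega)
    have hmove := h.move j (by omega)
    rw [Function.iterate_succ_apply']
    have key : White (suc ω ((suc ω)^[j] v)) ↔ ¬ White ((suc ω)^[j] v) := by
      by_cases hw : White ((suc ω)^[j] v)
      · rw [suc_white hw] at hmove ⊢
        have hvV : (suc ω)^[j] v ∈ V₁ := by
          by_contra hc
          exact hmove (h1.off _ hc)
        rw [color_fst h1 hvV, black_iff_not_white]
      · have hb : Black ((suc ω)^[j] v) := black_iff_not_white.2 hw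
        rw [suc_black hb] at hmove ⊢
        have hvV : (suc ω)^[j] v ∈ V₂ := by
          by_contra hc
          exact hmove (h2.off _ hc)
        rw [color_snd h2 hvV, black_iff_not_white]
    rw [key, ih', Nat.even_add_one]
    tauto

theorem Run.alternate (h1 : IsPM V₁ ω.1) (h2 : IsPM V₂ ω.2) (h : Run ω v N) {i j : ℕ}
    (hi : i ≤ N) (hj : j ≤ N) :
    (White ((suc ω)^[i] v) ↔ White ((suc ω)^[j] v)) ↔ (Even i ↔ Even j) := by
  rw [h.colour h1 h2 i hi, h.colour h1 h2 j hj]
  tauto

/-- near every time `< N` there is a white time -/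
theorem Run.white_time (h1 : IsPM V₁ ω.1) (h2 : IsPM V₂ ω.2) (h : Run ω v N) {t : ℕ} (ht : t < N) :
    ∃ a, (a = t ∨ a = t + 1) ∧ White ((suc ω)^[a] v) := by
  by_cases hw : White ((suc ω)^[t] v)
  · exact ⟨t, Or.inl rfl, hw⟩
  · refine ⟨t + 1, Or.inr rfl, ?_⟩
    have := h.alternate h1 h2 (i := t) (j := t + 1) (by omega) (by omega)
    rw [Nat.even_add_one] at this
    tauto

theorem Run.black_time (h1 : IsPM V₁ ω.1) (h2 : IsPM V₂ ω.2) (h : Run ω v N) {t : ℕ} (ht : t < N) :
    ∃ a, (a = t ∨ a = t + 1) ∧ Black ((suc ω)^[a] v) := by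
  by_cases hw : Black ((suc ω)^[t] v)
  · exact ⟨t, Or.inl rfl, hw⟩
  · refine ⟨t + 1, Or.inr rfl, ?_⟩
    have := h.alternate h1 h2 (i := t) (j := t + 1) (by omega) (by omega)
    rw [Nat.even_add_one] at this
    rw [black_iff_not_white] at hw ⊢
    tauto

/-- the properties of an exit label `b` -/
structure IsExit (V₁ V₂ : Finset Pt) (ω : Conf) (b : Pt) : Prop where
  black : Black b
  mem : b ∈ V₁
  cases : (b ∉ V₂ ∧ ω.2 b = b) ∨ (b ∈ V₂ ∧ ω.2 b ∉ V₁)

/-- the exit label: the last black point -/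
theorem Run.exit_time (h1 : IsPM V₁ ω.1) (h2 : IsPM V₂ ω.2) (h : Run ω v N) (hN : 2 ≤ N) :
    ∃ e, (e = N ∨ e + 1 = N) ∧ IsExit V₁ V₂ ω ((suc ω)^[e] v) := by
  have hfst : ∀ j, 1 ≤ j → j ≤ N → Black ((suc ω)^[j] v) → (suc ω)^[j] v ∈ V₁ := by
    intro j hj hjN hb
    obtain ⟨l, rfl⟩ : ∃ l, j = l + 1 := ⟨j - 1, by omega⟩
    have hw : White ((suc ω)^[l] v) := by
      have := h.alternate h1 h2 (i := l) (j := l + 1) (by omega) hjN
      rw [Nat.even_add_one] at this
      rw [black_iff_not_white] at hb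
      tauto
    have hmove := h.move l (by omega)
    rw [suc_white hw] at hmove
    have hvV : (suc ω)^[l] v ∈ V₁ := by
      by_contra hc
      exact hmove (h1.off _ hc)
    rw [Function.iterate_succ_apply', suc_white hw]
    exact pm_mem h1 hvV
  by_cases hb : Black ((suc ω)^[N] v)
  · refine ⟨N, Or.inl rfl, hb, hfst N (by omega) le_rfl hb, Or.inl ?_⟩
    have hex := h.exit
    rw [suc_black hb] at hex
    exact ⟨(pm_fix_iff h2).1 hex, hex⟩
  · have hw : White ((suc ω)^[N] v) := by
      rw [black_iff_not_white, not_not] at hb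
      exact hb
    have hb' : Black ((suc ω)^[N - 1] v) := by
      have h3 := h.alternate h1 h2 (i := N - 1) (j := N) (by omega) le_rfl
      have h4 : Even (N - 1) ↔ ¬ Even N := by
        obtain ⟨l, rfl⟩ : ∃ l, N = l + 1 := ⟨N - 1, by omega⟩
        rw [Nat.even_add_one]
        simp
      rw [black_iff_not_white]
      tauto
    refine ⟨N - 1, Or.inr (by omega), hb', hfst (N - 1) (by omega) (by omega) hb', Or.inr ?_⟩
    have hstep : ω.2 ((suc ω)^[N - 1] v) = (suc ω)^[N] v := by
      rw [← suc_black hb', ← Function.iterate_succ_apply' (suc ω) (N - 1) v]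
      congr 1
      omega
    have hmove := h.move (N - 1) (by omega)
    rw [suc_black hb'] at hmove
    refine ⟨?_, ?_⟩
    · by_contra hc
      exact hmove (h2.off _ hc)
    · rw [hstep]
      have hex := h.exit
      rw [suc_white hw] at hex
      exact (pm_fix_iff h1).1 hex

/-- a family of disjoint time intervals on finitely many disjoint runs gives an arc system -/
theorem arcSys_of_times {ι κ : Type*} (h1 : IsPM V₁ ω.1) (h2 : IsPM V₂ ω.2)
    (v : κ → Pt) (N : κ → ℕ) (hR : ∀ r, Run ω (v r) (N r))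
    (hdis : ∀ r r', r ≠ r' → ∀ i ≤ N r, ∀ j ≤ N r', (suc ω)^[i] (v r) ≠ (suc ω)^[j] (v r'))
    (r : ι → κ) (a e : ι → ℕ) (hae : ∀ i, a i < e i) (heN : ∀ i, e i ≤ N (r i))
    (hint : ∀ i i', i ≠ i' → r i = r i' → e i < a i' ∨ e i' < a i)
    (hw : ∀ i, White ((suc ω)^[a i] (v (r i)))) (hb : ∀ i, Black ((suc ω)^[e i] (v (r i)))) :
    ∃ k : ι → ℕ, ArcSys V₁ ω (fun i => (suc ω)^[a i] (v (r i))) k ∧
      ∀ i, aend ω (fun i => (suc ω)^[a i] (v (r i))) k i = (suc ω)^[e i] (v (r i)) := by
  have hpar : ∀ i, ∃ k, e i = a i + (2 * k + 1) := by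
    intro i
    have h3 := (hR (r i)).alternate h1 h2 (i := a i) (j := e i) (by have := hae i; have := heN i; omega)
      (heN i)
    have h4 : ¬ (Even (a i) ↔ Even (e i)) := by
      rw [← h3]
      have := hw i
      have h5 := hb i
      rw [black_iff_not_white] at h5
      tauto
    have h5 := hae i
    refine ⟨(e i - a i) / 2, ?_⟩
    rw [Nat.even_iff, Nat.even_iff] at h4
    omega
  choose k hk using hpar
  have hit : ∀ i j, (suc ω)^[j] ((suc ω)^[a i] (v (r i))) = (suc ω)^[a i + j] (v (r i)) := by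
    intro i j
    rw [add_comm, Function.iterate_add_apply]
  refine ⟨k, ⟨hw, ?_, ?_, ?_, ?_⟩, ?_⟩
  · intro i
    have hmove := (hR (r i)).move (a i) (by have := hae i; have := heN i; omega)
    rw [suc_white (hw i)] at hmove
    by_contra hc
    exact hmove (h1.off _ hc)
  · intro i j hj
    simp only [hit]
    exact (hR (r i)).move _ (by have := hk i; have := heN i; omega)
  · intro i j hj hj'
    simp only [hit]
    exact ((hR (r i)).inj (a i) (a i + j) (by omega) (by have := hk i; have := heN i; omega)).symm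
  · intro i i' hii j hj j' hj'
    simp only [hit]
    by_cases hr : r i = r i'
    · have hki := hk i
      have hki' := hk i'
      have hei := heN i
      have hei' := heN i'
      rcases hint i i' hii hr with h | h
      · rw [hr] at hei ⊢
        exact (hR (r i')).inj _ _ (by omega) (by omega)
      · rw [hr] at hei ⊢
        exact ((hR (r i')).inj _ _ (by omega) (by omega)).symm
    · exact hdis _ _ hr _ (by have := hk i; have := heN i; omega) _
        (by have := hk i'; have := heN i'; omega)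
  · intro i
    unfold aend
    simp only [hit]
    rw [← hk i]

/-- **visits give arcs**: the run passes at the times `t 0 < t 1 < … < t (m-1)`; arc `j` goes from
(one of the two times) `t (2j)` to `t (2j+1)`, or to the exit if `2j+1 = m`. -/
theorem Run.arcs_of_visits (h1 : IsPM V₁ ω.1) (h2 : IsPM V₂ ω.2) (h : Run ω v N) (m : ℕ)
    (t : ℕ → ℕ) (ht : ∀ i, i + 1 < m → t i + 1 < t (i + 1)) (htN : ∀ i, i < m → t i + 3 ≤ N) :
    ∃ a e : Fin ((m + 1) / 2) → ℕ, (∀ i, a i < e i) ∧ (∀ i, e i ≤ N) ∧
      (∀ i i', i < i' → e i < a i') ∧ (∀ i, White ((suc ω)^[a i] v)) ∧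
      (∀ i, Black ((suc ω)^[e i] v)) ∧ (∀ i, a i = t (2 * i) ∨ a i = t (2 * i) + 1) ∧
      (∀ i : Fin ((m + 1) / 2), 2 * (i : ℕ) + 1 < m →
        (e i = t (2 * i + 1) ∨ e i = t (2 * i + 1) + 1)) ∧
      (∀ i : Fin ((m + 1) / 2), ¬ 2 * (i : ℕ) + 1 < m → IsExit V₁ V₂ ω ((suc ω)^[e i] v)) := by
  have hmono : ∀ i j, i ≤ j → j < m → t i ≤ t j := by
    intro i j hij
    induction j with
    | zero => intro _; have : i = 0 := by omega
              rw [this]
    | succ j ih =>
      intro hj
      rcases Nat.lt_or_ge i (j + 1) with h3 | h3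
      · have := ih (by omega) (by omega)
        have := ht j hj
        omega
      · have : i = j + 1 := by omega
        rw [this]
  have hlt : ∀ i j, i < j → j < m → t i + 1 < t j := by
    intro i j hij hj
    have h3 := ht i (by omega)
    have h4 := hmono (i + 1) j (by omega) hj
    omega
  have hj2 : ∀ j : Fin ((m + 1) / 2), 2 * (j : ℕ) < m := by
    intro j; have := j.2; omega
  have hwt : ∀ j : Fin ((m + 1) / 2), ∃ a, (a = t (2 * j) ∨ a = t (2 * j) + 1) ∧
      White ((suc ω)^[a] v) := by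
    intro j
    exact h.white_time h1 h2 (by have := htN _ (hj2 j); omega)
  have hbt : ∀ j : Fin ((m + 1) / 2), ∃ e, Black ((suc ω)^[e] v) ∧
      (2 * (j : ℕ) + 1 < m → (e = t (2 * j + 1) ∨ e = t (2 * j + 1) + 1)) ∧
      (¬ 2 * (j : ℕ) + 1 < m → (e = N ∨ e + 1 = N) ∧ IsExit V₁ V₂ ω ((suc ω)^[e] v)) := by
    intro j
    by_cases hj : 2 * (j : ℕ) + 1 < m
    · obtain ⟨e, he, hb⟩ := h.black_time h1 h2 (t := t (2 * j + 1)) (by have := htN _ hj; omega)
      exact ⟨e, hb, fun _ => he, fun h3 => absurd hj h3⟩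
    · obtain ⟨e, he, hb⟩ := h.exit_time h1 h2 (by have := htN _ (hj2 j); omega)
      exact ⟨e, hb.black, fun h3 => absurd h3 hj, fun _ => ⟨he, hb⟩⟩
  choose a ha haw using hwt
  choose e heb he1 he2 using hbt
  refine ⟨a, e, ?_, ?_, ?_, haw, heb, ha, he1, fun i hi => (he2 i hi).2⟩
  · intro j
    have h3 := ha j
    by_cases hj : 2 * (j : ℕ) + 1 < m
    · have h4 := he1 j hj
      have h5 := hlt (2 * j) (2 * j + 1) (by omega) hj
      omega
    · have h4 := (he2 j hj).1
      have h5 := htN _ (hj2 j)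
      omega
  · intro j
    by_cases hj : 2 * (j : ℕ) + 1 < m
    · have h4 := he1 j hj
      have h5 := htN _ hj
      omega
    · have h4 := (he2 j hj).1
      omega
  · intro j j' hjj
    have hjj' : (j : ℕ) < j' := hjj
    have h6 := hj2 j'
    have h3 := ha j'
    have h4 := he1 j (by omega)
    have h5 := hlt (2 * j + 1) (2 * j') (by omega) h6
    omega

end

end Vale.Agent.P155.SW
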