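import Vale.Agent.P155.Defs

/-!
# P155, block A5/A6/F1: swapping two matchings along components
-/

namespace Vale.Agent.P155.SW

open Finset Vale.Agent.P155

theorem adj_symm {u v : Pt} (h : Adj u v) : Adj v u := by
  unfold Adj at *
  rwa [abs_sub_comm v.1 u.1, abs_sub_comm v.2 u.2]

theorem adj_irrefl (v : Pt) : ¬ Adj v v := by
  unfold Adj; simp

theorem white_iff_of_adj {u v : Pt} (h : Adj u v) : White v ↔ ¬ White u := by
  unfold Adj at h; unfold White
  rw [Int.odd_iff, Int.odd_iff]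
  rcases abs_cases (u.1 - v.1) with ⟨h1, _⟩ | ⟨h1, _⟩ <;>
      rcases abs_cases (u.2 - v.2) with ⟨h2, _⟩ | ⟨h2, _⟩ <;> omega

theorem black_iff_not_white {v : Pt} : Black v ↔ ¬ White v := by
  unfold Black White
  rw [Int.not_odd_iff_even]

theorem pm_mem {V : Finset Pt} {m : Pt → Pt} (h : IsPM V m) {v : Pt} (hv : v ∈ V) : m v ∈ V := by
  by_contra hc
  have h1 := h.off _ hc
  rw [h.invol] at h1
  exact adj_irrefl v (by have := h.adj v hv; rwa [← h1] at this)

theorem pm_fix_iff {V : Finset Pt} {m : Pt → Pt} (h : IsPM V m) {v : Pt} : m v = v ↔ v ∉ V := by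
  constructor
  · intro h1 hv
    exact adj_irrefl v (by have := h.adj v hv; rwa [h1] at this)
  · exact h.off v

/-- both maps are involutions -/
structure Inv2 (ω : Conf) : Prop where
  i1 : ∀ v, ω.1 (ω.1 v) = v
  i2 : ∀ v, ω.2 (ω.2 v) = v

theorem same_fst (ω : Conf) (v : Pt) : Same ω v (ω.1 v) := Relation.ReflTransGen.single (Or.inl rfl)

theorem same_snd (ω : Conf) (v : Pt) : Same ω v (ω.2 v) := Relation.ReflTransGen.single (Or.inr rfl)

theorem same_refl (ω : Conf) (v : Pt) : Same ω v v := Relation.ReflTransGen.refl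

theorem same_trans {ω : Conf} {u v w : Pt} (h1 : Same ω u v) (h2 : Same ω v w) : Same ω u w :=
  Relation.ReflTransGen.trans h1 h2

theorem comp_sub {ω : Conf} {x : Pt} {S : Set Pt} (hx : x ∈ S) (h1 : ∀ v ∈ S, ω.1 v ∈ S)
    (h2 : ∀ v ∈ S, ω.2 v ∈ S) : comp ω x ⊆ S := by
  intro y hy
  induction hy with
  | refl => exact hx
  | tail _ h ih =>
    rcases h with rfl | rfl
    exacts [h1 _ ih, h2 _ ih]

theorem same_symm {ω : Conf} (h : Inv2 ω) {u v : Pt} (huv : Same ω u v) : Same ω v u := by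
  induction huv with
  | refl => exact Relation.ReflTransGen.refl
  | @tail b c _ hbc ih =>
    have h1 : Same ω c b := by
      rcases hbc with rfl | rfl
      · exact Relation.ReflTransGen.single (Or.inl (h.i1 _).symm)
      · exact Relation.ReflTransGen.single (Or.inr (h.i2 _).symm)
    exact h1.trans ih

theorem comp_eq_of_same {ω : Conf} (h : Inv2 ω) {u v : Pt} (huv : Same ω u v) :
    comp ω u = comp ω v := by
  ext y
  exact ⟨fun hy => same_trans (same_symm h huv) hy, fun hy => same_trans huv hy⟩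

theorem fst_mem_comp {ω : Conf} {x v : Pt} (hv : v ∈ comp ω x) : ω.1 v ∈ comp ω x :=
  same_trans hv (same_fst ω v)

theorem snd_mem_comp {ω : Conf} {x v : Pt} (hv : v ∈ comp ω x) : ω.2 v ∈ comp ω x :=
  same_trans hv (same_snd ω v)

/-- `S` is closed under both maps -/
def Cl (ω : Conf) (S : Set Pt) : Prop := ∀ v ∈ S, ω.1 v ∈ S ∧ ω.2 v ∈ S

theorem cl_comp (ω : Conf) (x : Pt) : Cl ω (comp ω x) := fun _ hv => ⟨fst_mem_comp hv, snd_mem_comp hv⟩

theorem Cl.union {ω : Conf} {S T : Set Pt} (hS : Cl ω S) (hT : Cl ω T) : Cl ω (S ∪ T) := by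
  rintro v (hv | hv)
  · exact ⟨Or.inl (hS v hv).1, Or.inl (hS v hv).2⟩
  · exact ⟨Or.inr (hT v hv).1, Or.inr (hT v hv).2⟩

open Classical in
/-- exchange the two matchings on `S` -/
noncomputable def swapOn (S : Set Pt) (ω : Conf) : Conf :=
  (fun v => if v ∈ S then ω.2 v else ω.1 v, fun v => if v ∈ S then ω.1 v else ω.2 v)

theorem swapOn_fst_mem {S : Set Pt} {ω : Conf} {v : Pt} (h : v ∈ S) : (swapOn S ω).1 v = ω.2 v := by
  simp [swapOn, h]

theorem swapOn_fst_not {S : Set Pt} {ω : Conf} {v : Pt} (h : v ∉ S) : (swapOn S ω).1 v = ω.1 v := by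
  simp [swapOn, h]

theorem swapOn_snd_mem {S : Set Pt} {ω : Conf} {v : Pt} (h : v ∈ S) : (swapOn S ω).2 v = ω.1 v := by
  simp [swapOn, h]

theorem swapOn_snd_not {S : Set Pt} {ω : Conf} {v : Pt} (h : v ∉ S) : (swapOn S ω).2 v = ω.2 v := by
  simp [swapOn, h]

theorem swapOn_swapOn (S : Set Pt) (ω : Conf) : swapOn S (swapOn S ω) = ω := by
  apply Prod.ext <;> funext v <;> by_cases h : v ∈ S
  · rw [swapOn_fst_mem h, swapOn_snd_mem h]
  · rw [swapOn_fst_not h, swapOn_fst_not h]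
  · rw [swapOn_snd_mem h, swapOn_fst_mem h]
  · rw [swapOn_snd_not h, swapOn_snd_not h]

theorem same_swapOn (S : Set Pt) (ω : Conf) : Same (swapOn S ω) = Same ω := by
  unfold Same
  congr 1
  funext u v
  by_cases h : u ∈ S
  · rw [swapOn_fst_mem h, swapOn_snd_mem h]; exact propext or_comm
  · rw [swapOn_fst_not h, swapOn_snd_not h]

theorem comp_swapOn (S : Set Pt) (ω : Conf) (x : Pt) : comp (swapOn S ω) x = comp ω x := by
  unfold comp
  rw [same_swapOn]

theorem pm_swapOn_fst {V₁ V₂ W : Finset Pt} {ω : Conf} (h1 : IsPM V₁ ω.1) (h2 : IsPM V₂ ω.2)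
    {S : Set Pt} (hS : Cl ω S)
    (hW : ∀ v, v ∈ W ↔ (v ∈ S ∧ v ∈ V₂) ∨ (v ∉ S ∧ v ∈ V₁)) : IsPM W (swapOn S ω).1 := by
  have hcompl : ∀ v, v ∉ S → ω.1 v ∉ S := by
    intro v hv hc
    have := (hS _ hc).1
    rw [h1.invol] at this
    exact hv this
  refine ⟨fun v => ?_, fun v hv => ?_, fun v hv => ?_⟩
  · by_cases h : v ∈ S
    · rw [swapOn_fst_mem h, swapOn_fst_mem (hS v h).2, h2.invol]
    · rw [swapOn_fst_not h, swapOn_fst_not (hcompl v h), h1.invol]
  · by_cases h : v ∈ S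
    · rw [swapOn_fst_mem h]
      exact h2.off v (fun h' => hv ((hW v).2 (Or.inl ⟨h, h'⟩)))
    · rw [swapOn_fst_not h]
      exact h1.off v (fun h' => hv ((hW v).2 (Or.inr ⟨h, h'⟩)))
  · rcases (hW v).1 hv with ⟨h, h'⟩ | ⟨h, h'⟩
    · rw [swapOn_fst_mem h]; exact h2.adj v h'
    · rw [swapOn_fst_not h]; exact h1.adj v h'

theorem pm_swapOn_snd {V₁ V₂ W : Finset Pt} {ω : Conf} (h1 : IsPM V₁ ω.1) (h2 : IsPM V₂ ω.2)
    {S : Set Pt} (hS : Cl ω S)
    (hW : ∀ v, v ∈ W ↔ (v ∈ S ∧ v ∈ V₁) ∨ (v ∉ S ∧ v ∈ V₂)) : IsPM W (swapOn S ω).2 := by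
  have hcompl : ∀ v, v ∉ S → ω.2 v ∉ S := by
    intro v hv hc
    have := (hS _ hc).2
    rw [h2.invol] at this
    exact hv this
  refine ⟨fun v => ?_, fun v hv => ?_, fun v hv => ?_⟩
  · by_cases h : v ∈ S
    · rw [swapOn_snd_mem h, swapOn_snd_mem (hS v h).1, h1.invol]
    · rw [swapOn_snd_not h, swapOn_snd_not (hcompl v h), h2.invol]
  · by_cases h : v ∈ S
    · rw [swapOn_snd_mem h]
      exact h1.off v (fun h' => hv ((hW v).2 (Or.inl ⟨h, h'⟩)))
    · rw [swapOn_snd_not h]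
      exact h2.off v (fun h' => hv ((hW v).2 (Or.inr ⟨h, h'⟩)))
  · rcases (hW v).1 hv with ⟨h, h'⟩ | ⟨h, h'⟩
    · rw [swapOn_snd_mem h]; exact h1.adj v h'
    · rw [swapOn_snd_not h]; exact h2.adj v h'

/-! ## The end point lemma -/

theorem period_pos (τ : Equiv.Perm Pt) (T : Finset Pt) (hT : ∀ v ∈ T, τ v ∈ T) {x : Pt}
    (hx : x ∈ T) : 0 < Function.minimalPeriod (τ • ·) x := by
  have hmem : ∀ k : ℕ, (τ ^ k) x ∈ T := by
    intro k
    induction k with
    | zero => simpa using hx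
    | succ k ih => rw [pow_succ', Equiv.Perm.mul_apply]; exact hT _ ih
  obtain ⟨i, j, hij, he⟩ := Finite.exists_ne_map_eq_of_infinite
    (fun k : ℕ => (⟨(τ ^ k) x, hmem k⟩ : T))
  have he' : (τ ^ i) x = (τ ^ j) x := congrArg Subtype.val he
  rw [Nat.pos_iff_ne_zero]
  intro h0
  have key : (τ ^ ((i : ℤ) - j)) • x = x := by
    rw [sub_eq_neg_add, zpow_add, zpow_neg, zpow_natCast, zpow_natCast, Equiv.Perm.smul_def,
      Equiv.Perm.mul_apply, he', Equiv.Perm.inv_eq_iff_eq]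
  rw [MulAction.zpow_smul_eq_iff_minimalPeriod_dvd, h0] at key
  simp only [Nat.cast_zero, zero_dvd_iff] at key
  omega

theorem endpoint {V₁ V₂ : Finset Pt} {ω : Conf} (h1 : IsPM V₁ ω.1) (h2 : IsPM V₂ ω.2) {x : Pt}
    (hx1 : x ∉ V₁) (hx2 : x ∈ V₂) :
    ∃ e, Same ω x e ∧ e ≠ x ∧ ((e ∉ V₁ ∧ e ∈ V₂ ∧ (White e ↔ ¬ White x)) ∨
      (e ∈ V₁ ∧ e ∉ V₂ ∧ (White e ↔ White x))) ∧
      ∀ y, Same ω x y → (y ∉ V₁ ∨ y ∉ V₂) → y = x ∨ y = e := by
  classical
  set p1 : Equiv.Perm Pt := Function.Involutive.toPerm ω.1 h1.invol with hp1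
  set p2 : Equiv.Perm Pt := Function.Involutive.toPerm ω.2 h2.invol with hp2
  have hp1a : ∀ v, p1 v = ω.1 v := fun v => rfl
  have hp2a : ∀ v, p2 v = ω.2 v := fun v => rfl
  set τ : Equiv.Perm Pt := p1 * p2 with hτ
  set n : ℕ := Function.minimalPeriod (τ • ·) x with hn
  set g : ℤ → Pt := fun k => (τ ^ k) x with hg
  have hx : p1 x = x := h1.off x hx1
  have p1i : p1⁻¹ = p1 := by
    ext1 v; rw [Equiv.Perm.inv_eq_iff_eq]; exact (h1.invol v).symm
  have p2i : p2⁻¹ = p2 := by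
    ext1 v; rw [Equiv.Perm.inv_eq_iff_eq]; exact (h2.invol v).symm
  have hconj : p1 * τ * p1⁻¹ = τ⁻¹ := by
    rw [hτ, mul_inv_rev, p1i, p2i]
    have : p1 * p1 = 1 := by nth_rewrite 2 [← p1i]; exact mul_inv_cancel p1
    rw [← mul_assoc, this, one_mul]
  have g1 : ∀ k, ω.1 (g k) = g (-k) := by
    intro k
    have h3 : p1 * τ ^ k * p1⁻¹ = (τ⁻¹) ^ k := by rw [← conj_zpow, hconj]
    have h4 : (p1 * τ ^ k * p1⁻¹) (p1 x) = p1 ((τ ^ k) x) := by
      simp [Equiv.Perm.mul_apply]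
    rw [h3, hx, inv_zpow'] at h4
    exact h4.symm
  have g2 : ∀ k, ω.2 (g k) = g (-k - 1) := by
    intro k
    have h3 : ω.2 (g k) = ω.1 (g (k + 1)) := by
      have : g (k + 1) = τ (g k) := by
        show (τ ^ (k + 1)) x = τ ((τ ^ k) x)
        rw [add_comm, zpow_add, zpow_one, Equiv.Perm.mul_apply]
      rw [this]
      show ω.2 (g k) = ω.1 (ω.1 (ω.2 (g k)))
      rw [h1.invol]
    rw [h3, g1]; congr 1; ring
  have geq : ∀ k j, g k = g j ↔ (n : ℤ) ∣ k - j := by
    intro k j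
    rw [hn, ← MulAction.zpow_smul_eq_iff_minimalPeriod_dvd, Equiv.Perm.smul_def]
    rw [sub_eq_neg_add, zpow_add, Equiv.Perm.mul_apply, zpow_neg, Equiv.Perm.inv_eq_iff_eq]
  have hxg : x = g 0 := by simp [hg]
  have hmemT : ∀ v ∈ V₁ ∪ V₂, τ v ∈ V₁ ∪ V₂ := by
    have a1 : ∀ v ∈ V₁ ∪ V₂, ω.1 v ∈ V₁ ∪ V₂ := by
      intro v hv
      by_cases h : v ∈ V₁
      · exact mem_union_left _ (pm_mem h1 h)
      · rwa [h1.off v h]
    have a2 : ∀ v ∈ V₁ ∪ V₂, ω.2 v ∈ V₁ ∪ V₂ := by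
      intro v hv
      by_cases h : v ∈ V₂
      · exact mem_union_right _ (pm_mem h2 h)
      · rwa [h2.off v h]
    intro v hv
    exact a1 _ (a2 _ hv)
  have npos : 0 < n := period_pos τ (V₁ ∪ V₂) hmemT (mem_union_right _ hx2)
  have sameg : ∀ k, Same ω x (g k) := by
    have hI : Inv2 ω := ⟨h1.invol, h2.invol⟩
    have hnat : ∀ k : ℕ, Same ω x (g k) := by
      intro k
      induction k with
      | zero => rw [Nat.cast_zero, ← hxg]; exact same_refl _ _
      | succ k ih =>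
        have : g ((k + 1 : ℕ) : ℤ) = ω.1 (ω.2 (g k)) := by
          rw [g2, g1]; congr 1; push_cast; ring
        rw [this]
        exact same_trans (same_trans ih (same_snd ω _)) (same_fst ω _)
    intro k
    rcases le_total 0 k with hk | hk
    · obtain ⟨m, rfl⟩ := Int.eq_ofNat_of_zero_le hk
      exact hnat m
    · obtain ⟨m, hm⟩ := Int.eq_ofNat_of_zero_le (neg_nonneg.2 hk)
      have : g k = ω.1 (g m) := by rw [g1]; congr 1; omega
      rw [this]
      exact same_trans (hnat m) (same_fst ω _)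
  have allg : ∀ y, Same ω x y → ∃ k, y = g k := by
    intro y hy
    have : comp ω x ⊆ {y | ∃ k, y = g k} := by
      apply comp_sub
      · exact ⟨0, hxg⟩
      · rintro v ⟨k, rfl⟩; exact ⟨-k, g1 k⟩
      · rintro v ⟨k, rfl⟩; exact ⟨-k - 1, g2 k⟩
    exact this hy
  have nV1 : ∀ k, g k ∉ V₁ ↔ (n : ℤ) ∣ 2 * k := by
    intro k
    rw [← pm_fix_iff h1, g1, geq, show -k - k = -(2 * k) by ring, dvd_neg]
  have nV2 : ∀ k, g k ∉ V₂ ↔ (n : ℤ) ∣ 2 * k + 1 := by
    intro k
    rw [← pm_fix_iff h2, g2, geq, show -k - 1 - k = -(2 * k + 1) by ring, dvd_neg]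
  have nodvd : ∀ j : ℤ, 0 < j → j < n → ¬ (n : ℤ) ∣ j := by
    intro j hj hjn hd
    have := Int.le_of_dvd hj hd
    omega
  have col : ∀ k : ℕ, 2 * k < n → (White (g k) ↔ White x) := by
    intro k
    induction k with
    | zero => intro _; rw [Nat.cast_zero, ← hxg]
    | succ k ih =>
      intro hk
      have e1 : g ((k + 1 : ℕ) : ℤ) = ω.1 (g (-(k : ℤ) - 1)) := by
        rw [g1]; congr 1; push_cast; ring
      have e2 : g (-(k : ℤ) - 1) = ω.2 (g k) := (g2 k).symm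
      have m2 : g (k : ℤ) ∈ V₂ := by
        by_contra hc
        exact nodvd _ (by omega) (by omega) ((nV2 _).1 hc)
      have m1 : g (-(k : ℤ) - 1) ∈ V₁ := by
        by_contra hc
        have := (nV1 _).1 hc
        rw [show 2 * (-(k : ℤ) - 1) = -(2 * ((k : ℤ) + 1)) by ring, dvd_neg] at this
        exact nodvd _ (by omega) (by omega) this
      rw [e1, white_iff_of_adj (h1.adj _ m1), e2, white_iff_of_adj (h2.adj _ m2), not_not,
        ih (by omega)]
  rcases Nat.even_or_odd' n with ⟨p, hp | hp⟩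
  · -- `n = 2p`
    have hp0 : 0 < p := by omega
    refine ⟨g p, sameg p, ?_, Or.inl ⟨?_, ?_, ?_⟩, ?_⟩
    · rw [hxg, Ne, geq]
      exact fun h => nodvd _ (by omega) (by omega) h
    · rw [nV1]; exact ⟨1, by rw [hp]; push_cast; ring⟩
    · by_contra hc
      have := (nV2 _).1 hc
      have h2' : (2 : ℤ) ∣ n := ⟨p, by rw [hp]; push_cast; ring⟩
      have := h2'.trans this
      omega
    · have e2 : g p = ω.2 (g ((p - 1 : ℕ) : ℤ)) := by
        rw [g2, geq]
        exact ⟨1, by rw [hp]; push_cast [Nat.cast_sub (show 1 ≤ p by omega)]; ring⟩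
      have m2 : g ((p - 1 : ℕ) : ℤ) ∈ V₂ := by
        by_contra hc
        have := (nV2 _).1 hc
        have h2' : (2 : ℤ) ∣ n := ⟨p, by rw [hp]; push_cast; ring⟩
        have := h2'.trans this
        omega
      rw [e2, white_iff_of_adj (h2.adj _ m2), col (p - 1) (by omega)]
    · intro y hy hy'
      obtain ⟨k, rfl⟩ := allg y hy
      have h2k : (n : ℤ) ∣ 2 * k := by
        rcases hy' with h | h
        · exact (nV1 k).1 h
        · exfalso
          have := (nV2 _).1 h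
          have h2' : (2 : ℤ) ∣ n := ⟨p, by rw [hp]; push_cast; ring⟩
          have := h2'.trans this
          omega
      obtain ⟨j, hj⟩ := h2k
      have hj' : k = p * j := by
        have : (n : ℤ) = 2 * p := by rw [hp]; push_cast; ring
        rw [this] at hj; linarith
      rcases Int.even_or_odd' j with ⟨i, hi | hi⟩
      · left
        rw [hxg, geq]
        exact ⟨i, by rw [hj', hi, hp]; push_cast; ring⟩
      · right
        rw [geq]
        exact ⟨i, by rw [hj', hi, hp]; push_cast; ring⟩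
  · -- `n = 2p + 1`
    have hp0 : 0 < p := by
      rw [Nat.pos_iff_ne_zero]
      rintro rfl
      have : x ∉ V₂ := by
        rw [hxg, nV2, hp]; simp
      exact this hx2
    refine ⟨g p, sameg p, ?_, Or.inr ⟨?_, ?_, ?_⟩, ?_⟩
    · rw [hxg, Ne, geq]
      exact fun h => nodvd _ (by omega) (by omega) h
    · by_contra hc
      exact nodvd _ (by omega) (by omega) ((nV1 _).1 hc)
    · rw [nV2]; exact ⟨1, by rw [hp]; push_cast; ring⟩
    · exact col p (by omega)
    · intro y hy hy'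
      obtain ⟨k, rfl⟩ := allg y hy
      have hodd : IsCoprime (n : ℤ) 2 := by
        rw [hp]; exact ⟨1, -p, by push_cast; ring⟩
      rcases hy' with h | h
      · left
        have := (nV1 k).1 h
        rw [hxg, geq, sub_zero]
        exact hodd.dvd_of_dvd_mul_left this
      · right
        have h3 := (nV2 k).1 h
        rw [geq]
        apply hodd.dvd_of_dvd_mul_left
        obtain ⟨j, hj⟩ := h3
        refine ⟨j - 1, ?_⟩
        have : (n : ℤ) = 2 * p + 1 := by rw [hp]; push_cast; ring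
        have h5 : (n : ℤ) * (j - 1) = n * j - n := by ring
        rw [h5]; linarith [hj, this]

end Vale.Agent.P155.SW
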